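import Crest.Prelude.Def_KMedian
import Crest.Agent.Lib.PT.ListFns
import Crest.Agent.Lib.PT.ListFns2
import Crest.Agent.Lib.PT.ArithRat
import Crest.Agent.Lib.PT.OfTM

-- ▼ part R310/Parse
section

/-!
# R310, block FINAL, part 1: parsing an encoded k-median instance

`RI` is the type of raw instances `(N, k, client mask, facility mask, distance rows)`.
`parse : List Bool → RI` is `PTF` and `parse I.encode = raw I`.
-/

set_option linter.dupNamespace false
set_option autoImplicit false

namespace Crest.Agent.R310

open Crest.Agent.Lib.PT Crest.Agent.Lib.PT.Arith Crest.LogicCS.KMedian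

/-- raw instances: `(N, k, client mask, facility mask, distance rows)` -/
abbrev RI : Type := ℕ × ℕ × List Bool × List Bool × List (List ℚ)

/-- the raw form of an instance -/
def raw (I : Instance) : RI :=
  (I.N, I.k, (List.finRange I.N).map (fun i => decide (i ∈ I.clients)),
    (List.finRange I.N).map (fun i => decide (i ∈ I.facilities)),
    (List.finRange I.N).map (fun i => (List.finRange I.N).map (fun j => I.dist i j)))

/-! ### reading natural numbers and rationals -/

/-- value of a list of bits, least significant first -/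
def ofBits (l : List Bool) : ℕ := l.foldr (fun b n => Nat.bit b n) 0

theorem ofBits_bits (n : ℕ) : ofBits n.bits = n := by
  unfold ofBits
  induction n using Nat.binaryRec' with
  | zero => simp
  | bit b n h ih => rw [Nat.bits_append_bit n b h]; simp [ih]

theorem size_ofBits_le (l : List Bool) : (ofBits l).size ≤ l.length := by
  induction l with
  | nil => simp [ofBits]
  | cons b l ih =>
    have : ofBits (b :: l) = Nat.bit b (ofBits l) := rfl
    rw [this]
    have := size_bit_le b (ofBits l)
    simp only [List.length_cons]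
    omega

/-- read a self-delimiting natural number -/
def takeNat (w : List Bool) : ℕ × List Bool :=
  (ofBits (Crest.Agent.Lib.PT.fst w), (Crest.Agent.Lib.PT.snd w).tail)

theorem natCode_append (n : ℕ) (r : List Bool) :
    natCode n ++ r = Crest.Agent.Lib.PT.pair n.bits (false :: r) := by
  simp [natCode, Crest.Agent.Lib.PT.pair, List.flatMap]

theorem takeNat_natCode (n : ℕ) (r : List Bool) : takeNat (natCode n ++ r) = (n, r) := by
  rw [natCode_append, takeNat]
  simp [ofBits_bits]

theorem ptf_takeNat : PTF takeNat := by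
  have h1 : PTF (fun w : List Bool => Crest.Agent.Lib.PT.fst w) := PT.toPTF_list PT.fst
  have h2 : PTF (fun w : List Bool => Crest.Agent.Lib.PT.snd w) := PT.toPTF_list PT.snd
  exact PTF.prodMk (PTF.ofBits h1) (PTF.tail h2)

theorem takeNat_len (w : List Bool) :
    2 * (takeNat w).1.size + (takeNat w).2.length ≤ w.length := by
  have h := length_fst_add_snd w
  have h1 := size_ofBits_le (Crest.Agent.Lib.PT.fst w)
  have h2 : ((Crest.Agent.Lib.PT.snd w).tail).length ≤ (Crest.Agent.Lib.PT.snd w).length := by
    simp
  simp only [takeNat]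
  omega

/-- read a rational number -/
def takeRat (w : List Bool) : ℚ × List Bool :=
  (mkRat (mkInt (w.head?.getD false) (takeNat w.tail).1) (takeNat (takeNat w.tail).2).1,
    (takeNat (takeNat w.tail).2).2)

theorem takeRat_ratCode (q : ℚ) (r : List Bool) : takeRat (ratCode q ++ r) = (q, r) := by
  have h : ratCode q ++ r = decide (q.num < 0) :: (natCode q.num.natAbs ++ (natCode q.den ++ r)) := by
    simp [ratCode, List.append_assoc]
  rw [h, takeRat]
  simp only [List.head?_cons, Option.getD_some, List.tail_cons, takeNat_natCode]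
  rw [mkInt_eta, Rat.mkRat_self]

theorem ptf_takeRat : PTF takeRat := by
  have h1 : PTF (fun w : List Bool => takeNat w.tail) := PTF.comp ptf_takeNat (by fun_prop)
  have h2 : PTF (fun w : List Bool => takeNat (takeNat w.tail).2) :=
    PTF.comp ptf_takeNat (PTF.comp PTF.snd h1)
  have h3 : PTF (fun w : List Bool => w.head?.getD false) :=
    PTF.optionGetD (by fun_prop) (by fun_prop)
  exact PTF.prodMk (PTF.ratMk (PTF.intMk h3 (PTF.comp PTF.fst h1)) (PTF.comp PTF.fst h2))
    (PTF.comp PTF.snd h2)

theorem size_le_of_le {a b : ℕ} (h : a ≤ b) : a.size ≤ b.size := Nat.size_le_size h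

theorem sz_mkRat_le (z : ℤ) (d : ℕ) : sz (mkRat z d) ≤ 8 + 2 * z.natAbs.size + d.size := by
  have h1 : (mkRat z d).num.natAbs.size ≤ z.natAbs.size := size_le_of_le (natAbs_num_mkRat_le z d)
  have h2 : (mkRat z d).den.size ≤ d.size + 1 := by
    rcases Nat.eq_zero_or_pos d with rfl | hd
    · simp
    · have : (mkRat z d).den ≤ d := by
        rw [Rat.den_mkRat]
        split_ifs with h
        · omega
        · exact Nat.div_le_self _ _
      have := size_le_of_le this
      omega
  rw [sz_rat]
  omega

theorem natAbs_mkInt (b : Bool) (n : ℕ) : (mkInt b n).natAbs = n := by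
  unfold mkInt; cases b <;> simp

theorem takeRat_len (w : List Bool) :
    2 * sz (takeRat w).1 + 6 * (takeRat w).2.length ≤ 16 + 6 * w.length := by
  have h0 : w.tail.length ≤ w.length := by simp
  have h1 := takeNat_len w.tail
  have h2 := takeNat_len (takeNat w.tail).2
  have h3 := sz_mkRat_le (mkInt (w.head?.getD false) (takeNat w.tail).1)
    (takeNat (takeNat w.tail).2).1
  rw [natAbs_mkInt] at h3
  simp only [takeRat]
  omega

/-- one step of the rational parser: state `(rest, parsed so far in reverse order)` -/
def ratStep (s : List Bool × List ℚ) : List Bool × List ℚ :=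
  ((takeRat s.1).2, (takeRat s.1).1 :: s.2)

theorem ptf_ratStep : PTF ratStep := by
  have h1 : PTF (fun s : List Bool × List ℚ => takeRat s.1) := PTF.comp ptf_takeRat PTF.fst
  exact PTF.prodMk (PTF.comp PTF.snd h1) (PTF.listCons (PTF.comp PTF.fst h1) PTF.snd)

theorem sz_ratStep (s : List Bool × List ℚ) : sz (ratStep s) ≤ sz s + 17 := by
  obtain ⟨w, l⟩ := s
  have h := takeRat_len w
  simp only [ratStep, sz_prod, sz_cons, sz_listBool]
  omega

/-- parse `m` rationals -/
def takeRats (m : ℕ) (w : List Bool) : List ℚ := (ratStep^[m] (w, [])).2.reverse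

theorem takeRats_flatten (l : List ℚ) (r : List Bool) :
    takeRats l.length ((l.map ratCode).flatten ++ r) = l := by
  have key : ∀ (l : List ℚ) (acc : List ℚ), ratStep^[l.length] ((l.map ratCode).flatten ++ r, acc) =
      (r, l.reverse ++ acc) := by
    intro l
    induction l with
    | nil => intro acc; simp
    | cons q l ih =>
      intro acc
      simp only [List.length_cons, Function.iterate_succ_apply, List.map_cons, List.flatten_cons,
        List.append_assoc]
      have : ratStep (ratCode q ++ ((l.map ratCode).flatten ++ r), acc) =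
          ((l.map ratCode).flatten ++ r, q :: acc) := by
        simp [ratStep, takeRat_ratCode]
      rw [this, ih]
      simp
  rw [takeRats, key]
  simp

theorem ptf_takeRats {γ : Type} [PTCode γ] {m : γ → ℕ} {w : γ → List Bool} (hm : PTU m)
    (hw : PTF w) : PTF (fun c => takeRats (m c) (w c)) := by
  have h : PTF (fun c => ratStep^[m c] (w c, ([] : List ℚ))) :=
    PTF.iterate_add (f := fun _ s => ratStep s) (a := fun c => (w c, ([] : List ℚ))) hm
      (PTF.comp ptf_ratStep PTF.snd) (PTF.prodMk hw (PTF.const _)) (G := fun _ => 17)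
      (PB.const 17) (fun _ s => sz_ratStep s)
  exact PTF.reverse (PTF.comp PTF.snd h)

/-! ### the parser -/

/-- cut a flat list into `n` rows of length `n` -/
def rowsOf (n : ℕ) (l : List ℚ) : List (List ℚ) :=
  (List.range n).map fun i => (List.range n).map fun j => l.getD (i * n + j) 0

theorem ptf_rowsOf {γ : Type} [PTCode γ] {n : γ → ℕ} {l : γ → List ℚ} (hn : PTU n)
    (hl : PTF l) : PTF (fun c => rowsOf (n c) (l c)) := by
  have hn1 : PTU (fun p : γ × ℕ => n p.1) := PTU.comp hn PTF.fst
  have hn2 : PTU (fun p : (γ × ℕ) × ℕ => n p.1.1) := PTU.comp (n := n) hn (PTF.comp PTF.fst PTF.fst)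
  refine PTF.tabulate hn ?_
  refine PTF.tabulate (γ := γ × ℕ) (n := fun p => n p.1)
    (f := fun p j => (l p.1).getD (p.2 * n p.1 + j) 0) hn1 ?_
  have hidx : PTF (fun p : (γ × ℕ) × ℕ => p.1.2 * n p.1.1 + p.2) :=
    PTF.natAdd (PTF.natMul (by fun_prop) (PTU.toPTF hn2)) (by fun_prop)
  have hlen : PTU (fun p : (γ × ℕ) × ℕ => (l p.1.1).length) :=
    PTU.length (PTF.comp hl (PTF.comp PTF.fst PTF.fst))
  have hmin : PTU (fun p : (γ × ℕ) × ℕ => min (p.1.2 * n p.1.1 + p.2) (l p.1.1).length) :=
    PTF.natMinUn hidx hlen
  have h := PTF.getD (d := fun _ => (0 : ℚ)) hmin (PTF.comp hl (PTF.comp PTF.fst PTF.fst))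
    (PTF.const _)
  refine PTF.of_eq h (fun p => ?_)
  rcases Nat.lt_or_ge (p.1.2 * n p.1.1 + p.2) (l p.1.1).length with h1 | h1
  · rw [min_eq_left h1.le]
  · rw [min_eq_right h1, List.getD_eq_default _ _ le_rfl]
    exact (List.getD_eq_default _ _ h1).symm

/-- the parser -/
def parse (w : List Bool) : RI :=
  let a := takeNat w
  let b := takeNat a.2
  let n := min a.1 w.length
  let c := b.2.take n
  let w1 := b.2.drop n
  let f := w1.take n
  let w2 := w1.drop n
  (a.1, b.1, c, f, rowsOf n (takeRats (n * n) w2))

theorem ptf_parse : PTF parse := by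
  have ha : PTF (fun w : List Bool => takeNat w) := ptf_takeNat
  have hb : PTF (fun w : List Bool => takeNat (takeNat w).2) := PTF.comp ptf_takeNat (PTF.comp PTF.snd ha)
  have hn : PTU (fun w : List Bool => min (takeNat w).1 w.length) :=
    PTF.natMinUn (PTF.comp PTF.fst ha) (PTU.length PTF.id)
  have hb2 : PTF (fun w : List Bool => (takeNat (takeNat w).2).2) := PTF.comp PTF.snd hb
  have hw1 := PTF.drop hn hb2
  have hw2 := PTF.drop hn hw1
  exact PTF.prodMk (PTF.comp PTF.fst ha) (PTF.prodMk (PTF.comp PTF.fst hb)
    (PTF.prodMk (PTF.take hn hb2) (PTF.prodMk (PTF.take hn hw1)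
      (ptf_rowsOf hn (ptf_takeRats (PTU.mul hn hn) hw2)))))

theorem flatten_ratCodes {α : Type} (l : List α) (f : α → List ℚ) :
    (l.map fun i => ((f i).map ratCode).flatten).flatten
    = ((l.map f).flatten.map ratCode).flatten := by
  induction l with
  | nil => simp
  | cons a l ih => simp [ih]

theorem getD_flatten {α : Type} (d : α) {N : ℕ} (rows : List (List α))
    (h : ∀ r ∈ rows, r.length = N) (i j : ℕ) (hj : j < N) :
    rows.flatten.getD (i * N + j) d = (rows.getD i []).getD j d := by
  induction rows generalizing i with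
  | nil => simp
  | cons r rows ih =>
    have hr : r.length = N := h r (by simp)
    have ih' := ih (fun r hr => h r (by simp [hr]))
    rw [List.flatten_cons]
    cases i with
    | zero => rw [Nat.zero_mul, Nat.zero_add, List.getD_append _ _ _ _ (by omega)]; simp
    | succ i =>
      have e : (i + 1) * N + j = N + (i * N + j) := by ring
      rw [e, List.getD_append_right _ _ _ _ (by omega)]
      have : N + (i * N + j) - r.length = i * N + j := by omega
      rw [this, ih' i]
      simp

theorem getD_finRange_map {α : Type} {N : ℕ} (f : Fin N → α) (d : α) (i : Fin N) :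
    ((List.finRange N).map f).getD i d = f i := by
  simp [List.getD_eq_getElem?_getD]

theorem rowsOf_flatten {N : ℕ} (f : Fin N → Fin N → ℚ) :
    rowsOf N ((List.finRange N).map fun i => (List.finRange N).map fun j => f i j).flatten
    = (List.finRange N).map fun i => (List.finRange N).map fun j => f i j := by
  have hr : List.range N = (List.finRange N).map (fun i : Fin N => (i : ℕ)) := by
    simp
  unfold rowsOf
  rw [hr, List.map_map]
  refine List.map_congr_left (fun i _ => ?_)
  simp only [Function.comp]
  rw [List.map_map]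
  refine List.map_congr_left (fun j _ => ?_)
  simp only [Function.comp]
  rw [getD_flatten 0 _ (by simp) _ _ j.2, getD_finRange_map, getD_finRange_map]

theorem parse_encode (I : Instance) : parse I.encode = raw I := by
  have hlen : I.N ≤ I.encode.length := by
    simp only [Instance.encode, List.length_append, List.length_map, List.length_finRange]
    omega
  unfold parse
  have e : I.encode = natCode I.N ++ (natCode I.k ++
      ((List.finRange I.N).map (fun i => decide (i ∈ I.clients)) ++
      ((List.finRange I.N).map (fun i => decide (i ∈ I.facilities)) ++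
      ((List.finRange I.N).map fun i => ((List.finRange I.N).map fun j => ratCode (I.dist i j)).flatten).flatten))) := by
    simp [Instance.encode, List.append_assoc]
  have h1 := takeNat_natCode I.N (natCode I.k ++
      ((List.finRange I.N).map (fun i => decide (i ∈ I.clients)) ++
      ((List.finRange I.N).map (fun i => decide (i ∈ I.facilities)) ++
      ((List.finRange I.N).map fun i => ((List.finRange I.N).map fun j => ratCode (I.dist i j)).flatten).flatten)))
  rw [← e] at h1
  have hlen' : min I.N I.encode.length = I.N := min_eq_left hlen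
  simp only [h1, takeNat_natCode, hlen']
  rw [List.take_left' (by simp), List.drop_left' (by simp), List.take_left' (by simp),
    List.drop_left' (by simp)]
  unfold raw
  congr 4
  have h2 : ((List.finRange I.N).map fun i => ((List.finRange I.N).map fun j => ratCode (I.dist i j)).flatten).flatten
      = ((((List.finRange I.N).map fun i => (List.finRange I.N).map fun j => I.dist i j).flatten).map ratCode).flatten := by
    have := flatten_ratCodes (List.finRange I.N) (fun i => (List.finRange I.N).map fun j => I.dist i j)
    rw [← this]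
    simp [List.map_map, Function.comp_def]
  have h3 : ((List.finRange I.N).map fun i => (List.finRange I.N).map fun j => I.dist i j).flatten.length
      = I.N * I.N := by
    simp [List.length_flatten, Function.comp_def]
  have h4 := takeRats_flatten ((List.finRange I.N).map fun i => (List.finRange I.N).map fun j => I.dist i j).flatten []
  rw [h3, List.append_nil] at h4
  rw [h2, h4, rowsOf_flatten]

end Crest.Agent.R310
end

-- ▼ part R310/Final

/-!
# R310, block FINAL, part 2: from a candidate generator to the theorem

`kmedian_of_candidates`: a `PTF` function `G : RI → List (List ℕ)` that lists, for every valid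
instance, at least one good solution gives the statement S0482 for that `ε`.
-/

set_option linter.dupNamespace false
set_option autoImplicit false

namespace Crest.Agent.R310

open Crest.Agent.Lib.PT Crest.Agent.Lib.PT.Arith Crest.LogicCS.KMedian

section generic

variable {α β γ : Type} [PTCode α] [PTCode β] [PTCode γ]

/-- list access with a binary index -/
theorem ptf_getDN {n : γ → ℕ} {l : γ → List α} {d : γ → α} (hn : PTF n) (hl : PTF l)
    (hd : PTF d) : PTF (fun c => (l c).getD (n c) (d c)) := by
  have hmin : PTU (fun c => min (n c) (l c).length) := PTF.natMinUn hn (PTU.length hl)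
  refine PTF.of_eq (PTF.getD hmin hl hd) (fun c => ?_)
  rcases Nat.lt_or_ge (n c) (l c).length with h1 | h1
  · rw [min_eq_left h1.le]
  · rw [min_eq_right h1, List.getD_eq_default _ _ le_rfl, List.getD_eq_default _ _ h1]

/-- minimum of a list of rationals (`0` for the empty list) -/
def listMin (l : List ℚ) : ℚ := l.foldl min (l.headD 0)

theorem foldl_min_le (l : List ℚ) (a : ℚ) : l.foldl min a ≤ a ∧ ∀ b ∈ l, l.foldl min a ≤ b := by
  induction l generalizing a with
  | nil => simp
  | cons c l ih =>
    simp only [List.foldl_cons]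
    obtain ⟨h1, h2⟩ := ih (min a c)
    refine ⟨h1.trans (min_le_left _ _), ?_⟩
    intro b hb
    rcases List.mem_cons.1 hb with rfl | hb
    · exact h1.trans (min_le_right _ _)
    · exact h2 b hb

theorem foldl_min_mem (l : List ℚ) (a : ℚ) : l.foldl min a = a ∨ l.foldl min a ∈ l := by
  induction l generalizing a with
  | nil => simp
  | cons c l ih =>
    simp only [List.foldl_cons]
    rcases ih (min a c) with h | h
    · rw [h]
      rcases min_choice a c with h' | h' <;> rw [h']
      · exact Or.inl rfl
      · exact Or.inr (by simp)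
    · exact Or.inr (List.mem_cons_of_mem _ h)

theorem listMin_le {l : List ℚ} {b : ℚ} (hb : b ∈ l) : listMin l ≤ b := (foldl_min_le l _).2 b hb

theorem listMin_mem {l : List ℚ} (hl : l ≠ []) : listMin l ∈ l := by
  cases l with
  | nil => exact absurd rfl hl
  | cons a l =>
    rcases foldl_min_mem (a :: l) a with h | h
    · have : listMin (a :: l) = a := h
      rw [this]; simp
    · exact h

theorem ptf_listMin {l : γ → List ℚ} (hl : PTF l) : PTF (fun c => listMin (l c)) := by
  have hhead : PTF (fun c => (l c).headD 0) := by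
    refine PTF.of_eq (PTF.optionGetD (s := fun c => (l c).head?) (d := fun _ => (0 : ℚ))
      (PTF.head? hl) (PTF.const _)) (fun c => ?_)
    cases l c <;> rfl
  refine PTF.foldl (f := fun _ a b => min a b) hl ?_ hhead
    (B := fun c => sz (l c) + sz ((l c).headD 0)) ?_ ?_
  · exact PTF.ratMin (PTF.comp PTF.fst PTF.snd) (PTF.comp PTF.snd PTF.snd)
  · exact PB.add hl.sz hhead.sz
  · intro c i _
    change sz (((l c).take i).foldl min ((l c).headD 0)) ≤ _
    rcases foldl_min_mem ((l c).take i) ((l c).headD 0) with h | h
    · rw [h]; omega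
    · have := sz_mem_le (List.mem_of_mem_take h)
      omega

end generic

/-! ### accessors -/

/-- number of points -/
def riN (r : RI) : ℕ := r.2.2.1.length
/-- budget -/
def riK (r : RI) : ℕ := r.2.1
/-- client test -/
def riC (r : RI) (j : ℕ) : Bool := r.2.2.1.getD j false
/-- facility test -/
def riF (r : RI) (i : ℕ) : Bool := r.2.2.2.1.getD i false
/-- distance -/
def riD (r : RI) (i j : ℕ) : ℚ := (r.2.2.2.2.getD i []).getD j 0

section ptfacc
variable {γ : Type} [PTCode γ]

theorem ptu_riN {r : γ → RI} (hr : PTF r) : PTU (fun c => riN (r c)) :=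
  PTU.length (PTF.comp (g := fun r : RI => r.2.2.1) (by fun_prop) hr)


theorem ptf_riK {r : γ → RI} (hr : PTF r) : PTF (fun c => riK (r c)) :=
  PTF.comp (g := fun r : RI => r.2.1) (by fun_prop) hr

theorem ptf_riC {r : γ → RI} {j : γ → ℕ} (hr : PTF r) (hj : PTF j) :
    PTF (fun c => riC (r c) (j c)) :=
  ptf_getDN hj (PTF.comp (g := fun r : RI => r.2.2.1) (by fun_prop) hr) (PTF.const _)

theorem ptf_riF {r : γ → RI} {j : γ → ℕ} (hr : PTF r) (hj : PTF j) :
    PTF (fun c => riF (r c) (j c)) :=
  ptf_getDN hj (PTF.comp (g := fun r : RI => r.2.2.2.1) (by fun_prop) hr) (PTF.const _)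

theorem ptf_riD {r : γ → RI} {i j : γ → ℕ} (hr : PTF r) (hi : PTF i) (hj : PTF j) :
    PTF (fun c => riD (r c) (i c) (j c)) :=
  ptf_getDN hj (ptf_getDN hi (PTF.comp (g := fun r : RI => r.2.2.2.2) (by fun_prop) hr)
    (PTF.const _)) (PTF.const _)

end ptfacc

theorem riN_raw (I : Instance) : riN (raw I) = I.N := by simp [riN, raw]
theorem riK_raw (I : Instance) : riK (raw I) = I.k := rfl
theorem riC_raw (I : Instance) (j : Fin I.N) : riC (raw I) j = decide (j ∈ I.clients) := by
  unfold riC raw; exact getD_finRange_map (fun i => decide (i ∈ I.clients)) false j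
theorem riF_raw (I : Instance) (j : Fin I.N) : riF (raw I) j = decide (j ∈ I.facilities) := by
  unfold riF raw; exact getD_finRange_map (fun i => decide (i ∈ I.facilities)) false j
theorem riF_raw_true {I : Instance} {i : ℕ} (h : riF (raw I) i = true) :
    ∃ hi : i < I.N, (⟨i, hi⟩ : Fin I.N) ∈ I.facilities := by
  by_cases hi : i < I.N
  · refine ⟨hi, ?_⟩
    have := riF_raw I ⟨i, hi⟩
    simp only at this
    rw [h] at this
    exact of_decide_eq_true this.symm
  · exfalso
    have : riF (raw I) i = false := by
      unfold riF raw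
      exact List.getD_eq_default _ _ (by simpa using hi)
    rw [this] at h; exact absurd h (by simp)
theorem riD_raw (I : Instance) (i j : Fin I.N) : riD (raw I) i j = I.dist i j := by
  unfold riD raw
  have h1 := getD_finRange_map (fun i => (List.finRange I.N).map (fun j => I.dist i j)) [] i
  simp only at h1 ⊢
  rw [h1]
  exact getD_finRange_map (fun j => I.dist i j) 0 j

/-! ### cost of a list of open facilities -/

/-- cost of opening the points of the list `c` -/
def costL (r : RI) (c : List ℕ) : ℚ :=
  ∑ j ∈ Finset.range (riN r), if riC r j = true then listMin (c.map (fun i => riD r j i)) else 0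

theorem ptf_costL {γ : Type} [PTCode γ] {r : γ → RI} {c : γ → List ℕ} (hr : PTF r) (hc : PTF c) :
    PTF (fun x => costL (r x) (c x)) := by
  refine PTF.ratSumRange (ptu_riN hr)
    (f := fun x j => if riC (r x) j = true then listMin ((c x).map (fun i => riD (r x) j i)) else 0) ?_
  have hr' : PTF (fun p : γ × ℕ => r p.1) := PTF.comp hr PTF.fst
  have hc' : PTF (fun p : γ × ℕ => c p.1) := PTF.comp hc PTF.fst
  refine PTF.ite (PTF.toPTPred (ptf_riC hr' PTF.snd)) (ptf_listMin (PTF.map hc' ?_)) (PTF.const _)
  exact ptf_riD (r := fun q : (γ × ℕ) × ℕ => r q.1.1)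
    (PTF.comp hr (PTF.comp PTF.fst PTF.fst)) (PTF.comp PTF.snd PTF.fst) PTF.snd

/-- the set of points in a list -/
def setOf (I : Instance) (c : List ℕ) : Finset (Fin I.N) := Finset.univ.filter fun i => (i : ℕ) ∈ c

theorem mem_setOf {I : Instance} {c : List ℕ} {i : Fin I.N} : i ∈ setOf I c ↔ (i : ℕ) ∈ c := by
  simp [setOf]

theorem setOf_nonempty {I : Instance} {c : List ℕ} (h0 : c ≠ []) (h : ∀ i ∈ c, i < I.N) :
    (setOf I c).Nonempty := by
  obtain ⟨i, hi⟩ := List.exists_mem_of_ne_nil c h0
  exact ⟨⟨i, h i hi⟩, mem_setOf.2 hi⟩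

theorem card_setOf_le (I : Instance) (c : List ℕ) : (setOf I c).card ≤ c.length := by
  have h1 : (setOf I c).image (fun i : Fin I.N => (i : ℕ)) ⊆ c.toFinset := by
    intro i hi
    obtain ⟨j, hj, rfl⟩ := Finset.mem_image.1 hi
    exact List.mem_toFinset.2 (mem_setOf.1 hj)
  have h2 := Finset.card_le_card h1
  rw [Finset.card_image_of_injective _ Fin.val_injective] at h2
  exact h2.trans (List.toFinset_card_le c)

theorem costL_raw {I : Instance} {c : List ℕ} (h0 : c ≠ []) (h : ∀ i ∈ c, i < I.N) :
    costL (raw I) c = I.cost (setOf I c) := by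
  have hne := setOf_nonempty h0 h
  unfold costL Instance.cost
  rw [dif_pos hne, riN_raw, Finset.sum_range, ← Finset.sum_filter]
  have hf : Finset.univ.filter (fun j : Fin I.N => riC (raw I) j = true) = I.clients := by
    ext j; simp [riC_raw]
  rw [hf]
  refine Finset.sum_congr rfl (fun j _ => ?_)
  apply le_antisymm
  · refine Finset.le_inf' _ _ (fun i hi => ?_)
    have := listMin_le (l := c.map (fun i => riD (raw I) j i)) (b := riD (raw I) j i)
      (List.mem_map.2 ⟨i, mem_setOf.1 hi, rfl⟩)
    rwa [riD_raw] at this
  · have h1 : c.map (fun i => riD (raw I) j i) ≠ [] := by simpa using h0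
    obtain ⟨i, hi, he⟩ := List.mem_map.1 (listMin_mem h1)
    rw [← he]
    have : riD (raw I) j i = I.dist j ⟨i, h i hi⟩ := riD_raw I j ⟨i, h i hi⟩
    rw [this]
    exact Finset.inf'_le _ (mem_setOf.2 hi)

/-! ### choosing the best candidate -/

/-- admissible candidates -/
def okL (r : RI) (c : List ℕ) : Bool :=
  !c.isEmpty && (decide (c.length ≤ riK r) && c.all (fun i => riF r i))

theorem ptf_okL {γ : Type} [PTCode γ] {r : γ → RI} {c : γ → List ℕ} (hr : PTF r) (hc : PTF c) :
    PTF (fun x => okL (r x) (c x)) := by
  have h1 : PTF (fun x => (c x).isEmpty) := PTF.isEmpty hc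
  have h2 : PTF (fun x => decide ((c x).length ≤ riK (r x))) :=
    PTPred.toPTF (PTPred.natLe (PTU.toPTF (PTU.length hc)) (ptf_riK hr))
  have h3 : PTF (fun x => (c x).all (fun i => riF (r x) i)) :=
    PTF.all hc (ptf_riF (PTF.comp hr PTF.fst) PTF.snd)
  exact PTF.and (PTF.not h1) (PTF.and h2 h3)

/-- keep the better of two candidates -/
def better (r : RI) (o : List ℕ) (c : List ℕ) : List ℕ :=
  if okL r c = true ∧ (okL r o = false ∨ costL r c < costL r o) then c else o

/-- the best admissible candidate of a list -/
def best (r : RI) (l : List (List ℕ)) : List ℕ := l.foldl (better r) []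

theorem ptf_best {γ : Type} [PTCode γ] {r : γ → RI} {l : γ → List (List ℕ)} (hr : PTF r)
    (hl : PTF l) : PTF (fun x => best (r x) (l x)) := by
  refine PTF.foldl_bdd (f := fun x o c => better (r x) o c) hl ?_ (PTF.const [])
    (G := fun x => sz (l x)) hl.sz ?_ (by intro x; simp)
  · have hr' : PTF (fun p : γ × List ℕ × List ℕ => r p.1) := PTF.comp hr PTF.fst
    have ho : PTF (fun p : γ × List ℕ × List ℕ => p.2.1) := by fun_prop
    have hc : PTF (fun p : γ × List ℕ × List ℕ => p.2.2) := by fun_prop
    refine PTF.ite (p := fun p : γ × List ℕ × List ℕ => okL (r p.1) p.2.2 = true ∧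
      (okL (r p.1) p.2.1 = false ∨ costL (r p.1) p.2.2 < costL (r p.1) p.2.1)) ?_ hc ho
    refine PTPred.and (PTF.toPTPred (ptf_okL hr' hc)) (PTPred.or ?_
      (PTPred.ratLt (ptf_costL hr' hc) (ptf_costL hr' ho)))
    exact (PTF.toPTPred (PTF.not (ptf_okL hr' ho))).of_iff (fun p => by simp)
  · intro x o c hc ho
    unfold better
    split_ifs
    · exact sz_mem_le hc
    · exact ho

theorem best_spec (r : RI) (l : List (List ℕ)) :
    (∃ c ∈ l, okL r c = true) → okL r (best r l) = true ∧ best r l ∈ l ∧
      ∀ c ∈ l, okL r c = true → costL r (best r l) ≤ costL r c := by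
  have hnil : okL r [] = false := by simp [okL]
  have key : ∀ (l : List (List ℕ)) (o : List ℕ),
      ((∃ c ∈ l, okL r c = true) ∨ okL r o = true) →
      okL r (l.foldl (better r) o) = true ∧
      (l.foldl (better r) o ∈ l ∨ l.foldl (better r) o = o) ∧
      (okL r o = true → costL r (l.foldl (better r) o) ≤ costL r o) ∧
      ∀ c ∈ l, okL r c = true → costL r (l.foldl (better r) o) ≤ costL r c := by
    intro l
    induction l with
    | nil =>
      intro o h
      rcases h with ⟨c, hc, _⟩ | h
      · simp at hc
      · simp [h]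
    | cons c l ih =>
      intro o h
      rw [List.foldl_cons]
      have hb : (okL r (better r o c) = true ∨ ¬ (okL r c = true ∨ okL r o = true)) ∧
          (better r o c = c ∨ better r o c = o) ∧
          (okL r c = true → costL r (better r o c) ≤ costL r c) ∧
          (okL r o = true → costL r (better r o c) ≤ costL r o) := by
        unfold better
        split_ifs with h1
        · obtain ⟨h1, h2⟩ := h1
          refine ⟨Or.inl h1, Or.inl rfl, fun _ => le_rfl, fun ho => ?_⟩
          rcases h2 with h2 | h2
          · rw [ho] at h2; exact absurd h2 (by simp)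
          · exact h2.le
        · refine ⟨?_, Or.inr rfl, fun hc => ?_, fun _ => le_rfl⟩
          · by_cases ho : okL r o = true
            · exact Or.inl ho
            · refine Or.inr ?_
              rintro (h2 | h2)
              · exact h1 ⟨h2, Or.inl (by simpa using ho)⟩
              · exact ho h2
          · by_contra hlt
            exact h1 ⟨hc, Or.inr (not_le.1 hlt)⟩
      obtain ⟨hb1, hb2, hb3, hb4⟩ := hb
      have hor : (∃ c ∈ l, okL r c = true) ∨ okL r (better r o c) = true := by
        rcases h with ⟨c', hc', hok⟩ | h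
        · rcases List.mem_cons.1 hc' with rfl | hc'
          · rcases hb1 with hb1 | hb1
            · exact Or.inr hb1
            · exact absurd (Or.inl hok) hb1
          · exact Or.inl ⟨c', hc', hok⟩
        · rcases hb1 with hb1 | hb1
          · exact Or.inr hb1
          · exact absurd (Or.inr h) hb1
      obtain ⟨i1, i2, i3, i4⟩ := ih (better r o c) hor
      have hok2 : ∀ x, (x = c ∨ x = o) → okL r x = true → x = better r o c ∨ okL r (better r o c) = true := by
        intro x hx hxo
        rcases hb1 with hb1 | hb1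
        · exact Or.inr hb1
        · exfalso; apply hb1
          rcases hx with rfl | rfl
          · exact Or.inl hxo
          · exact Or.inr hxo
      refine ⟨i1, ?_, ?_, ?_⟩
      · rcases i2 with i2 | i2
        · exact Or.inl (List.mem_cons_of_mem _ i2)
        · rw [i2]
          rcases hb2 with hb2 | hb2
          · rw [hb2]; exact Or.inl (by simp)
          · rw [hb2]; exact Or.inr rfl
      · intro ho
        rcases hok2 o (Or.inr rfl) ho with h2 | h2
        · rw [← h2] at i3 ⊢; exact i3 ho
        · exact (i3 h2).trans (hb4 ho)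
      · intro c' hc' hok
        rcases List.mem_cons.1 hc' with rfl | hc'
        · rcases hok2 c' (Or.inl rfl) hok with h2 | h2
          · rw [← h2] at i3 ⊢; exact i3 hok
          · exact (i3 h2).trans (hb3 hok)
        · exact i4 c' hc' hok
  intro h
  obtain ⟨h1, h2, _, h4⟩ := key l [] (Or.inl h)
  refine ⟨h1, ?_, h4⟩
  rcases h2 with h2 | h2
  · exact h2
  · exfalso
    rw [show l.foldl (better r) [] = [] from h2, hnil] at h1
    exact absurd h1 (by simp)

/-! ### output -/

/-- membership mask of a list of points -/
def maskOf (n : ℕ) (c : List ℕ) : List Bool := (List.range n).map (fun i => decide (i ∈ c))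

theorem ptf_maskOf {γ : Type} [PTCode γ] {n : γ → ℕ} {c : γ → List ℕ} (hn : PTU n) (hc : PTF c) :
    PTF (fun x => maskOf (n x) (c x)) :=
  PTF.tabulate hn (PTPred.toPTF (PTPred.mem PTF.snd (PTF.comp hc PTF.fst)))

theorem decodeSet_maskOf (I : Instance) (c : List ℕ) : decodeSet I.N (maskOf I.N c) = setOf I c := by
  have h : ∀ i : Fin I.N, (maskOf I.N c).getD i false = decide ((i : ℕ) ∈ c) := by
    intro i
    unfold maskOf
    rw [List.getD_eq_getElem?_getD, List.getElem?_map, List.getElem?_range i.2]
    simp
  ext i
  rw [mem_setOf, decodeSet, Finset.mem_filter, h]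
  simp

/-- the final function -/
def finalF (G : RI → List (List ℕ)) (w : List Bool) : List Bool :=
  maskOf (riN (parse w)) (best (parse w) (G (parse w)))

theorem ptf_finalF {G : RI → List (List ℕ)} (hG : PTF G) : PTF (finalF G) :=
  ptf_maskOf (ptu_riN ptf_parse) (ptf_best ptf_parse (PTF.comp hG ptf_parse))

/-- **Reduction to a candidate generator.** -/
theorem kmedian_of_candidates (γ : ℝ) (G : RI → List (List ℕ)) (hG : PTF G)
    (hgood : ∀ I : Instance, I.Valid → ∃ c ∈ G (raw I), c ≠ [] ∧ c.length ≤ I.k ∧
      (∀ i ∈ c, ∃ hi : i < I.N, (⟨i, hi⟩ : Fin I.N) ∈ I.facilities) ∧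
      ∀ S : Finset (Fin I.N), S ⊆ I.facilities → S.Nonempty → S.card ≤ I.k →
        (I.cost (setOf I c) : ℝ) ≤ γ * (I.cost S : ℝ)) :
    ∃ f : List Bool → List Bool, Crest.Complexity.PolyTime f ∧
      ∀ I : Instance, I.Valid →
        I.opened f ⊆ I.facilities ∧ (I.opened f).Nonempty ∧ (I.opened f).card ≤ I.k ∧
        ∀ S : Finset (Fin I.N), S ⊆ I.facilities → S.Nonempty → S.card ≤ I.k →
          (I.cost (I.opened f) : ℝ) ≤ γ * (I.cost S : ℝ) := by
  refine ⟨finalF G, (ptf_finalF hG).polyTime, fun I hI => ?_⟩
  obtain ⟨c, hcG, hc0, hck, hcF, hcost⟩ := hgood I hI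
  have hopen : I.opened (finalF G) = setOf I (best (raw I) (G (raw I))) := by
    unfold Instance.opened finalF
    rw [parse_encode, riN_raw, decodeSet_maskOf]
  have hok : ∀ c, okL (raw I) c = true ↔ (c ≠ [] ∧ c.length ≤ I.k ∧
      (∀ i ∈ c, ∃ hi : i < I.N, (⟨i, hi⟩ : Fin I.N) ∈ I.facilities)) := by
    intro c
    have hk : riK (raw I) = I.k := rfl
    simp only [okL, Bool.and_eq_true, Bool.not_eq_true', List.isEmpty_eq_false_iff,
      List.all_eq_true, decide_eq_true_eq]
    rw [hk]
    refine and_congr_right (fun _ => and_congr_right (fun _ => forall₂_congr (fun i _ => ?_)))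
    constructor
    · exact riF_raw_true
    · rintro ⟨hi, hm⟩
      have := riF_raw I ⟨i, hi⟩
      simp only at this
      rw [this]; exact decide_eq_true hm
  have hc := (hok c).2 ⟨hc0, hck, hcF⟩
  obtain ⟨b1, _, b3⟩ := best_spec (raw I) (G (raw I)) ⟨c, hcG, hc⟩
  obtain ⟨e1, e2, e3⟩ := (hok _).1 b1
  have hlt : ∀ i ∈ best (raw I) (G (raw I)), i < I.N := fun i hi => (e3 i hi).1
  rw [hopen]
  refine ⟨?_, setOf_nonempty e1 hlt, (card_setOf_le _ _).trans e2, ?_⟩
  · intro i hi
    obtain ⟨h1, h2⟩ := e3 i (mem_setOf.1 hi)
    exact h2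
  · intro S hS hS0 hSk
    refine le_trans ?_ (hcost S hS hS0 hSk)
    have h1 := b3 c hcG hc
    rw [costL_raw e1 hlt, costL_raw hc0 (fun i hi => (hcF i hi).1)] at h1
    exact_mod_cast h1

end Crest.Agent.R310
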