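import Mathlib
import Crest.Agent.KM.Hfun
import Crest.Agent.KM.Pot
import Crest.Agent.R310.SlackK
import Crest.Agent.R310.Final

-- ▼ part R310/Scal
section
set_option autoImplicit false
namespace Crest.Agent.R310.Scal

/-- `exp w ≤ 1 + w + (e - 2) w²` on `[0,1]` -/
theorem exp_quad {w : ℝ} (h0 : 0 ≤ w) (h1 : w ≤ 1) :
    Real.exp w ≤ 1 + w + (Real.exp 1 - 2) * w ^ 2 := by
  have hs : ∀ x : ℝ, HasSum (fun n : ℕ => x ^ (n + 2) / ((n + 2).factorial : ℝ))
      (Real.exp x - 1 - x) := by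
    intro x
    have h := NormedSpace.expSeries_div_hasSum_exp (𝔸 := ℝ) x
    rw [← Real.exp_eq_exp_ℝ] at h
    have h2 := (hasSum_nat_add_iff' (f := fun n : ℕ => x ^ n / (n.factorial : ℝ)) 2).2 h
    simpa [Finset.sum_range_succ, sub_sub] using h2
  have hA := hs w
  have hB := (hs 1).mul_left (w ^ 2)
  have hle := hasSum_le (fun n => ?_) hA hB
  · nlinarith [hle]
  · have hf : (0 : ℝ) < ((n + 2).factorial : ℝ) := by positivity
    rw [one_pow, ← mul_div_assoc, mul_one]
    apply div_le_div_of_nonneg_right _ hf.le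
    rw [pow_add]
    have : w ^ n ≤ 1 := pow_le_one₀ h0 h1
    nlinarith [sq_nonneg w]

theorem mul_exp_neg_le (t : ℝ) : t * Real.exp (-t) ≤ Real.exp (-1) := by
  have h := Real.add_one_le_exp (t - 1)
  have h2 : t ≤ Real.exp (t - 1) := by linarith
  calc t * Real.exp (-t) ≤ Real.exp (t - 1) * Real.exp (-t) :=
        mul_le_mul_of_nonneg_right h2 (Real.exp_pos _).le
    _ = Real.exp (-1) := by rw [← Real.exp_add]; ring_nf

/-- the constant `1/e` -/
noncomputable def E : ℝ := Real.exp (-1)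

theorem E_gt : (0.36787944 : ℝ) < E := lt_trans (by norm_num) Real.exp_neg_one_gt_d9
theorem E_lt : E < (0.36787945 : ℝ) := lt_trans Real.exp_neg_one_lt_d9 (by norm_num)
theorem E_pos : 0 < E := Real.exp_pos _
theorem exp_one_mul_E : Real.exp 1 * E = 1 := by
  rw [E, ← Real.exp_add]; simp

/-- `λ(x) = ((x - 2/e)/(1 - 2/e))` clamped to `[0,1]` -/
noncomputable def lam (x : ℝ) : ℝ := max 0 (min 1 ((x - 2 * E) / (1 - 2 * E)))

theorem q_pos : 0 < 1 - 2 * E := by have := E_lt; linarith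

theorem lam_nonneg (x : ℝ) : 0 ≤ lam x := le_max_left _ _
theorem lam_le_one (x : ℝ) : lam x ≤ 1 := max_le zero_le_one (min_le_left _ _)
theorem lam_of_le {x : ℝ} (h : x ≤ 2 * E) : lam x = 0 := by
  have hq := q_pos
  unfold lam
  apply max_eq_left
  refine le_trans (min_le_right _ _) ?_
  exact div_nonpos_of_nonpos_of_nonneg (by linarith) hq.le
theorem lam_of_ge {x : ℝ} (h : 1 ≤ x) : lam x = 1 := by
  have hq := q_pos
  unfold lam
  have : 1 ≤ (x - 2 * E) / (1 - 2 * E) := by rw [le_div_iff₀ hq]; linarith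
  rw [min_eq_left this]; simp
theorem lam_mul {x : ℝ} (h : 2 * E ≤ x) (h1 : x ≤ 1) : (1 - 2 * E) * lam x = x - 2 * E := by
  have hq := q_pos
  unfold lam
  have h2 : 0 ≤ (x - 2 * E) / (1 - 2 * E) := div_nonneg (by linarith) hq.le
  have h3 : (x - 2 * E) / (1 - 2 * E) ≤ 1 := by rw [div_le_one hq]; linarith
  rw [min_eq_right h3, max_eq_right h2]
  field_simp

theorem exp_mul_ge {t : ℝ} (h0 : 0 ≤ t) (h1 : t ≤ 1) : 2 * E ≤ Real.exp (-t) * (1 + t) := by
  have h := Real.add_one_le_exp (1 - t)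
  have h2 : Real.exp (-t) = Real.exp (1 - t) * E := by
    rw [E, ← Real.exp_add]; ring_nf
  rw [h2]
  have hE := E_pos
  have h3 : 2 ≤ Real.exp (1 - t) * (1 + t) := by nlinarith
  nlinarith

/-- first half of (R0) -/
theorem R0a {t β : ℝ} (ht0 : 0 ≤ t) (ht1 : t ≤ 1) (hβ1 : β ≤ 1) :
    β * Real.exp (-(t * lam β)) ≤ Real.exp (-t) * (1 + t - t * lam β) := by
  have hE := E_pos
  have hq := q_pos
  rcases le_total β (2 * E) with hβ | hβ
  · rw [lam_of_le hβ]
    have := exp_mul_ge ht0 ht1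
    simp only [mul_zero, neg_zero, Real.exp_zero, mul_one, sub_zero]
    linarith
  · have hl := lam_mul hβ hβ1
    set l := lam β with hldef
    have hl0 : 0 ≤ l := lam_nonneg β
    have hl1 : l ≤ 1 := lam_le_one β
    -- z = 1 - l, w = t z
    set w := t * (1 - l) with hw
    have hw0 : 0 ≤ w := mul_nonneg ht0 (by linarith)
    have hwz : w ≤ 1 - l := by rw [hw]; nlinarith
    have hw1 : w ≤ 1 := by linarith
    have hexp : Real.exp (-(t * l)) = Real.exp (-t) * Real.exp w := by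
      rw [← Real.exp_add]; congr 1; rw [hw]; ring
    rw [hexp]
    have h1 : 1 + t - t * l = 1 + w := by rw [hw]; ring
    rw [h1]
    have hβeq : β = 1 - (1 - 2 * E) * (1 - l) := by linarith
    have hk := exp_quad hw0 hw1
    have hew : w ≤ Real.exp (w - 1) := by linarith [Real.add_one_le_exp (w - 1)]
    have hew2 : Real.exp w = Real.exp 1 * Real.exp (w - 1) := by
      rw [← Real.exp_add]; ring_nf
    have hee : Real.exp 1 * w ≤ Real.exp w := by
      rw [hew2]; exact mul_le_mul_of_nonneg_left hew (Real.exp_pos _).le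
    -- (1 - q w) e^w ≤ 1 + w
    have hmain : (1 - (1 - 2 * E) * w) * Real.exp w ≤ 1 + w := by
      have h2 : (1 - 2 * E) * w * (Real.exp 1 * w) ≤ (1 - 2 * E) * w * Real.exp w :=
        mul_le_mul_of_nonneg_left hee (mul_nonneg hq.le hw0)
      have h3 : (1 - 2 * E) * w * (Real.exp 1 * w) = (Real.exp 1 - 2) * w ^ 2 := by
        have := exp_one_mul_E
        linear_combination (-2 * w ^ 2) * this
      nlinarith
    have hstep : β * Real.exp w ≤ 1 + w := by
      refine le_trans ?_ hmain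
      apply mul_le_mul_of_nonneg_right _ (Real.exp_pos _).le
      nlinarith
    calc β * (Real.exp (-t) * Real.exp w) = Real.exp (-t) * (β * Real.exp w) := by ring
      _ ≤ Real.exp (-t) * (1 + w) := mul_le_mul_of_nonneg_left hstep (Real.exp_pos _).le

/-- second half of (R0) -/
theorem R0b {t β : ℝ} (ht0 : 0 ≤ t) (ht1 : t ≤ 1) (hβ1 : β ≤ 1) :
    β * Real.exp (-(t * lam β)) ≤ (1 - t * lam β) * (1 - β)
      + Real.exp (-t) * β * (1 + t - t * lam β) := by
  have hE := E_pos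
  have hq := q_pos
  rcases le_total β (2 * E) with hβ | hβ
  · rw [lam_of_le hβ]
    have := exp_mul_ge ht0 ht1
    simp only [mul_zero, neg_zero, Real.exp_zero, mul_one, sub_zero, one_mul]
    rcases le_total β 0 with hb | hb
    · have h4 : Real.exp (-t) * (1 + t) ≤ 1 := by
        have h5 := Real.add_one_le_exp t
        have h6 : Real.exp (-t) * Real.exp t = 1 := by rw [← Real.exp_add]; simp
        nlinarith [Real.exp_pos (-t)]
      nlinarith
    · have h7 := E_lt
      have h8 := E_gt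
      nlinarith
  · have hl := lam_mul hβ hβ1
    set l := lam β with hldef
    have hl0 : 0 ≤ l := lam_nonneg β
    have hl1 : l ≤ 1 := lam_le_one β
    set w := t * (1 - l) with hw
    have hw0 : 0 ≤ w := mul_nonneg ht0 (by linarith)
    have hwz : w ≤ 1 - l := by rw [hw]; nlinarith
    have hw1 : w ≤ 1 := by linarith
    have hexp : Real.exp (-(t * l)) = Real.exp (-t) * Real.exp w := by
      rw [← Real.exp_add]; congr 1; rw [hw]; ring
    rw [hexp]
    have hβeq : β = 1 - (1 - 2 * E) * (1 - l) := by linarith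
    have hk := exp_quad hw0 hw1
    set s := Real.exp (-t) with hs
    have hs0 : 0 < s := Real.exp_pos _
    have hts : t * s ≤ E := mul_exp_neg_le t
    have hβ0 : 0 ≤ β := by linarith
    -- key: (e-2) s t ≤ q
    have hkey : (Real.exp 1 - 2) * (t * s) ≤ 1 - 2 * E := by
      have h1 : 0 ≤ Real.exp 1 - 2 := by
        have := Real.exp_one_gt_d9; linarith
      calc (Real.exp 1 - 2) * (t * s) ≤ (Real.exp 1 - 2) * E :=
            mul_le_mul_of_nonneg_left hts h1
        _ = 1 - 2 * E := by linear_combination exp_one_mul_E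
    -- s (e^w - 1 - w) ≤ s (e-2) w^2 = (e-2) s t * t (1-l)^2 ≤ q t (1-l)^2
    have h2 : s * (Real.exp w - 1 - w) ≤ (1 - 2 * E) * (t * (1 - l) ^ 2) := by
      have h3 : s * (Real.exp w - 1 - w) ≤ s * ((Real.exp 1 - 2) * w ^ 2) :=
        mul_le_mul_of_nonneg_left (by linarith) hs0.le
      have h4 : s * ((Real.exp 1 - 2) * w ^ 2)
          = ((Real.exp 1 - 2) * (t * s)) * (t * (1 - l) ^ 2) := by rw [hw]; ring
      rw [h4] at h3
      refine h3.trans (mul_le_mul_of_nonneg_right hkey ?_)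
      exact mul_nonneg ht0 (sq_nonneg _)
    have h5 : β * (s * (Real.exp w - 1 - w)) ≤ (1 - 2 * E) * (t * (1 - l) ^ 2) := by
      have h6 : 0 ≤ (1 - 2 * E) * (t * (1 - l) ^ 2) :=
        mul_nonneg hq.le (mul_nonneg ht0 (sq_nonneg _))
      nlinarith
    have h7 : (1 - 2 * E) * (t * (1 - l) ^ 2) ≤ (1 - 2 * E) * (1 - l) * (1 - t * l) := by
      have : t * (1 - l) ≤ 1 - t * l := by nlinarith
      nlinarith [mul_nonneg hq.le (by linarith : (0:ℝ) ≤ 1 - l)]
    have h8 : (1 - 2 * E) * (1 - l) = 1 - β := by linarith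
    rw [h8] at h7
    have h9 : 1 + t - t * l = 1 + w := by rw [hw]; ring
    rw [h9]
    nlinarith

section gaps
variable {E x δ : ℝ}

theorem gap0 (h1 : (0.36787944 : ℝ) < E) (h2 : E < (0.36787945 : ℝ)) (hx : 2 * E ≤ x) :
    8 * ((x - 2 * E) * (1 - x)) ≤ 5 * E * (1 - 2 * E) * x := by
  have ha : (x - 2 * E) * (1 - x) ≤ (1 - 2 * E) ^ 2 / 4 := by
    nlinarith [sq_nonneg (x - 2 * E - (1 - x))]
  have hb : 5 * E * (1 - 2 * E) * (2 * E) ≤ 5 * E * (1 - 2 * E) * x := by
    apply mul_le_mul_of_nonneg_left hx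
    nlinarith
  have hc : 2 * (1 - 2 * E) ≤ 5 * E * (2 * E) := by nlinarith
  have hd : 2 * (1 - 2 * E) * (1 - 2 * E) ≤ 5 * E * (2 * E) * (1 - 2 * E) :=
    mul_le_mul_of_nonneg_right hc (by linarith)
  nlinarith

theorem c0_nonneg (h1 : (0.36787944 : ℝ) < E) (h2 : E < (0.36787945 : ℝ))
    (hx1 : x ≤ 1) : (x - 2 * E) * (8 - 11 / 2 * x) ≤ 5 / 2 * (1 - 2 * E) * x := by
  have : 5 / 2 * (1 - 2 * E) * x - (x - 2 * E) * (8 - 11 / 2 * x)
      = (1 - x) * (5 / 2 - 8 * (1 - 2 * E) + 11 / 2 * (1 - x)) := by ring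
  have h3 : 0 ≤ (1 - x) * (5 / 2 - 8 * (1 - 2 * E) + 11 / 2 * (1 - x)) := by
    apply mul_nonneg (by linarith)
    linarith
  linarith

theorem gapA (h1 : (0.36787944 : ℝ) < E) (h2 : E < (0.36787945 : ℝ)) (hx : 2 * E ≤ x)
    (hx1 : x ≤ 1) (hδ : x / 2 - E ≤ δ) :
    (x - 2 * E) * (8 - 11 * δ) * (2 * δ + 2 * E - x)
      ≤ 5 * E * (1 - 2 * E) * x * (δ + 2 * E) := by
  obtain ⟨v, hv⟩ : ∃ v, v = x - 2 * E := ⟨_, rfl⟩
  obtain ⟨η, hη⟩ : ∃ η, η = δ - (x / 2 - E) := ⟨_, rfl⟩
  have hv0 : 0 ≤ v := by linarith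
  have hv1 : v ≤ 0.26424112 := by linarith
  have hη0 : 0 ≤ η := by linarith
  have hxv : x = v + 2 * E := by linarith
  have hδη : δ = η + v / 2 := by linarith
  have hq : (0.0972087 : ℝ) ≤ E * (1 - 2 * E) := by nlinarith
  have e1 : 5 * E * (1 - 2 * E) * x * (δ + 2 * E) - (x - 2 * E) * (8 - 11 * δ) * (2 * δ + 2 * E - x)
      = 22 * v * (η - 53 / 200) ^ 2
        + η * (v * (44 * (53 / 200) - 16 + 11 * v) + 5 * (E * (1 - 2 * E)) * (v + 2 * E))
        + (5 * (E * (1 - 2 * E)) * (v + 2 * E) * (v / 2 + 2 * E) - 22 * v * (53 / 200) ^ 2) := by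
    rw [hδη, hxv]; ring
  have e2 : 0 ≤ v * (44 * (53 / 200) - 16 + 11 * v) + 5 * (E * (1 - 2 * E)) * (v + 2 * E) := by
    have : 5 * 0.0972087 * (v + 2 * E) ≤ 5 * (E * (1 - 2 * E)) * (v + 2 * E) := by
      apply mul_le_mul_of_nonneg_right _ (by linarith)
      linarith
    nlinarith [sq_nonneg (v - 0.175)]
  have e3 : 0 ≤ 5 * (E * (1 - 2 * E)) * (v + 2 * E) * (v / 2 + 2 * E) - 22 * v * (53 / 200) ^ 2 := by
    have a1 : 5 * 0.0972087 * ((v + 2 * E) * (v / 2 + 2 * E))
        ≤ 5 * (E * (1 - 2 * E)) * ((v + 2 * E) * (v / 2 + 2 * E)) := by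
      apply mul_le_mul_of_nonneg_right _ (by positivity)
      linarith
    have a2 : (v + 0.73575888) * (v / 2 + 0.73575888) ≤ (v + 2 * E) * (v / 2 + 2 * E) := by
      apply mul_le_mul <;> linarith
    nlinarith [sq_nonneg v]
  have e4 : 0 ≤ 22 * v * (η - 53 / 200) ^ 2 := by positivity
  have e5 := mul_nonneg hη0 e2
  linarith

theorem gapB (h1 : (0.36787944 : ℝ) < E) (h2 : E < (0.36787945 : ℝ)) (hx : 2 * E ≤ x)
    (hx1 : x ≤ 1) (hδ : x / 2 ≤ δ) :
    (x - 2 * E) * (8 - 11 * δ) * (2 * δ - (1 - E) * x) ≤ 5 * E * (1 - 2 * E) * x * δ := by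
  obtain ⟨η, hη⟩ : ∃ η, η = δ - x / 2 := ⟨_, rfl⟩
  have hη0 : 0 ≤ η := by linarith
  have hδη : δ = x / 2 + η := by linarith
  have hc := c0_nonneg (x := x) h1 h2 hx1
  have e1 : 5 * E * (1 - 2 * E) * x * δ - (x - 2 * E) * (8 - 11 * δ) * (2 * δ - (1 - E) * x)
      = (E * x) * (5 / 2 * (1 - 2 * E) * x - (x - 2 * E) * (8 - 11 / 2 * x))
        + η * (5 * E * (1 - 2 * E) * x - (x - 2 * E) * (16 - 11 * x - 11 * E * x))
        + 22 * (x - 2 * E) * η ^ 2 := by
    rw [hδη]; ring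
  have e2 : 0 ≤ (E * x) * (5 / 2 * (1 - 2 * E) * x - (x - 2 * E) * (8 - 11 / 2 * x)) := by
    apply mul_nonneg (mul_nonneg (by linarith) (by linarith)) (by linarith)
  have e3 : 0 ≤ 5 * E * (1 - 2 * E) * x - (x - 2 * E) * (16 - 11 * x - 11 * E * x) := by
    obtain ⟨v, hv⟩ : ∃ v, v = x - 2 * E := ⟨_, rfl⟩
    have hv0 : 0 ≤ v := by linarith
    have hxv : x = v + 2 * E := by linarith
    have hq : (0.0972087 : ℝ) ≤ E * (1 - 2 * E) := by nlinarith
    have a1 : 5 * E * (1 - 2 * E) * x - (x - 2 * E) * (16 - 11 * x - 11 * E * x)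
        = 10 * E * (E * (1 - 2 * E)) + v * (5 * (E * (1 - 2 * E)) - 16 + 22 * E + 22 * E ^ 2)
          + 11 * (1 + E) * v ^ 2 := by rw [hxv]; ring
    have a2 : 0.3576 ≤ 10 * E * (E * (1 - 2 * E)) := by nlinarith
    have a3 : -4.4435 ≤ 5 * (E * (1 - 2 * E)) - 16 + 22 * E + 22 * E ^ 2 := by nlinarith
    have a4 : v * (-4.4435) ≤ v * (5 * (E * (1 - 2 * E)) - 16 + 22 * E + 22 * E ^ 2) :=
      mul_le_mul_of_nonneg_left a3 hv0
    have a5 : 15.04 * v ^ 2 ≤ 11 * (1 + E) * v ^ 2 := by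
      apply mul_le_mul_of_nonneg_right _ (sq_nonneg v)
      linarith
    rw [a1]
    nlinarith [sq_nonneg (v - 0.1477)]
  have e4 : 0 ≤ 22 * (x - 2 * E) * η ^ 2 := by
    apply mul_nonneg (by linarith) (sq_nonneg _)
  have e5 := mul_nonneg hη0 e3
  linarith

theorem gap1 (h1 : (0.36787944 : ℝ) < E) (h2 : E < (0.36787945 : ℝ)) (hx : 2 * E ≤ x)
    (hx1 : x ≤ 1) (hδ2 : δ ≤ x / 2) :
    (x - 2 * E) * (8 - 11 * δ) * (E + δ - x / 2) ≤ 5 * E * (1 - 2 * E) * (x - δ) := by
  obtain ⟨ρ, hρ⟩ : ∃ ρ, ρ = x / 2 - δ := ⟨_, rfl⟩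
  have hρ0 : 0 ≤ ρ := by linarith
  have hδρ : δ = x / 2 - ρ := by linarith
  have hc := c0_nonneg (x := x) h1 h2 hx1
  have e1 : 5 * E * (1 - 2 * E) * (x - δ) - (x - 2 * E) * (8 - 11 * δ) * (E + δ - x / 2)
      = E * (5 / 2 * (1 - 2 * E) * x - (x - 2 * E) * (8 - 11 / 2 * x))
        + ρ * (5 * E * (1 - 2 * E) - (x - 2 * E) * (11 * E - 8 + 11 / 2 * x))
        + 11 * (x - 2 * E) * ρ ^ 2 := by
    rw [hδρ]; ring
  have e2 : 0 ≤ E * (5 / 2 * (1 - 2 * E) * x - (x - 2 * E) * (8 - 11 / 2 * x)) :=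
    mul_nonneg (by linarith) (by linarith)
  have e3 : 0 ≤ 5 * E * (1 - 2 * E) - (x - 2 * E) * (11 * E - 8 + 11 / 2 * x) := by
    have hq : (0.0972087 : ℝ) ≤ E * (1 - 2 * E) := by nlinarith
    have a1 : (x - 2 * E) * (11 * E - 8 + 11 / 2 * x) ≤ 0.26424112 * (11 * E - 8 + 11 / 2 * x) := by
      apply mul_le_mul_of_nonneg_right (by linarith)
      linarith
    nlinarith
  have e4 : 0 ≤ 11 * (x - 2 * E) * ρ ^ 2 := by
    apply mul_nonneg (by linarith) (sq_nonneg _)
  have e5 := mul_nonneg hρ0 e3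
  linarith

theorem gap1' (h1 : (0.36787944 : ℝ) < E) (h2 : E < (0.36787945 : ℝ)) (hx : 2 * E ≤ x)
    (hx1 : x ≤ 1) (hδ : x / 2 ≤ δ) (hδ8 : 11 * δ ≤ 8) :
    (x - 2 * E) * (8 - 11 * δ) * E ≤ 5 * E * (1 - 2 * E) * (x - δ) := by
  have hc := c0_nonneg (x := x) h1 h2 hx1
  -- linear in δ between x/2 and 8/11
  have key : (x - 2 * E) * (8 - 11 * δ) ≤ 5 * (1 - 2 * E) * (x - δ) := by
    have e1 : (8 - 11 / 2 * x) * (5 * (1 - 2 * E) * (x - δ) - (x - 2 * E) * (8 - 11 * δ))
        = (8 - 11 * δ) * (5 / 2 * (1 - 2 * E) * x - (x - 2 * E) * (8 - 11 / 2 * x))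
          + (11 * δ - 11 / 2 * x) * (5 * (1 - 2 * E) * (x - 8 / 11)) := by ring
    have e2 : 0 ≤ (8 - 11 * δ) * (5 / 2 * (1 - 2 * E) * x - (x - 2 * E) * (8 - 11 / 2 * x)) :=
      mul_nonneg (by linarith) (by linarith)
    have e3 : 0 ≤ (11 * δ - 11 / 2 * x) * (5 * (1 - 2 * E) * (x - 8 / 11)) :=
      mul_nonneg (by linarith) (mul_nonneg (by linarith) (by linarith))
    have e4 : 0 < 8 - 11 / 2 * x := by linarith
    have e5 : 0 ≤ (8 - 11 / 2 * x) * (5 * (1 - 2 * E) * (x - δ) - (x - 2 * E) * (8 - 11 * δ)) := by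
      rw [e1]; linarith
    have := nonneg_of_mul_nonneg_right e5 e4
    linarith
  nlinarith
end gaps


section core
variable {x f δ : ℝ}

/-- The scalar inequality with everything divided by `f`; `h` is any number below the two branch
values. -/
theorem core (hx : 2 * E ≤ x) (hx1 : x ≤ 1) (hf0 : 0 ≤ f) (hf1 : f ≤ 1) (hδ0 : 0 ≤ δ)
    (hδ8 : 11 * δ ≤ 8) {h : ℝ}
    (hh1 : h ≤ 1 - (1 - E) * f - max (x - 2 * (f * δ)) 0 / 2)
    (hh2 : h ≤ 1 - (1 - E) * f - max (x - 2 * (f * δ)) 0 + E * f) :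
    (x - 2 * E) * (8 - 11 * δ) * h ≤ 5 * E * (1 - 2 * E) * (x - f * δ) := by
  have hE1 := E_gt
  have hE2 := E_lt
  have hP : 0 ≤ (x - 2 * E) * (8 - 11 * δ) := mul_nonneg (by linarith) (by linarith)
  have hfδ : f * δ ≤ δ := by nlinarith
  have hg0 := gap0 hE1 hE2 hx
  have hRpos : 0 ≤ 5 * E * (1 - 2 * E) * (x - f * δ) := by
    apply mul_nonneg (mul_nonneg (by linarith) (by linarith))
    linarith
  rcases le_total (x - 2 * (f * δ)) 0 with hr | hr
  · -- r = 0
    rw [max_eq_right hr] at hh1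
    have hh : h ≤ 1 - (1 - E) * f := by linarith
    refine (mul_le_mul_of_nonneg_left hh hP).trans ?_
    -- here 2 f δ ≥ x, so 2 δ ≥ x
    have hbx : x / 2 ≤ δ := by linarith
    have hB := gapB (δ := δ) hE1 hE2 hx hx1 hbx
    have h1' := gap1' (δ := δ) hE1 hE2 hx hx1 hbx hδ8
    rcases eq_or_lt_of_le hbx with hb | hb
    · -- x = 2 δ, then f = 1
      have hδpos : 0 < δ := by linarith
      have hf : f = 1 := by
        have : 2 * δ * (1 - f) ≤ 0 := by nlinarith
        nlinarith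
      rw [hf]
      calc (x - 2 * E) * (8 - 11 * δ) * (1 - (1 - E) * 1)
          = (x - 2 * E) * (8 - 11 * δ) * E := by ring
        _ ≤ _ := by simpa using h1'
    · have hid : (2 * δ - x) * (5 * E * (1 - 2 * E) * (x - f * δ)
            - (x - 2 * E) * (8 - 11 * δ) * (1 - (1 - E) * f))
          = (1 - f) * (5 * E * (1 - 2 * E) * x * δ
              - (x - 2 * E) * (8 - 11 * δ) * (2 * δ - (1 - E) * x))
            + (2 * (f * δ) - x) * (5 * E * (1 - 2 * E) * (x - δ)
              - (x - 2 * E) * (8 - 11 * δ) * E) := by ring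
      have h3 : 0 ≤ (2 * δ - x) * (5 * E * (1 - 2 * E) * (x - f * δ)
            - (x - 2 * E) * (8 - 11 * δ) * (1 - (1 - E) * f)) := by
        rw [hid]
        apply add_nonneg
        · exact mul_nonneg (by linarith) (by linarith)
        · exact mul_nonneg (by linarith) (by linarith)
      have := nonneg_of_mul_nonneg_right h3 (by linarith)
      linarith
  · rw [max_eq_left hr] at hh1 hh2
    rcases le_total (x - 2 * (f * δ)) (2 * E * f) with hr2 | hr2
    · -- region 1 : h1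
      refine (mul_le_mul_of_nonneg_left hh1 hP).trans ?_
      have ha : x / 2 - E ≤ δ := by nlinarith
      have hA := gapA (δ := δ) hE1 hE2 hx hx1 ha
      rcases le_total (x / 2) δ with hb | hb
      · have hB := gapB (δ := δ) hE1 hE2 hx hx1 hb
        have hid : (2 * E * x) * (5 * E * (1 - 2 * E) * (x - f * δ)
            - (x - 2 * E) * (8 - 11 * δ) * (1 - (1 - E) * f - (x - 2 * (f * δ)) / 2))
          = (x - 2 * (f * δ)) * (5 * E * (1 - 2 * E) * x * (δ + 2 * E)
              - (x - 2 * E) * (8 - 11 * δ) * (2 * δ + 2 * E - x))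
            + (2 * (f * δ) + 2 * E * f - x) * (5 * E * (1 - 2 * E) * x * δ
              - (x - 2 * E) * (8 - 11 * δ) * (2 * δ - (1 - E) * x)) := by ring
        have h3 : 0 ≤ (2 * E * x) * (5 * E * (1 - 2 * E) * (x - f * δ)
            - (x - 2 * E) * (8 - 11 * δ) * (1 - (1 - E) * f - (x - 2 * (f * δ)) / 2)) := by
          rw [hid]
          apply add_nonneg
          · exact mul_nonneg (by linarith) (by linarith)
          · exact mul_nonneg (by linarith) (by linarith)
        have := nonneg_of_mul_nonneg_right h3 (by nlinarith)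
        linarith
      · have h1 := gap1 (δ := δ) hE1 hE2 hx hx1 hb
        rcases eq_or_lt_of_le ha with hae | hae
        · -- x = 2δ + 2E, then f = 1
          have hf : f = 1 := by
            have : (2 * δ + 2 * E) * (1 - f) ≤ 0 := by nlinarith
            nlinarith
          rw [hf]
          calc (x - 2 * E) * (8 - 11 * δ) * (1 - (1 - E) * 1 - (x - 2 * (1 * δ)) / 2)
              = (x - 2 * E) * (8 - 11 * δ) * (E + δ - x / 2) := by ring
            _ ≤ _ := by simpa using h1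
        · have hid : (2 * δ + 2 * E - x) * (5 * E * (1 - 2 * E) * (x - f * δ)
              - (x - 2 * E) * (8 - 11 * δ) * (1 - (1 - E) * f - (x - 2 * (f * δ)) / 2))
            = (1 - f) * (5 * E * (1 - 2 * E) * x * (δ + 2 * E)
                - (x - 2 * E) * (8 - 11 * δ) * (2 * δ + 2 * E - x))
              + (2 * (f * δ) + 2 * E * f - x) * (5 * E * (1 - 2 * E) * (x - δ)
                - (x - 2 * E) * (8 - 11 * δ) * (E + δ - x / 2)) := by ring
          have h3 : 0 ≤ (2 * δ + 2 * E - x) * (5 * E * (1 - 2 * E) * (x - f * δ)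
              - (x - 2 * E) * (8 - 11 * δ) * (1 - (1 - E) * f - (x - 2 * (f * δ)) / 2)) := by
            rw [hid]
            apply add_nonneg
            · exact mul_nonneg (by linarith) (by linarith)
            · exact mul_nonneg (by linarith) (by linarith)
          have := nonneg_of_mul_nonneg_right h3 (by linarith)
          linarith
    · -- region 2 : h2
      have hh : h ≤ 1 - x - f * (1 - 2 * E - 2 * δ) := by nlinarith
      have hg : (x - 2 * E) * (8 - 11 * δ) * (1 - x) ≤ 5 * E * (1 - 2 * E) * x := by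
        have : (x - 2 * E) * (8 - 11 * δ) * (1 - x) ≤ 8 * ((x - 2 * E) * (1 - x)) := by
          have h5 : 0 ≤ (x - 2 * E) * (1 - x) := mul_nonneg (by linarith) (by linarith)
          nlinarith
        linarith
      rcases le_total x (2 * δ + 2 * E) with ha | ha
      · refine (mul_le_mul_of_nonneg_left hh hP).trans ?_
        have hA := gapA (δ := δ) hE1 hE2 hx hx1 (by linarith)
        have hid : x * (5 * E * (1 - 2 * E) * (x - f * δ)
            - (x - 2 * E) * (8 - 11 * δ) * (1 - x - f * (1 - 2 * E - 2 * δ)))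
          = (x - 2 * (f * δ) - 2 * E * f) * (5 * E * (1 - 2 * E) * x
              - (x - 2 * E) * (8 - 11 * δ) * (1 - x))
            + f * (5 * E * (1 - 2 * E) * x * (δ + 2 * E)
              - (x - 2 * E) * (8 - 11 * δ) * (2 * δ + 2 * E - x)) := by ring
        have h3 : 0 ≤ x * (5 * E * (1 - 2 * E) * (x - f * δ)
            - (x - 2 * E) * (8 - 11 * δ) * (1 - x - f * (1 - 2 * E - 2 * δ))) := by
          rw [hid]
          apply add_nonneg
          · exact mul_nonneg (by linarith) (by linarith)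
          · exact mul_nonneg hf0 (by linarith)
        have := nonneg_of_mul_nonneg_right h3 (by linarith)
        linarith
      · have hh' : h ≤ (1 - f) * (1 - x) := by nlinarith
        refine (mul_le_mul_of_nonneg_left hh' hP).trans ?_
        have h4 : (x - 2 * E) * (8 - 11 * δ) * ((1 - f) * (1 - x))
            ≤ (1 - f) * (5 * E * (1 - 2 * E) * x) := by
          have := mul_le_mul_of_nonneg_left hg (by linarith : (0 : ℝ) ≤ 1 - f)
          calc (x - 2 * E) * (8 - 11 * δ) * ((1 - f) * (1 - x))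
              = (1 - f) * ((x - 2 * E) * (8 - 11 * δ) * (1 - x)) := by ring
            _ ≤ _ := this
        have h5 : (1 - f) * (5 * E * (1 - 2 * E) * x) ≤ 5 * E * (1 - 2 * E) * (x - f * δ) := by
          have hq : 0 ≤ 5 * E * (1 - 2 * E) := mul_nonneg (by linarith) (by linarith)
          have h6 : f * δ ≤ f * x := mul_le_mul_of_nonneg_left (by linarith) hf0
          have h7 : (1 - f) * x ≤ x - f * δ := by linarith
          have h8 := mul_le_mul_of_nonneg_left h7 hq
          calc (1 - f) * (5 * E * (1 - 2 * E) * x) = 5 * E * (1 - 2 * E) * ((1 - f) * x) := by ring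
            _ ≤ _ := h8
        linarith

end core

/-- **(L')**, normalised to `F = 1`. -/
theorem Lprime_one {κ d C : ℝ} (hκ : 0 ≤ κ) (hd : 0 ≤ d) (hC : 0 ≤ C)
    (hf : (11 * d + 5 * C) / 8 ≤ 1) {h : ℝ}
    (hh1 : h ≤ 1 - (1 - E) * ((11 * d + 5 * C) / 8) - max (κ - d) 0 / 2)
    (hh2 : h ≤ 1 - (1 - E) * ((11 * d + 5 * C) / 8) - max (κ - d) 0
      + E * ((11 * d + 5 * C) / 8)) :
    lam (d + κ) * max h 0 * C ≤ κ * E * ((11 * d + 5 * C) / 8) := by
  obtain ⟨f, hfdef⟩ : ∃ f, f = (11 * d + 5 * C) / 8 := ⟨_, rfl⟩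
  rw [← hfdef] at hf hh1 hh2 ⊢
  have hE := E_pos
  have hE1 := E_gt
  have hE2 := E_lt
  have hf0 : 0 ≤ f := by rw [hfdef]; positivity
  have hRHS : 0 ≤ κ * E * f := by positivity
  rcases le_total h 0 with hh0 | hh0
  · rw [max_eq_right hh0]; simpa using hRHS
  rw [max_eq_left hh0]
  rcases eq_or_lt_of_le hf0 with hfz | hfpos
  · have : C = 0 := by nlinarith
    rw [this]; simpa using hRHS
  rcases le_total (d + κ) (2 * E) with hx | hx
  · rw [lam_of_le hx]; simpa using hRHS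
  -- δ = d / f
  obtain ⟨δ, hδ⟩ : ∃ δ, δ = d / f := ⟨_, rfl⟩
  have hfδ : f * δ = d := by rw [hδ]; field_simp
  have hδ0 : 0 ≤ δ := by rw [hδ]; positivity
  have hC5 : 5 * C = f * (8 - 11 * δ) := by
    have : f * (8 - 11 * δ) = 8 * f - 11 * (f * δ) := by ring
    rw [this, hfδ, hfdef]; ring
  have hδ8 : 11 * δ ≤ 8 := by
    have : 0 ≤ f * (8 - 11 * δ) := by rw [← hC5]; linarith
    have := nonneg_of_mul_nonneg_right this hfpos
    linarith
  have hd1 : d ≤ 8 / 11 := by nlinarith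
  -- the core inequality at `y ≤ 1`
  have hcore : ∀ y : ℝ, 2 * E ≤ y → y ≤ 1 →
      h ≤ 1 - (1 - E) * f - max (y - 2 * d) 0 / 2 →
      h ≤ 1 - (1 - E) * f - max (y - 2 * d) 0 + E * f →
      (y - 2 * E) * h * C ≤ (1 - 2 * E) * ((y - d) * E * f) := by
    intro y hy0 hy1 hy2 hy3
    have := core (x := y) (f := f) (δ := δ) (h := h) hy0 hy1 hf0 hf hδ0 hδ8
      (by rw [hfδ]; exact hy2) (by rw [hfδ]; exact hy3)
    rw [hfδ] at this
    have h2 := mul_le_mul_of_nonneg_left this hf0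
    have h3 : f * ((y - 2 * E) * (8 - 11 * δ) * h) = (y - 2 * E) * h * (5 * C) := by
      rw [hC5]; ring
    rw [h3] at h2
    nlinarith
  rcases le_total (d + κ) 1 with hx1 | hx1
  · have hl := lam_mul hx hx1
    have h1 := hcore (d + κ) hx hx1 (by rw [show d + κ - 2 * d = κ - d by ring]; exact hh1)
      (by rw [show d + κ - 2 * d = κ - d by ring]; exact hh2)
    rw [← hl, show d + κ - d = κ by ring] at h1
    have h2 : (1 - 2 * E) * (lam (d + κ) * h * C) ≤ (1 - 2 * E) * (κ * E * f) := by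
      calc _ = (1 - 2 * E) * lam (d + κ) * h * C := by ring
        _ ≤ _ := h1
    exact le_of_mul_le_mul_left h2 q_pos
  · rw [lam_of_ge hx1, one_mul]
    have hm : max (1 - 2 * d) 0 ≤ max (κ - d) 0 := max_le_max (by linarith) le_rfl
    have h1 := hcore 1 (by linarith) le_rfl (by linarith) (by linarith)
    have h2 : (1 - 2 * E) * (h * C) ≤ (1 - 2 * E) * ((1 - d) * E * f) := by
      calc _ = (1 - 2 * E) * h * C := by ring
        _ ≤ _ := h1
    have h3 := le_of_mul_le_mul_left h2 q_pos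
    refine h3.trans ?_
    have : (1 - d) * (E * f) ≤ κ * (E * f) :=
      mul_le_mul_of_nonneg_right (by linarith) (by positivity)
    nlinarith


/-- The barrier `B_F(t) = (1-t)(F-f)^+ + e^{-t} min(F,f)`. -/
noncomputable def Bf (F f t : ℝ) : ℝ := (1 - t) * (F - min F f) + Real.exp (-t) * min F f

/-- **(R0)**: the tangent line of `B_F` at `t`, evaluated at `θ = t λ(b/F)`, dominates `B_b(θ)`. -/
theorem R0 {F b f t : ℝ} (hF : 0 < F) (hb : 0 ≤ b) (hbF : b ≤ F) (hf : 0 ≤ f)
    (ht0 : 0 ≤ t) (ht1 : t ≤ 1) :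
    Bf b f (t * lam (b / F)) ≤ (1 - t * lam (b / F)) * (F - min F f)
      + Real.exp (-t) * min F f * (1 + t - t * lam (b / F)) := by
  obtain ⟨β, hβ⟩ : ∃ β, β = b / F := ⟨_, rfl⟩
  have hbβ : b = F * β := by rw [hβ]; field_simp
  have hβ0 : 0 ≤ β := by rw [hβ]; positivity
  have hβ1 : β ≤ 1 := by rw [hβ, div_le_one hF]; exact hbF
  rw [← hβ]
  have hl0 := lam_nonneg β
  have hl1 := lam_le_one β
  set θ := t * lam β with hθ
  have hθ0 : 0 ≤ θ := mul_nonneg ht0 hl0
  have hθt : θ ≤ t := by rw [hθ]; nlinarith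
  have hA := R0a (t := t) (β := β) ht0 ht1 hβ1
  have hB := R0b (t := t) (β := β) ht0 ht1 hβ1
  rw [← hθ] at hA hB
  have hs0 := Real.exp_pos (-t)
  have he0 := Real.exp_pos (-θ)
  unfold Bf
  rcases le_total F f with h1 | h1
  · rw [min_eq_left h1, min_eq_left (hbF.trans h1), hbβ]
    have := mul_le_mul_of_nonneg_left hA hF.le
    nlinarith
  · rw [min_eq_right h1]
    have hA' := mul_le_mul_of_nonneg_left hA hF.le
    have hB' := mul_le_mul_of_nonneg_left hB hF.le
    rcases le_total b f with h2 | h2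
    · -- b ≤ f ≤ F : convex combination of `f = b` and `f = F`
      rw [min_eq_left h2, hbβ]
      rw [hbβ] at h2
      simp only [sub_self, mul_zero, zero_add]
      -- (1-β) F * goal
      rcases eq_or_lt_of_le hβ1 with hb1 | hb1
      · have : f = F := by rw [hb1] at h2; linarith
        rw [this, hb1]
        rw [hb1] at hA'
        nlinarith
      · have key : (1 - β) * ((1 - θ) * (F - f) + Real.exp (-t) * f * (1 + t - θ)
              - Real.exp (-θ) * (F * β))
            = ((F - f) / F) * (F * ((1 - θ) * (1 - β) + Real.exp (-t) * β * (1 + t - θ))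
                  - F * (β * Real.exp (-θ)))
              + ((f - F * β) / F) * (F * (Real.exp (-t) * (1 + t - θ))
                  - F * (β * Real.exp (-θ))) := by
          field_simp
          ring
        have hk : 0 ≤ (1 - β) * ((1 - θ) * (F - f) + Real.exp (-t) * f * (1 + t - θ)
              - Real.exp (-θ) * (F * β)) := by
          rw [key]
          apply add_nonneg
          · exact mul_nonneg (div_nonneg (by linarith) hF.le) (by linarith)
          · exact mul_nonneg (div_nonneg (by linarith) hF.le) (by linarith)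
        have := nonneg_of_mul_nonneg_right hk (by linarith)
        linarith
    · -- f ≤ b : convex combination of `f = 0` and `f = b`
      rw [min_eq_right h2, hbβ]
      rw [hbβ] at h2
      rcases eq_or_lt_of_le hβ0 with hb0 | hb0
      · have hf0 : f = 0 := by rw [← hb0] at h2; linarith
        rw [hf0, ← hb0]
        have : θ ≤ 1 := hθt.trans ht1
        nlinarith
      · have key : β * ((1 - θ) * (F - f) + Real.exp (-t) * f * (1 + t - θ)
              - ((1 - θ) * (F * β - f) + Real.exp (-θ) * f))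
            = (f / F) * (F * ((1 - θ) * (1 - β) + Real.exp (-t) * β * (1 + t - θ))
                  - F * (β * Real.exp (-θ)))
              + ((F * β - f) / F) * (F * ((1 - θ) * (1 - β))) := by
          field_simp
          ring
        have hk : 0 ≤ β * ((1 - θ) * (F - f) + Real.exp (-t) * f * (1 + t - θ)
              - ((1 - θ) * (F * β - f) + Real.exp (-θ) * f)) := by
          rw [key]
          apply add_nonneg
          · exact mul_nonneg (div_nonneg hf hF.le) (by linarith)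
          · apply mul_nonneg (div_nonneg (by linarith) hF.le)
            exact mul_nonneg hF.le (mul_nonneg (by linarith) (by linarith))
        have := nonneg_of_mul_nonneg_right hk hb0
        linarith

/-- **(L')** for arbitrary `F > 0`. -/
theorem Lprime {F κ d C : ℝ} (hF : 0 < F) (hκ : 0 ≤ κ) (hd : 0 ≤ d) (hC : 0 ≤ C)
    (hf : (11 * d + 5 * C) / 8 ≤ F) {h : ℝ}
    (hh1 : h ≤ F - (1 - E) * ((11 * d + 5 * C) / 8) - max (κ - d) 0 / 2)
    (hh2 : h ≤ F - (1 - E) * ((11 * d + 5 * C) / 8) - max (κ - d) 0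
      + E * ((11 * d + 5 * C) / 8)) :
    lam ((d + κ) / F) * max h 0 * C ≤ κ * E * ((11 * d + 5 * C) / 8) := by
  have hF' : F ≠ 0 := hF.ne'
  have hmd : ∀ z : ℝ, max (z / F) 0 = max z 0 / F := by
    intro z
    rcases le_total z 0 with hz | hz
    · rw [max_eq_right hz, max_eq_right (div_nonpos_of_nonpos_of_nonneg hz hF.le), zero_div]
    · rw [max_eq_left hz, max_eq_left (div_nonneg hz hF.le)]
  have hm : max (κ / F - d / F) 0 = max (κ - d) 0 / F := by
    rw [← sub_div, hmd]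
  have e0 : (11 * (d / F) + 5 * (C / F)) / 8 = ((11 * d + 5 * C) / 8) / F := by field_simp
  have h1 := Lprime_one (κ := κ / F) (d := d / F) (C := C / F) (h := h / F)
    (by positivity) (by positivity) (by positivity)
    (by rw [e0, div_le_one hF]; exact hf)
    (by
      rw [hm, e0, div_le_iff₀ hF]
      have : (1 - (1 - E) * ((11 * d + 5 * C) / 8 / F) - max (κ - d) 0 / F / 2) * F
          = F - (1 - E) * ((11 * d + 5 * C) / 8) - max (κ - d) 0 / 2 := by
        field_simp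
      rw [this]; exact hh1)
    (by
      rw [hm, e0, div_le_iff₀ hF]
      have : (1 - (1 - E) * ((11 * d + 5 * C) / 8 / F) - max (κ - d) 0 / F
            + E * ((11 * d + 5 * C) / 8 / F)) * F
          = F - (1 - E) * ((11 * d + 5 * C) / 8) - max (κ - d) 0
            + E * ((11 * d + 5 * C) / 8) := by
        field_simp
      rw [this]; exact hh2)
  rw [e0, ← add_div] at h1
  rw [hmd h] at h1
  have h2 : lam ((d + κ) / F) * (max h 0 / F) * (C / F) * (F * F)
      ≤ κ / F * E * (((11 * d + 5 * C) / 8) / F) * (F * F) :=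
    mul_le_mul_of_nonneg_right h1 (by positivity)
  have e1 : lam ((d + κ) / F) * (max h 0 / F) * (C / F) * (F * F)
      = lam ((d + κ) / F) * max h 0 * C := by field_simp
  have e2 : κ / F * E * (((11 * d + 5 * C) / 8) / F) * (F * F)
      = κ * E * ((11 * d + 5 * C) / 8) := by field_simp
  rw [e1, e2] at h2
  exact h2

end Crest.Agent.R310.Scal
end

-- ▼ part KM/Scal
section

/-!
# The two scalar inequalities of the k-median potential

`R0Prop` and `LProp` of `Crest.Agent.KM.Hfun`, from `Crest.Agent.R310.Scal`.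
-/

set_option autoImplicit false

namespace Crest.Agent.KM

theorem lam_eq (x : ℝ) : lam x = Crest.Agent.R310.Scal.lam x := rfl

theorem r0Prop : R0Prop := by
  intro F F' f t hF hF' hFF hf ht0 ht1
  have h := Crest.Agent.R310.Scal.R0 (F := F) (b := F') (f := f) (t := t) hF hF' hFF hf ht0 ht1
  unfold Crest.Agent.R310.Scal.Bf at h
  rw [← lam_eq] at h
  unfold Bc bc
  refine h.trans (le_of_eq ?_)
  ring

theorem lProp : LProp := by
  intro F d C x f hF hd hC hx hfd hfF
  have hE : ee = Crest.Agent.R310.Scal.E := rfl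
  have hE0 := ee_pos
  have hm : min (d + x) f ≤ f := min_le_right _ _
  have h := Crest.Agent.R310.Scal.Lprime (F := F) (κ := x) (d := d) (C := C)
    (h := F - (1-ee)*f - max ((max 0 (x-d))/2) (max 0 (x-d) - ee*min (d+x) f)) hF hx hd hC
    (by rw [← hfd]; exact hfF)
    (by
      rw [← hfd, ← hE, max_comm (x - d) 0]
      have := le_max_left ((max 0 (x-d))/2) (max 0 (x-d) - ee*min (d+x) f)
      linarith)
    (by
      rw [← hfd, ← hE, max_comm (x - d) 0]
      have := le_max_right ((max 0 (x-d))/2) (max 0 (x-d) - ee*min (d+x) f)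
      nlinarith)
  rw [← hfd, ← hE, ← lam_eq, max_comm _ (0 : ℝ)] at h
  exact h

end Crest.Agent.KM
end

-- ▼ part KM/PotK
section

/-!
# The concrete potential as a `SlackK.Pot`
-/

set_option autoImplicit false

open Finset

namespace Crest.Agent.KM

namespace FracInst

variable {ι σ : Type} [Fintype ι] [Fintype σ] [DecidableEq σ] {I : FracInst ι σ}

theorem State.ext' {S T : I.State} (hK : ∀ j, S.K j = T.K j) (hF : ∀ i, S.F i = T.F i) :
    S = T := by
  obtain ⟨K, F, _, _, _⟩ := S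
  obtain ⟨K', F', _, _, _⟩ := T
  have h1 : K = K' := funext hK
  have h2 : F = F' := funext hF
  subst h1; subst h2
  rfl

/-- the state after opening a finite set of copies on top of `S` -/
noncomputable def State.opened (S : I.State) (T : Finset σ) : I.State where
  K := fun j => T.fold min (S.K j) (fun κ => I.d κ j)
  F := fun i => T.fold min (S.F i) (fun κ => I.D κ i)
  K_nonneg := fun j => by
    rw [Finset.le_fold_min]; exact ⟨S.K_nonneg j, fun κ _ => I.d_nonneg κ j⟩
  F_nonneg := fun i => by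
    rw [Finset.le_fold_min]; exact ⟨S.F_nonneg i, fun κ _ => I.D_nonneg i κ⟩
  K_le := by
    intro i j
    have h : T.fold min (S.K j) (fun κ => I.d κ j) - I.d i j ≤
        T.fold min (S.F i) (fun κ => I.D κ i) := by
      rw [Finset.le_fold_min]
      constructor
      · have h1 : T.fold min (S.K j) (fun κ => I.d κ j) ≤ S.K j := by
          rw [Finset.fold_min_le]; exact Or.inl le_rfl
        have := S.K_le i j
        linarith
      · intro κ hκ
        have h1 : T.fold min (S.K j) (fun κ => I.d κ j) ≤ I.d κ j := by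
          rw [Finset.fold_min_le]; exact Or.inr ⟨κ, hκ, le_rfl⟩
        have := I.tri2 i κ j
        linarith
    linarith

lemma State.opened_empty (S : I.State) : S.opened ∅ = S :=
  State.ext' (fun j => by simp [State.opened]) (fun i => by simp [State.opened])

lemma State.opened_insert (S : I.State) (T : Finset σ) (κ : σ) :
    S.opened (insert κ T) = (S.opened T).step κ :=
  State.ext'
    (fun j => by
      simp only [State.opened, State.step]
      rw [Finset.fold_insert_idem, min_comm])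
    (fun i => by
      simp only [State.opened, State.step]
      rw [Finset.fold_insert_idem, min_comm])

lemma State.opened_K_le (S : I.State) {T : Finset σ} {κ : σ} (h : κ ∈ T) (j : ι) :
    (S.opened T).K j ≤ I.d κ j := by
  simp only [State.opened]
  rw [Finset.fold_min_le]; exact Or.inr ⟨κ, h, le_rfl⟩

lemma State.notMem_of_alive (S : I.State) {T : Finset σ} {p : ℝ} (hp : 0 ≤ p) {i : σ}
    (h : i ∈ (S.opened T).alive p) : i ∉ T := by
  intro hi
  rw [State.mem_alive] at h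
  have h0 : (S.opened T).U i = 0 := by
    unfold State.U
    apply Finset.sum_eq_zero
    intro j _
    have : (S.opened T).u i j = 0 := by
      unfold State.u
      apply max_eq_right
      have := S.opened_K_le hi j
      linarith
    rw [this, mul_zero]
  have := (S.opened T).V_nonneg hp i
  linarith

lemma two_ee : 2 * ee = 2 / Real.exp 1 := by
  unfold ee
  rw [Real.exp_neg]
  ring

/-- **The k-median potential.** `S` is the initial state (for instance nothing open, or a fixed set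
of hubs / private penalties), `G` an upper bound for `(1+2/e)` times the fractional cost. -/
noncomputable def pot (I : FracInst ι σ) (S : I.State) (G : ℝ) (hG : 0 < G)
    (hle : (1 + 2 / Real.exp 1) * ∑ j, I.w j * I.C j ≤ G) :
    Crest.Agent.R310.SlackK.Pot σ where
  R := fun a T => (S.opened T).R a
  A := fun a T => (S.opened T).alive a
  c := fun T => (S.opened T).cost
  y := fun _ => 1 / (I.M:ℝ)
  n0 := Fintype.card σ / I.M
  hn0 := by positivity
  G := G
  hG := hG
  R_nonneg := fun a T ha => (S.opened T).R_nonneg ha.le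
  R_anti := by
    intro a T i ha
    rw [S.opened_insert]
    exact (S.opened T).R_step_le r0Prop lProp ha i
  R_conc := by
    intro a b e T _ hab hbe
    have hea : 0 < e - a := by linarith
    have h := (S.opened T).R_concave a e ((e-b)/(e-a)) ((b-a)/(e-a))
      (div_nonneg (by linarith) hea.le) (div_nonneg (by linarith) hea.le)
      (by rw [← add_div, div_eq_one_iff_eq hea.ne']; ring)
    have hb : (e-b)/(e-a) * a + (b-a)/(e-a) * e = b := by
      field_simp; ring
    rw [hb] at h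
    have h2 := mul_le_mul_of_nonneg_left h hea.le
    have h3 : (e - a) * ((e-b)/(e-a) * (S.opened T).R a + (b-a)/(e-a) * (S.opened T).R e) =
        (e-b) * (S.opened T).R a + (b-a) * (S.opened T).R e := by
      field_simp
    rw [h3] at h2
    linarith
  y_pos := fun a T _ i _ => by have := I.M_pos'; positivity
  A_out := fun a T ha i hi => S.notMem_of_alive ha.le hi
  mixed := by
    intro a b T ha hab
    have h := (S.opened T).star r0Prop lProp hab (lt_of_lt_of_le ha hab)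
    have hM := I.M_pos'
    have h1 : ∑ i ∈ (S.opened T).alive a, 1 / (I.M:ℝ) *
        (b + (S.opened (insert i T)).R b - (S.opened T).R b) =
        1 / (I.M:ℝ) * ∑ i ∈ (S.opened T).alive a,
          (b + ((S.opened T).step i).R b - (S.opened T).R b) := by
      rw [Finset.mul_sum]
      apply Finset.sum_congr rfl
      intro i _
      rw [S.opened_insert]
    rw [h1, Finset.sum_const, nsmul_eq_mul]
    have h2 := mul_le_mul_of_nonneg_left h (show 0 ≤ 1 / (I.M:ℝ) by positivity)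
    refine h2.trans (le_of_eq ?_)
    ring
  final := by
    intro a b T _ hab h
    apply (S.opened T).R_dead
    apply Finset.subset_empty.mp
    rw [← h]
    exact (S.opened T).alive_anti hab
  start := by
    intro a _
    rw [S.opened_empty]
    have h := S.R_le a
    rw [two_ee] at h
    linarith

end FracInst

end Crest.Agent.KM
end

-- ▼ part KM/Eval
section

/-!
# Finite (rational) evaluation of the potential, with error bound

`hullc J E u F f l` approximates `cc u F f (l/J)` up to `(η + 1/(2J²)) f`, where `E s ≈ exp(-s/J)`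
up to `η`; `VT` is the minimum over the `J+1` nodes and `RT` the approximation of `State.R`.
-/

set_option autoImplicit false

open Finset

namespace Crest.Agent.KM

section Defs

variable {𝕜 : Type*} [Field 𝕜] [LinearOrder 𝕜]

/-- minimum of a list and a start value -/
def minL (x0 : 𝕜) (L : List 𝕜) : 𝕜 := L.foldr min x0

/-- value at time `l/J` of the segment from `(0,u)` to the curve point at time `s/J` -/
def seg (J : ℕ) (E : ℕ → 𝕜) (u F f : 𝕜) (l s : ℕ) : 𝕜 :=
  (1 - (l:𝕜)/(s:𝕜)) * u +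
    ((l:𝕜)/(s:𝕜)) * ((1 - (s:𝕜)/(J:𝕜)) * (F - min F f) + E s * min F f)

/-- the hull value at node `l` -/
def hullc (J : ℕ) (E : ℕ → 𝕜) (u F f : 𝕜) (l : ℕ) : 𝕜 :=
  if l = 0 then u else
    minL (u - ((l:𝕜)/(J:𝕜)) * (u/2))
      (((List.range (J+1)).filter (fun s => decide (l ≤ s))).map (seg J E u F f l))

/-- `(1 - 1/J + 1/(2J²))^s` -/
def expT (J : ℕ) (s : ℕ) : 𝕜 := (1 - 1/(J:𝕜) + 1/(2*(J:𝕜)^2))^s

end Defs

lemma minL_le_start {x0 : ℝ} (L : List ℝ) : minL x0 L ≤ x0 := by
  induction L with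
  | nil => exact le_rfl
  | cons a L ih => exact (min_le_right _ _).trans ih

lemma minL_le {x0 : ℝ} {L : List ℝ} {a : ℝ} (h : a ∈ L) : minL x0 L ≤ a := by
  induction L with
  | nil => simp at h
  | cons b L ih =>
    rcases List.mem_cons.mp h with h1 | h1
    · rw [h1]; exact min_le_left _ _
    · exact (min_le_right _ _).trans (ih h1)

lemma le_minL {x0 b : ℝ} {L : List ℝ} (h0 : b ≤ x0) (h : ∀ a ∈ L, b ≤ a) : b ≤ minL x0 L := by
  induction L with
  | nil => exact h0
  | cons a L ih =>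
    exact le_min (h a (List.mem_cons_self)) (ih fun c hc => h c (List.mem_cons_of_mem _ hc))

lemma exp_taylor {h : ℝ} (h0 : 0 ≤ h) : Real.exp (-h) ≤ 1 - h + h^2/2 := by
  -- e^{-h} * e^{h} = 1 with e^h ≥ 1 + h + h^2/2
  have h1 : 1 + h + h^2/2 ≤ Real.exp h := Real.quadratic_le_exp_of_nonneg h0
  have h2 : Real.exp (-h) * Real.exp h = 1 := by rw [← Real.exp_add]; simp
  have h3 : 0 < Real.exp (-h) := Real.exp_pos _
  have h4 : Real.exp (-h) * (1 + h + h^2/2) ≤ 1 := by
    calc _ ≤ Real.exp (-h) * Real.exp h := mul_le_mul_of_nonneg_left h1 h3.le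
      _ = 1 := h2
  have h5 : 1 ≤ (1 - h + h^2/2) * (1 + h + h^2/2) := by nlinarith [sq_nonneg (h^2)]
  have h6 : 0 < 1 + h + h^2/2 := by positivity
  have : Real.exp (-h) * (1 + h + h^2/2) ≤ (1 - h + h^2/2) * (1 + h + h^2/2) := h4.trans h5
  exact le_of_mul_le_mul_right this h6

section

variable {J : ℕ} {E : ℕ → ℝ} {η : ℝ}

lemma seg_ge (hJ : 0 < J) (hE : ∀ s ≤ J, |E s - Real.exp (-((s:ℝ)/J))| ≤ η)
    {u F f : ℝ} (hf : 0 ≤ f) (hF : 0 ≤ F) (huF : u ≤ F) {l s : ℕ} (hl : 0 < l) (hls : l ≤ s)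
    (hs : s ≤ J) : cc u F f ((l:ℝ)/J) - η * f ≤ seg J E u F f l s := by
  have hJ' : (0:ℝ) < J := by exact_mod_cast hJ
  have hs' : (0:ℝ) < s := by exact_mod_cast (lt_of_lt_of_le hl hls)
  have hl' : (0:ℝ) < l := by exact_mod_cast hl
  have hls' : (l:ℝ) ≤ s := by exact_mod_cast hls
  have hsJ : (s:ℝ) ≤ J := by exact_mod_cast hs
  have hρ0 : 0 ≤ (l:ℝ)/s := by positivity
  have hρ1 : (l:ℝ)/s ≤ 1 := by rw [div_le_one hs']; exact hls'
  have h1 := cc_chord (u := u) (x := (s:ℝ)/J) hf hF huF hρ0 hρ1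
  have h2 : (l:ℝ)/s * ((s:ℝ)/J) = (l:ℝ)/J := by field_simp
  rw [h2] at h1
  have h3 := cc_le_Bc (u := u) (t := (s:ℝ)/J) hf hF (by positivity) (by rw [div_le_one hJ']; exact hsJ)
  have h4 := (abs_le.mp (hE s hs)).1
  have hm0 : 0 ≤ min F f := le_min hF hf
  have hmf : min F f ≤ f := min_le_right _ _
  have hη : 0 ≤ η := (abs_nonneg _).trans (hE s hs)
  have h5 : Bc F f ((s:ℝ)/J) - η * f ≤ (1 - (s:ℝ)/J) * (F - min F f) + E s * min F f := by
    unfold Bc
    have := mul_le_mul_of_nonneg_right (show Real.exp (-((s:ℝ)/J)) - η ≤ E s by linarith) hm0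
    have := mul_le_mul_of_nonneg_left hmf hη
    linarith
  have h6 := mul_le_mul_of_nonneg_left (h3.trans (sub_le_iff_le_add.mp h5)) hρ0
  have h7 : (l:ℝ)/s * (η * f) ≤ 1 * (η * f) :=
    mul_le_mul_of_nonneg_right hρ1 (mul_nonneg hη hf)
  unfold seg
  linarith

lemma hullc_ge (hJ : 0 < J) (hE : ∀ s ≤ J, |E s - Real.exp (-((s:ℝ)/J))| ≤ η)
    {u F f : ℝ} (hf : 0 ≤ f) (hF : 0 ≤ F) (huF : u ≤ F) {l : ℕ} (hl : l ≤ J) :
    cc u F f ((l:ℝ)/J) - η * f ≤ hullc J E u F f l := by
  have hη : 0 ≤ η := (abs_nonneg _).trans (hE 0 (Nat.zero_le _))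
  have hJ' : (0:ℝ) < J := by exact_mod_cast hJ
  unfold hullc
  split_ifs with h0
  · rw [h0]
    simp only [Nat.cast_zero, zero_div]
    rw [cc_zero hf hF huF]
    have := mul_nonneg hη hf
    linarith
  · apply le_minL
    · have h1 := cc_chord (u := u) (x := 1) (ρ := (l:ℝ)/J) hf hF huF (by positivity)
        (by rw [div_le_one hJ']; exact_mod_cast hl)
      rw [mul_one, cc_one hf hF huF] at h1
      have h2 : (l:ℝ)/J * min (u/2) (ee * min F f) ≤ (l:ℝ)/J * (u/2) :=
        mul_le_mul_of_nonneg_left (min_le_left _ _) (by positivity)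
      have := mul_nonneg hη hf
      linarith
    · intro a ha
      obtain ⟨s, hs, rfl⟩ := List.mem_map.mp ha
      obtain ⟨hs1, hs2⟩ := List.mem_filter.mp hs
      have hs3 : s < J + 1 := List.mem_range.mp hs1
      have hs4 : l ≤ s := by simpa using hs2
      exact seg_ge hJ hE hf hF huF (Nat.pos_of_ne_zero h0) hs4 (by omega)

lemma hullc_le_seg (u F f : ℝ) {l s : ℕ} (hl : l ≠ 0) (hls : l ≤ s) (hs : s ≤ J) :
    hullc J E u F f l ≤ seg J E u F f l s := by
  unfold hullc
  rw [if_neg hl]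
  apply minL_le
  apply List.mem_map.mpr
  refine ⟨s, List.mem_filter.mpr ⟨List.mem_range.mpr (by omega), by simpa using hls⟩, rfl⟩

lemma hullc_le_half (u F f : ℝ) {l : ℕ} (hl : l ≠ 0) :
    hullc J E u F f l ≤ u - ((l:ℝ)/J) * (u/2) := by
  unfold hullc
  rw [if_neg hl]
  exact minL_le_start _

/-- upper bound of a segment in terms of the true curve -/
lemma seg_le (hE : ∀ s ≤ J, |E s - Real.exp (-((s:ℝ)/J))| ≤ η)
    {u F f : ℝ} (hf : 0 ≤ f) (hF : 0 ≤ F) {l s : ℕ} (hl : 0 < l) (hls : l ≤ s)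
    (hs : s ≤ J) :
    seg J E u F f l s ≤ (1 - (l:ℝ)/s) * u + ((l:ℝ)/s) * Bc F f ((s:ℝ)/J) + η * f := by
  have hs' : (0:ℝ) < s := by exact_mod_cast (lt_of_lt_of_le hl hls)
  have hl' : (0:ℝ) < l := by exact_mod_cast hl
  have hls' : (l:ℝ) ≤ s := by exact_mod_cast hls
  have hρ0 : 0 ≤ (l:ℝ)/s := by positivity
  have hρ1 : (l:ℝ)/s ≤ 1 := by rw [div_le_one hs']; exact hls'
  have h4 := (abs_le.mp (hE s hs)).2
  have hm0 : 0 ≤ min F f := le_min hF hf
  have hmf : min F f ≤ f := min_le_right _ _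
  have hη : 0 ≤ η := (abs_nonneg _).trans (hE s hs)
  have h5 : (1 - (s:ℝ)/J) * (F - min F f) + E s * min F f ≤ Bc F f ((s:ℝ)/J) + η * f := by
    unfold Bc
    have := mul_le_mul_of_nonneg_right (show E s ≤ Real.exp (-((s:ℝ)/J)) + η by linarith) hm0
    have := mul_le_mul_of_nonneg_left hmf hη
    linarith
  have h6 := mul_le_mul_of_nonneg_left h5 hρ0
  have h7 : (l:ℝ)/s * (η * f) ≤ 1 * (η * f) :=
    mul_le_mul_of_nonneg_right hρ1 (mul_nonneg hη hf)
  unfold seg
  linarith

lemma hullc_le (hJ : 0 < J) (hE : ∀ s ≤ J, |E s - Real.exp (-((s:ℝ)/J))| ≤ η)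
    {u F f : ℝ} (hf : 0 ≤ f) (hF : 0 ≤ F) (huF : u ≤ F) {l : ℕ} (hl : l ≤ J) :
    hullc J E u F f l ≤ cc u F f ((l:ℝ)/J) + (η + 1/(2*(J:ℝ)^2)) * f := by
  have hη : 0 ≤ η := (abs_nonneg _).trans (hE 0 (Nat.zero_le _))
  have hJ' : (0:ℝ) < J := by exact_mod_cast hJ
  have hc : 0 ≤ 1/(2*(J:ℝ)^2) * f := by positivity
  have hηf : 0 ≤ η * f := mul_nonneg hη hf
  rcases Nat.eq_zero_or_pos l with h0 | hlpos
  · subst h0
    unfold hullc
    rw [if_pos rfl]
    simp only [Nat.cast_zero, zero_div]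
    rw [cc_zero hf hF huF]
    linarith
  have hl0 : l ≠ 0 := hlpos.ne'
  have hl' : (0:ℝ) < l := by exact_mod_cast hlpos
  have hlJ : (l:ℝ)/J ≤ 1 := by rw [div_le_one hJ']; exact_mod_cast hl
  have hlJ0 : 0 ≤ (l:ℝ)/J := by positivity
  have hm0 : 0 ≤ min F f := le_min hF hf
  have hmf : min F f ≤ f := min_le_right _ _
  have he := ee_pos
  by_cases h : u ≤ F - (1-2*ee)*min F f
  · rcases le_total (u - ee*min F f) (u/2) with h1 | h1
    · have h2 := hullc_le_half (J := J) (E := E) u F f hl0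
      rw [cc_of_le h, max_eq_left h1]
      linarith
    · have h2 := hullc_le_seg (J := J) (E := E) u F f hl0 hl le_rfl
      have h3 := seg_le hE (u := u) hf hF hlpos hl le_rfl
      rw [cc_of_le h, max_eq_right h1]
      have h4 : Bc F f ((J:ℝ)/J) = ee * min F f := by
        rw [div_self hJ'.ne']; unfold Bc ee; ring
      rw [h4] at h3
      linarith
  · push Not at h
    obtain ⟨hx0, hx1, -⟩ := ts_spec (le_min hF hf) huF h
    have hline := line_at_ts hf hF huF h
    have hcc := cc_of_gt h ((l:ℝ)/J)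
    set x := ts u F (min F f) with hx
    rcases le_total x ((l:ℝ)/J) with hxt | hxt
    · have h2 := hullc_le_seg (J := J) (E := E) u F f hl0 le_rfl hl
      have h3 := seg_le hE (u := u) hf hF hlpos le_rfl hl
      rw [div_self hl'.ne'] at h3
      rw [hcc, max_eq_left hxt]
      linarith
    · -- next grid point above x
      rw [hcc, max_eq_right hxt]
      set s := ⌈x * J⌉₊ with hsdef
      have hs1 : x * J ≤ s := Nat.le_ceil _
      have hs2 : (s:ℝ) < x * J + 1 := Nat.ceil_lt_add_one (by positivity)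
      have hlx : (l:ℝ) ≤ x * J := by rwa [div_le_iff₀ hJ'] at hxt
      have hls : l ≤ s := by exact_mod_cast hlx.trans hs1
      have hsJ : s ≤ J := by
        rw [hsdef, Nat.ceil_le]
        exact mul_le_of_le_one_left hJ'.le hx1
      have h2 := hullc_le_seg (J := J) (E := E) u F f hl0 hls hsJ
      have h3 := seg_le hE (u := u) hf hF hlpos hls hsJ
      have hs' : (0:ℝ) < s := by exact_mod_cast (lt_of_lt_of_le hlpos hls)
      have hls' : (l:ℝ) ≤ s := by exact_mod_cast hls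
      have hρ0 : 0 ≤ (l:ℝ)/s := by positivity
      have hρ1 : (l:ℝ)/s ≤ 1 := by rw [div_le_one hs']; exact hls'
      -- the deviation of the curve from the tangent line
      set hh := (s:ℝ)/J - x with hhdef
      have hh0 : 0 ≤ hh := by
        rw [hhdef, sub_nonneg, le_div_iff₀ hJ']; exact hs1
      have hh1 : hh ≤ 1/J := by
        rw [hhdef, sub_le_iff_le_add, div_le_iff₀ hJ']
        have : (1/(J:ℝ) + x) * J = 1 + x * J := by field_simp
        rw [this]; linarith
      have h5 : Bc F f ((s:ℝ)/J) ≤ Bc F f x + (x - (s:ℝ)/J) * bc F f x + hh^2/2 * f := by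
        have h6 : Real.exp (-((s:ℝ)/J)) = Real.exp (-x) * Real.exp (-hh) := by
          rw [← Real.exp_add]; congr 1; rw [hhdef]; ring
        have h7 := exp_taylor hh0
        have h8 : Real.exp (-x) ≤ 1 := exp_neg_le_one hx0
        have h9 : 0 < Real.exp (-x) := Real.exp_pos _
        have h10 : Real.exp (-((s:ℝ)/J)) ≤ Real.exp (-x) * (1 - hh) + hh^2/2 := by
          rw [h6]
          have a1 := mul_le_mul_of_nonneg_left h7 h9.le
          have a2 := mul_le_mul_of_nonneg_right h8 (show 0 ≤ hh^2/2 by positivity)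
          linarith
        have h11 := mul_le_mul_of_nonneg_right h10 hm0
        have h12 : hh^2/2 * min F f ≤ hh^2/2 * f := mul_le_mul_of_nonneg_left hmf (by positivity)
        have h13 : (s:ℝ)/J = x + hh := by rw [hhdef]; ring
        unfold Bc bc
        rw [h13] at h11 ⊢
        nlinarith
      have h14 : hh^2/2 * f ≤ 1/(2*(J:ℝ)^2) * f := by
        apply mul_le_mul_of_nonneg_right _ hf
        have : hh^2 ≤ (1/(J:ℝ))^2 := pow_le_pow_left₀ hh0 hh1 2
        calc hh^2/2 ≤ (1/(J:ℝ))^2/2 := by linarith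
          _ = 1/(2*(J:ℝ)^2) := by field_simp
      have h15 := mul_le_mul_of_nonneg_left (h5.trans (add_le_add le_rfl h14)) hρ0
      have h16 : (l:ℝ)/s * (1/(2*(J:ℝ)^2) * f) ≤ 1 * (1/(2*(J:ℝ)^2) * f) :=
        mul_le_mul_of_nonneg_right hρ1 hc
      -- evaluate the line at l/J
      have h17 : (1 - (l:ℝ)/s) * u + (l:ℝ)/s * (Bc F f x + (x - (s:ℝ)/J) * bc F f x) =
          Bc F f x + (x - (l:ℝ)/J) * bc F f x := by
        rw [← hline]
        field_simp
        ring
      refine h2.trans (h3.trans ?_)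
      have h18 : (l:ℝ)/s * (Bc F f x + (x - (s:ℝ)/J) * bc F f x + 1/(2*(J:ℝ)^2) * f) =
          (l:ℝ)/s * (Bc F f x + (x - (s:ℝ)/J) * bc F f x) + (l:ℝ)/s * (1/(2*(J:ℝ)^2) * f) := by
        ring
      rw [h18] at h15
      linarith

end

/-! ## Nodes -/

section Defs

variable {𝕜 : Type*} [Field 𝕜] [LinearOrder 𝕜] {ι : Type*}

/-- value of the star function at node `l` -/
def nodeT (J : ℕ) (E : ℕ → 𝕜) (Js : Finset ι) (w u f : ι → 𝕜) (F p : 𝕜) (l : ℕ) : 𝕜 :=
  p * ((l:𝕜)/(J:𝕜)) + ∑ j ∈ Js, w j * hullc J E (u j) F (f j) l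

/-- approximate star value: minimum over the nodes -/
def VT (J : ℕ) (E : ℕ → 𝕜) (Js : Finset ι) (w u f : ι → 𝕜) (F p : 𝕜) : 𝕜 :=
  minL (nodeT J E Js w u f F p 0) ((List.range (J+1)).map (nodeT J E Js w u f F p))

end Defs

lemma gg_diff {u F f a b : ℝ} (hf : 0 ≤ f) (hF : 0 ≤ F) (huF : u ≤ F) (ha : 0 ≤ a) (hab : a ≤ b) :
    gg u F f a - gg u F f b ≤ (b - a) * f := by
  have hm0 : 0 ≤ min F f := le_min hF hf
  have hmf : min F f ≤ f := min_le_right _ _
  by_cases h : u ≤ F - (1-2*ee)*min F f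
  · rw [gg_of_le h, gg_of_le h, sub_self]
    exact mul_nonneg (by linarith) hf
  · push Not at h
    obtain ⟨hx0, hx1, -⟩ := ts_spec (le_min hF hf) huF h
    rw [gg_of_gt h, gg_of_gt h]
    set x := ts u F (min F f)
    unfold bc
    set a' := max a x with ha'
    set b' := max b x with hb'
    have h1 : b' - a' ≤ b - a := by
      rw [ha', hb']
      rcases le_total a x with h2 | h2
      · rw [max_eq_right h2]
        rcases le_total b x with h3 | h3
        · rw [max_eq_right h3]; linarith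
        · rw [max_eq_left h3]; linarith
      · rw [max_eq_left h2, max_eq_left (h2.trans hab)]
    have h0 : a' ≤ b' := max_le_max hab le_rfl
    have h2 := exp_neg_tangent b' a'
    have h3 : Real.exp (-a') ≤ 1 := exp_neg_le_one (ha.trans (le_max_left _ _))
    have h4 : Real.exp (-a') - Real.exp (-b') ≤ b' - a' := by nlinarith
    have h5 := mul_le_mul_of_nonneg_right (h4.trans h1) hm0
    have h6 := mul_le_mul_of_nonneg_left hmf (show 0 ≤ b - a by linarith)
    linarith

/-- interpolation between two nodes -/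
lemma cc_interp {u F f a b ρ : ℝ} (hf : 0 ≤ f) (hF : 0 ≤ F) (huF : u ≤ F) (ha : 0 ≤ a)
    (hab : a ≤ b) (h0 : 0 ≤ ρ) (h1 : ρ ≤ 1) :
    (1 - ρ) * cc u F f a + ρ * cc u F f b ≤
      cc u F f ((1-ρ) * a + ρ * b) + (b-a)^2/4 * f := by
  set t := (1-ρ) * a + ρ * b with ht
  have h2 := cc_sub (u := u) hf hF t a
  have h3 := cc_sub (u := u) hf hF t b
  have h4 := gg_diff hf hF huF ha hab
  have e1 : t - a = ρ * (b - a) := by rw [ht]; ring
  have e2 : b - t = (1 - ρ) * (b - a) := by rw [ht]; ring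
  have h5 : (1 - ρ) * cc u F f a + ρ * cc u F f b ≤ cc u F f t +
      ρ * (1-ρ) * (b-a) * (gg u F f a - gg u F f b) := by
    have a1 := mul_le_mul_of_nonneg_left h2 (show 0 ≤ 1 - ρ by linarith)
    have a2 := mul_le_mul_of_nonneg_left h3 h0
    have e3 : a - t = - (ρ * (b - a)) := by rw [ht]; ring
    rw [e3] at a1
    rw [e2] at a2
    nlinarith
  have h6 : ρ * (1-ρ) * (b-a) * (gg u F f a - gg u F f b) ≤ ρ * (1-ρ) * (b-a) * ((b - a) * f) :=
    mul_le_mul_of_nonneg_left h4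
      (mul_nonneg (mul_nonneg h0 (by linarith)) (by linarith))
  have h7 : ρ * (1-ρ) ≤ 1/4 := by nlinarith [sq_nonneg (ρ - 1/2)]
  have h8 : 0 ≤ (b-a)^2 * f := mul_nonneg (sq_nonneg _) hf
  have h9 : ρ * (1-ρ) * (b-a) * ((b - a) * f) ≤ (b-a)^2/4 * f := by
    have := mul_le_mul_of_nonneg_right h7 h8
    linarith
  linarith

section

variable {J : ℕ} {E : ℕ → ℝ} {η : ℝ} {ι : Type*}

lemma VT_ge (hJ : 0 < J) (hE : ∀ s ≤ J, |E s - Real.exp (-((s:ℝ)/J))| ≤ η)
    (Js : Finset ι) (w u f : ι → ℝ) (F p : ℝ) (hF : 0 ≤ F) (hw : ∀ j ∈ Js, 0 ≤ w j)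
    (hf : ∀ j ∈ Js, 0 ≤ f j) (hu : ∀ j ∈ Js, u j ≤ F) :
    VV Js w u f F p - η * ∑ j ∈ Js, w j * f j ≤ VT J E Js w u f F p := by
  have hJ' : (0:ℝ) < J := by exact_mod_cast hJ
  have key : ∀ l ≤ J, VV Js w u f F p - η * ∑ j ∈ Js, w j * f j ≤ nodeT J E Js w u f F p l := by
    intro l hl
    have h1 := VV_le Js w u f F p (t := (l:ℝ)/J) (by positivity)
      (by rw [div_le_one hJ']; exact_mod_cast hl)
    have h2 : ∑ j ∈ Js, w j * cc (u j) F (f j) ((l:ℝ)/J) ≤
        ∑ j ∈ Js, (w j * hullc J E (u j) F (f j) l + η * (w j * f j)) := by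
      apply Finset.sum_le_sum
      intro j hj
      have := mul_le_mul_of_nonneg_left (hullc_ge hJ hE (hf j hj) hF (hu j hj) hl) (hw j hj)
      linarith
    rw [Finset.sum_add_distrib, ← Finset.mul_sum] at h2
    unfold Vf at h1
    unfold nodeT
    linarith
  unfold VT
  apply le_minL (key 0 (Nat.zero_le _))
  intro a ha
  obtain ⟨l, hl, rfl⟩ := List.mem_map.mp ha
  exact key l (by have := List.mem_range.mp hl; omega)

lemma VT_le (hJ : 0 < J) (hE : ∀ s ≤ J, |E s - Real.exp (-((s:ℝ)/J))| ≤ η)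
    (Js : Finset ι) (w u f : ι → ℝ) (F p : ℝ) (hF : 0 ≤ F) (hw : ∀ j ∈ Js, 0 ≤ w j)
    (hf : ∀ j ∈ Js, 0 ≤ f j) (hu : ∀ j ∈ Js, u j ≤ F) :
    VT J E Js w u f F p ≤ VV Js w u f F p +
      (η + 1/(2*(J:ℝ)^2) + 1/(4*(J:ℝ)^2)) * ∑ j ∈ Js, w j * f j := by
  have hJ' : (0:ℝ) < J := by exact_mod_cast hJ
  obtain ⟨t, ht0, ht1, hmin⟩ := VV_exists Js w u f F p
  rw [hmin]
  -- nodes around t
  obtain ⟨l, hlJ, hl1, hl2⟩ : ∃ l : ℕ, l + 1 ≤ J ∧ (l:ℝ) ≤ t * J ∧ t * J ≤ l + 1 := by
    rcases eq_or_lt_of_le ht1 with h | h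
    · refine ⟨J - 1, by omega, ?_, ?_⟩
      · rw [h, one_mul]; exact_mod_cast Nat.sub_le _ _
      · rw [h, one_mul]
        have : J ≤ (J - 1) + 1 := by omega
        exact_mod_cast this
    · have h1 : 0 ≤ t * J := by positivity
      refine ⟨⌊t * J⌋₊, ?_, Nat.floor_le h1, (Nat.lt_floor_add_one _).le⟩
      have : ⌊t * J⌋₊ < J := by
        rw [Nat.floor_lt h1]
        nlinarith
      omega
  set ρ := t * J - l with hρ
  have hρ0 : 0 ≤ ρ := by linarith
  have hρ1 : ρ ≤ 1 := by linarith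
  have hteq : t = (1 - ρ) * ((l:ℝ)/J) + ρ * (((l+1:ℕ):ℝ)/J) := by
    rw [hρ]; push_cast; field_simp; ring
  have hn : ∀ l' ≤ J, VT J E Js w u f F p ≤ nodeT J E Js w u f F p l' := by
    intro l' hl'
    apply minL_le
    exact List.mem_map.mpr ⟨l', List.mem_range.mpr (by omega), rfl⟩
  have h1 := mul_le_mul_of_nonneg_left (hn l (by omega)) (show 0 ≤ 1 - ρ by linarith)
  have h2 := mul_le_mul_of_nonneg_left (hn (l+1) hlJ) hρ0
  have h3 : VT J E Js w u f F p ≤ (1-ρ) * nodeT J E Js w u f F p l +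
      ρ * nodeT J E Js w u f F p (l+1) := by linarith
  refine h3.trans ?_
  have h4 : ∑ j ∈ Js, ((1-ρ) * (w j * hullc J E (u j) F (f j) l) +
      ρ * (w j * hullc J E (u j) F (f j) (l+1))) ≤
      ∑ j ∈ Js, (w j * cc (u j) F (f j) t +
        (η + 1/(2*(J:ℝ)^2) + 1/(4*(J:ℝ)^2)) * (w j * f j)) := by
    apply Finset.sum_le_sum
    intro j hj
    have a1 := hullc_le hJ hE (hf j hj) hF (hu j hj) (show l ≤ J by omega)
    have a2 := hullc_le hJ hE (hf j hj) hF (hu j hj) hlJ
    have a3 := cc_interp (u := u j) (ρ := ρ) (a := (l:ℝ)/J) (b := ((l+1:ℕ):ℝ)/J)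
      (hf j hj) hF (hu j hj) (by positivity)
      (by push_cast; exact div_le_div_of_nonneg_right (by linarith) hJ'.le) hρ0 hρ1
    rw [← hteq] at a3
    have e : (((l+1:ℕ):ℝ)/J - (l:ℝ)/J)^2/4 = 1/(4*(J:ℝ)^2) := by
      push_cast; field_simp; ring
    rw [e] at a3
    have a4 := mul_le_mul_of_nonneg_left a1 (show 0 ≤ 1 - ρ by linarith)
    have a5 := mul_le_mul_of_nonneg_left a2 hρ0
    have a6 : (1-ρ) * hullc J E (u j) F (f j) l + ρ * hullc J E (u j) F (f j) (l+1) ≤
        cc (u j) F (f j) t + (η + 1/(2*(J:ℝ)^2) + 1/(4*(J:ℝ)^2)) * f j := by linarith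
    have := mul_le_mul_of_nonneg_left a6 (hw j hj)
    linarith
  rw [Finset.sum_add_distrib, Finset.sum_add_distrib, ← Finset.mul_sum, ← Finset.mul_sum,
    ← Finset.mul_sum] at h4
  have h5 : p * t = (1-ρ) * (p * ((l:ℝ)/J)) + ρ * (p * (((l+1:ℕ):ℝ)/J)) := by
    calc p * t = p * ((1 - ρ) * ((l:ℝ)/J) + ρ * (((l+1:ℕ):ℝ)/J)) := by rw [← hteq]
      _ = _ := by ring
  unfold nodeT Vf
  linarith

end

lemma expT_err {J : ℕ} (hJ : 0 < J) {s : ℕ} (hs : s ≤ J) :
    |expT J s - Real.exp (-((s:ℝ)/J))| ≤ (2/9) / (J:ℝ)^2 := by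
  have hJ' : (0:ℝ) < J := by exact_mod_cast hJ
  have hJ1 : (1:ℝ) ≤ J := by exact_mod_cast hJ
  set h : ℝ := 1/J with hh
  have h0 : 0 < h := by positivity
  have h1 : h ≤ 1 := by rw [hh, div_le_one hJ']; exact hJ1
  set r : ℝ := 1 - h + h^2/2 with hr
  have hb := Real.exp_bound (x := -h) (n := 3) (by rw [abs_neg, abs_of_pos h0]; exact h1)
    (by norm_num)
  have hsum : ∑ m ∈ Finset.range 3, (-h)^m / (m.factorial : ℝ) = r := by
    rw [hr]; simp [Finset.sum_range_succ, Nat.factorial]; ring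
  rw [hsum, abs_neg, abs_of_pos h0] at hb
  have hb2 : |Real.exp (-h) - r| ≤ (2/9) * h^3 := by
    refine hb.trans (le_of_eq ?_)
    norm_num [Nat.factorial]; ring
  have hr1 : r ≤ 1 := by rw [hr]; nlinarith
  have hr0 : 0 ≤ r := by rw [hr]; nlinarith [sq_nonneg (h-1)]
  have he0 : 0 < Real.exp (-h) := Real.exp_pos _
  have he1 : Real.exp (-h) ≤ 1 := exp_neg_le_one h0.le
  have key : ∀ n : ℕ, |r^n - (Real.exp (-h))^n| ≤ n * ((2/9) * h^3) := by
    intro n
    induction n with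
    | zero => simp
    | succ n ih =>
      have e : r^(n+1) - (Real.exp (-h))^(n+1) =
          (r^n - (Real.exp (-h))^n) * r + (Real.exp (-h))^n * (r - Real.exp (-h)) := by ring
      rw [e]
      refine (abs_add_le _ _).trans ?_
      rw [abs_mul, abs_mul, abs_of_nonneg hr0, abs_of_nonneg (pow_nonneg he0.le n)]
      have a1 : |r^n - (Real.exp (-h))^n| * r ≤ n * ((2/9) * h^3) * 1 :=
        mul_le_mul ih hr1 hr0 (by positivity)
      have a2 : (Real.exp (-h))^n * |r - Real.exp (-h)| ≤ 1 * ((2/9) * h^3) := by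
        apply mul_le_mul (pow_le_one₀ he0.le he1) _ (abs_nonneg _) zero_le_one
        rw [abs_sub_comm]; exact hb2
      push_cast
      linarith
  have e1 : (expT J s : ℝ) = r^s := by
    unfold expT
    rw [hr, hh]; congr 1; field_simp
  have e2 : Real.exp (-((s:ℝ)/J)) = (Real.exp (-h))^s := by
    rw [← Real.exp_nat_mul]; congr 1; rw [hh]; ring
  rw [e1, e2]
  refine (key s).trans ?_
  have hsJ : (s:ℝ) ≤ J := by exact_mod_cast hs
  calc (s:ℝ) * ((2/9) * h^3) ≤ J * ((2/9) * h^3) :=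
        mul_le_mul_of_nonneg_right hsJ (by positivity)
    _ = (2/9) / (J:ℝ)^2 := by rw [hh]; field_simp

/-- approximate star value with the concrete exponential table -/
lemma VT_err {J : ℕ} (hJ : 0 < J) {ι : Type*} (Js : Finset ι) (w u f : ι → ℝ) (F p : ℝ)
    (hF : 0 ≤ F) (hw : ∀ j ∈ Js, 0 ≤ w j)
    (hf : ∀ j ∈ Js, 0 ≤ f j) (hu : ∀ j ∈ Js, u j ≤ F) :
    |VT J (expT J) Js w u f F p - VV Js w u f F p| ≤ (1/(J:ℝ)^2) * ∑ j ∈ Js, w j * f j := by
  have hE : ∀ s ≤ J, |expT J s - Real.exp (-((s:ℝ)/J))| ≤ (2/9) / (J:ℝ)^2 :=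
    fun s hs => expT_err hJ hs
  have hJ' : (0:ℝ) < J := by exact_mod_cast hJ
  have h1 := VT_ge hJ hE Js w u f F p hF hw hf hu
  have h2 := VT_le hJ hE Js w u f F p hF hw hf hu
  have hs : 0 ≤ ∑ j ∈ Js, w j * f j :=
    Finset.sum_nonneg fun j hj => mul_nonneg (hw j hj) (hf j hj)
  have h3 : (2/9) / (J:ℝ)^2 ≤ 1/(J:ℝ)^2 := by
    apply div_le_div_of_nonneg_right (by norm_num) (by positivity)
  have h4 : (2/9) / (J:ℝ)^2 + 1/(2*(J:ℝ)^2) + 1/(4*(J:ℝ)^2) ≤ 1/(J:ℝ)^2 := by
    have : (2/9) / (J:ℝ)^2 + 1/(2*(J:ℝ)^2) + 1/(4*(J:ℝ)^2) = (35/36) / (J:ℝ)^2 := by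
      field_simp; norm_num
    rw [this]
    apply div_le_div_of_nonneg_right (by norm_num) (by positivity)
  have h5 := mul_le_mul_of_nonneg_right h3 hs
  have h6 := mul_le_mul_of_nonneg_right h4 hs
  rw [abs_le]
  constructor <;> linarith

namespace FracInst

variable {ι σ : Type} [Fintype ι] [Fintype σ] [DecidableEq σ] {I : FracInst ι σ}

/-- the computed potential -/
noncomputable def State.RT (S : I.State) (J : ℕ) (p : ℝ) : ℝ :=
  (1 / (I.M:ℝ)) * ∑ i, ((∑ j ∈ I.J i, I.w j * min (I.d i j) (S.K j)) +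
    VT J (expT J) (I.J i) I.w (S.u i) (I.key i) (S.F i) p)

/-- **error of the computed potential** -/
theorem State.RT_err (S : I.State) {J : ℕ} (hJ : 0 < J) (p : ℝ) :
    |S.RT J p - S.R p| ≤ (2/(J:ℝ)^2) * ∑ j, I.w j * I.C j := by
  have hM := I.M_pos'
  have e : S.RT J p - S.R p = (1 / (I.M:ℝ)) * ∑ i,
      (VT J (expT J) (I.J i) I.w (S.u i) (I.key i) (S.F i) p - S.V p i) := by
    unfold State.RT State.R
    rw [← mul_sub, ← Finset.sum_sub_distrib]
    congr 1
    apply Finset.sum_congr rfl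
    intro i _; ring
  rw [e, abs_mul, abs_of_nonneg (show 0 ≤ 1 / (I.M:ℝ) by positivity)]
  have h1 : |∑ i, (VT J (expT J) (I.J i) I.w (S.u i) (I.key i) (S.F i) p - S.V p i)| ≤
      ∑ i, (1/(J:ℝ)^2) * ∑ j ∈ I.J i, I.w j * I.key i j := by
    refine (Finset.abs_sum_le_sum_abs _ _).trans (Finset.sum_le_sum fun i _ => ?_)
    exact VT_err hJ _ _ _ _ _ _ (S.F_nonneg i) (fun j _ => I.w_nonneg j)
      (fun j _ => I.key_nonneg i j) (fun j _ => S.u_le i j)
  rw [← Finset.mul_sum, sum_star_comm (fun i j => I.w j * I.key i j)] at h1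
  have h2 : ∑ j, ∑ i ∈ I.N j, I.w j * I.key i j = ∑ j, 2 * I.M * (I.w j * I.C j) := by
    apply Finset.sum_congr rfl
    intro j _
    rw [← Finset.mul_sum]
    have hk : ∑ i ∈ I.N j, I.key i j = 2 * (I.M * I.C j) := by
      unfold key
      rw [← Finset.sum_div, Finset.sum_add_distrib, ← Finset.mul_sum, I.sum_d j,
        Finset.sum_const, nsmul_eq_mul, I.card_N j]
      ring
    rw [hk]; ring
  rw [h2, ← Finset.mul_sum] at h1
  refine (mul_le_mul_of_nonneg_left h1 (show 0 ≤ 1 / (I.M:ℝ) by positivity)).trans (le_of_eq ?_)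
  field_simp

end FracInst

/-! ## Rational versions -/

section Cast

lemma minL_cast (x0 : ℚ) (L : List ℚ) :
    ((minL x0 L : ℚ) : ℝ) = minL (x0:ℝ) (L.map (Rat.cast : ℚ → ℝ)) := by
  induction L with
  | nil => rfl
  | cons a L ih =>
    show ((min a (minL x0 L) : ℚ) : ℝ) = min (a:ℝ) (minL (x0:ℝ) (L.map (Rat.cast : ℚ → ℝ)))
    rw [Rat.cast_min, ih]

lemma seg_cast (J : ℕ) (E : ℕ → ℚ) (u F f : ℚ) (l s : ℕ) :
    ((seg J E u F f l s : ℚ) : ℝ) = seg J (fun s => (E s : ℝ)) (u:ℝ) F f l s := by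
  unfold seg
  push_cast
  ring

lemma expT_cast (J s : ℕ) : ((expT J s : ℚ) : ℝ) = expT J s := by
  unfold expT
  push_cast
  ring

lemma hullc_cast (J : ℕ) (E : ℕ → ℚ) (u F f : ℚ) (l : ℕ) :
    ((hullc J E u F f l : ℚ) : ℝ) = hullc J (fun s => (E s : ℝ)) (u:ℝ) F f l := by
  unfold hullc
  split_ifs with h
  · rfl
  · rw [minL_cast, List.map_map]
    congr 1
    · push_cast; ring
    · apply List.map_congr_left
      intro s _
      exact seg_cast J E u F f l s

lemma nodeT_cast {ι : Type*} (J : ℕ) (E : ℕ → ℚ) (Js : Finset ι) (w u f : ι → ℚ) (F p : ℚ)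
    (l : ℕ) : ((nodeT J E Js w u f F p l : ℚ) : ℝ) =
      nodeT J (fun s => (E s : ℝ)) Js (fun j => (w j : ℝ)) (fun j => (u j:ℝ))
        (fun j => (f j : ℝ)) F p l := by
  unfold nodeT
  push_cast
  congr 1
  apply Finset.sum_congr rfl
  intro j _
  rw [hullc_cast]

lemma VT_cast {ι : Type*} (J : ℕ) (E : ℕ → ℚ) (Js : Finset ι) (w u f : ι → ℚ) (F p : ℚ) :
    ((VT J E Js w u f F p : ℚ) : ℝ) =
      VT J (fun s => (E s : ℝ)) Js (fun j => (w j : ℝ)) (fun j => (u j:ℝ))
        (fun j => (f j : ℝ)) F p := by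
  unfold VT
  rw [minL_cast, List.map_map, nodeT_cast]
  congr 1
  apply List.map_congr_left
  intro l _
  exact nodeT_cast J E Js w u f F p l

end Cast

end Crest.Agent.KM
end

-- ▼ part R310/Greedy
section

/-!
# R310, block GREEDY

The greedy of Theorem E' (`SlackK`) as a computable function on lists, its `PTF` proof and the
bridge to `SlackK.Params.slack_main`.  Everything is generic in an evaluation function
`V : ℚ → List ℕ → ℚ` (price, opened copies) of the potential minus the opening cost.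
-/

set_option linter.dupNamespace false
set_option autoImplicit false

namespace Crest.Agent.R310.Greedy

open Crest.Agent.Lib.PT Crest.Agent.Lib.PT.Arith Crest.Agent.R310.SlackK

variable (P : Params)

/-! ### the code -/

/-- canonical form of a set of copies -/
def canon (L : ℕ) (T : List ℕ) : List ℕ := (List.range L).filter (fun i => decide (i ∈ T))

/-- top price -/
def topQ (G : ℚ) (k : ℕ) : ℚ := 3 * G / (P.δ * k)
/-- grid prices (`m` is cut off at `M` so that this is poly-time) -/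
def priceQ (G : ℚ) (k m : ℕ) : ℚ := topQ P G k / P.q ^ (P.M - 1) * P.q ^ (min m P.M)
/-- penalty -/
def penQ (G : ℚ) (m : ℕ) : ℚ :=
  P.ζ * G / ((P.q ^ 2 - 1) * (P.q - 1)) * (P.q ^ 2) ^ (min m P.M)
/-- tolerance -/
def tolQ (G : ℚ) (k : ℕ) : ℚ := P.η * G / k
/-- error allowance -/
def errQ (G : ℚ) (k : ℕ) : ℚ := 2 * (P.q - 1) * topQ P G k + tolQ P G k

section code

variable (L : ℕ) (V : ℚ → List ℕ → ℚ) (k : ℕ) (G n0 : ℚ)

/-- evaluated table -/
def tab (m : ℕ) (T : List ℕ) : ℚ := V (priceQ P G k m) (canon L T)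
/-- increment -/
def dq (m : ℕ) (T : List ℕ) (i : ℕ) : ℚ :=
  priceQ P G k m + tab P L V k G m (i :: T) - tab P L V k G m T
/-- normalised penalised potential -/
def gq (m : ℕ) (T : List ℕ) : ℚ :=
  tab P L V k G m T + priceQ P G k m * ((T.length : ℚ) - n0) - penQ P G m
/-- weight -/
def pq (m : ℕ) (T : List ℕ) (θ : ℚ) : ℚ := max (gq P L V k G n0 m T - θ) 0
/-- test of the forced rule -/
def forcedB (T : List ℕ) (i : ℕ) : Bool :=
  (List.range P.M).any (fun m => decide (dq P L V k G m T i ≤ -(P.B * topQ P G k)))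
/-- score of the free rule -/
def scoreQ (T : List ℕ) (θ : ℚ) (i : ℕ) : ℚ :=
  ∑ m ∈ Finset.range P.M, pq P L V k G n0 m T θ * dq P L V k G m T i
/-- running threshold of a state -/
def thetaQ (st : List ℕ × ℕ) : ℚ :=
  G + (st.2 : ℚ) * (topQ P G k + tolQ P G k) + ((st.1.length : ℚ) - (st.2 : ℚ)) * errQ P G k
/-- unopened copies -/
def cands (T : List ℕ) : List ℕ := (List.range L).filter (fun i => decide (i ∉ T))
/-- forced choice -/
def pickForced (T : List ℕ) : Option ℕ := (cands L T).find? (forcedB P L V k G T)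
/-- free choice -/
def pickFree (T : List ℕ) (θ : ℚ) : Option ℕ :=
  (cands L T).find? (fun i => (cands L T).all
    (fun j => decide (scoreQ P L V k G n0 T θ i ≤ scoreQ P L V k G n0 T θ j)))
/-- one step -/
def step (st : List ℕ × ℕ) : List ℕ × ℕ :=
  ((pickForced P L V k G st.1).map (fun i => (i :: st.1, st.2 + 1))).getD
    (((pickFree P L V k G n0 st.1 (thetaQ P k G st)).map (fun i => (i :: st.1, st.2))).getD st)
/-- state at time `t` -/
def stateAt (t : ℕ) : List ℕ × ℕ := (step P L V k G n0)^[t] ([], 0)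
/-- all prefixes of the run -/
def prefixes : List (List ℕ) := (List.range (L + 1)).map (fun t => (stateAt P L V k G n0 (min t L)).1)

end code

/-! ### poly-time -/

section ptf

variable {γ α : Type} [PTCode γ] [PTCode α]
variable {L : γ → ℕ} {V : γ → ℚ → List ℕ → ℚ} {k : γ → ℕ} {G n0 : γ → ℚ}

theorem ptf_topQ {G : α → ℚ} {k : α → ℕ} (hG : PTF G) (hk : PTF k) :
    PTF (fun a => topQ P (G a) (k a)) := by
  unfold topQ; fun_prop

theorem ptf_priceQ {G : α → ℚ} {k m : α → ℕ} (hG : PTF G) (hk : PTF k) (hm : PTF m) :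
    PTF (fun a => priceQ P (G a) (k a) (m a)) := by
  unfold priceQ
  have h1 := ptf_topQ P hG hk
  have h2 : PTF (fun a => P.q ^ (min (m a) P.M)) :=
    PTF.ratPow (PTF.const _) (PTF.natMinUn hm (PTU.const _))
  fun_prop

theorem ptf_penQ {G : α → ℚ} {m : α → ℕ} (hG : PTF G) (hm : PTF m) :
    PTF (fun a => penQ P (G a) (m a)) := by
  unfold penQ
  have h2 : PTF (fun a => (P.q ^ 2) ^ (min (m a) P.M)) :=
    PTF.ratPow (PTF.const _) (PTF.natMinUn hm (PTU.const _))
  fun_prop

theorem ptf_tolQ {G : α → ℚ} {k : α → ℕ} (hG : PTF G) (hk : PTF k) :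
    PTF (fun a => tolQ P (G a) (k a)) := by
  unfold tolQ; fun_prop

theorem ptf_errQ {G : α → ℚ} {k : α → ℕ} (hG : PTF G) (hk : PTF k) :
    PTF (fun a => errQ P (G a) (k a)) := by
  unfold errQ
  have h1 := ptf_topQ P hG hk
  have h2 := ptf_tolQ P hG hk
  fun_prop

theorem ptf_canon {L : α → ℕ} {T : α → List ℕ} (hL : PTU L) (hT : PTF T) :
    PTF (fun a => canon (L a) (T a)) :=
  PTF.filter (PTF.range hL) (PTPred.toPTF (PTPred.mem PTF.snd (PTF.comp hT PTF.fst)))

theorem ptf_cands {L : α → ℕ} {T : α → List ℕ} (hL : PTU L) (hT : PTF T) :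
    PTF (fun a => cands (L a) (T a)) :=
  PTF.filter (PTF.range hL) (PTPred.toPTF (PTPred.not (PTPred.mem PTF.snd (PTF.comp hT PTF.fst))))

theorem ptf_tab (hL : PTU L) (hV : PTF (fun x : γ × ℚ × List ℕ => V x.1 x.2.1 x.2.2))
    (hk : PTF k) (hG : PTF G) {c : α → γ} (hc : PTF c) {m : α → ℕ} (hm : PTF m)
    {T : α → List ℕ} (hT : PTF T) :
    PTF (fun a => tab P (L (c a)) (V (c a)) (k (c a)) (G (c a)) (m a) (T a)) := by
  unfold tab
  have h1 := ptf_priceQ P (PTF.comp hG hc) (PTF.comp hk hc) hm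
  have h2 := ptf_canon (PTU.comp hL hc) hT
  exact PTF.comp (g := fun x : γ × ℚ × List ℕ => V x.1 x.2.1 x.2.2)
    (f := fun a => (c a, priceQ P (G (c a)) (k (c a)) (m a), canon (L (c a)) (T a)))
    hV (PTF.prodMk hc (PTF.prodMk h1 h2))

theorem ptf_dq (hL : PTU L) (hV : PTF (fun x : γ × ℚ × List ℕ => V x.1 x.2.1 x.2.2))
    (hk : PTF k) (hG : PTF G) {c : α → γ} (hc : PTF c) {m : α → ℕ} (hm : PTF m)
    {T : α → List ℕ} (hT : PTF T) {i : α → ℕ} (hi : PTF i) :
    PTF (fun a => dq P (L (c a)) (V (c a)) (k (c a)) (G (c a)) (m a) (T a) (i a)) := by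
  unfold dq
  have h1 := ptf_priceQ P (PTF.comp hG hc) (PTF.comp hk hc) hm
  have h2 := ptf_tab P hL hV hk hG hc hm hT
  have h3 := ptf_tab P hL hV hk hG hc hm (PTF.listCons hi hT)
  fun_prop

theorem ptf_gq (hL : PTU L) (hV : PTF (fun x : γ × ℚ × List ℕ => V x.1 x.2.1 x.2.2))
    (hk : PTF k) (hG : PTF G) (hn : PTF n0) {c : α → γ} (hc : PTF c) {m : α → ℕ} (hm : PTF m)
    {T : α → List ℕ} (hT : PTF T) :
    PTF (fun a => gq P (L (c a)) (V (c a)) (k (c a)) (G (c a)) (n0 (c a)) (m a) (T a)) := by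
  unfold gq
  have h1 := ptf_priceQ P (PTF.comp hG hc) (PTF.comp hk hc) hm
  have h2 := ptf_tab P hL hV hk hG hc hm hT
  have h3 := ptf_penQ P (PTF.comp hG hc) hm
  have h4 : PTF (fun a => ((T a).length : ℚ)) := PTF.ratNatCast (PTU.toPTF (PTU.length hT))
  have h5 : PTF (fun a => n0 (c a)) := PTF.comp hn hc
  fun_prop

theorem ptf_pq (hL : PTU L) (hV : PTF (fun x : γ × ℚ × List ℕ => V x.1 x.2.1 x.2.2))
    (hk : PTF k) (hG : PTF G) (hn : PTF n0) {c : α → γ} (hc : PTF c) {m : α → ℕ} (hm : PTF m)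
    {T : α → List ℕ} (hT : PTF T) {θ : α → ℚ} (hθ : PTF θ) :
    PTF (fun a => pq P (L (c a)) (V (c a)) (k (c a)) (G (c a)) (n0 (c a)) (m a) (T a) (θ a)) := by
  unfold pq
  have h1 := ptf_gq P hL hV hk hG hn hc hm hT
  exact PTF.ratMax (PTF.ratSub h1 hθ) (PTF.const _)

theorem ptf_forcedB (hL : PTU L) (hV : PTF (fun x : γ × ℚ × List ℕ => V x.1 x.2.1 x.2.2))
    (hk : PTF k) (hG : PTF G) {c : α → γ} (hc : PTF c)
    {T : α → List ℕ} (hT : PTF T) {i : α → ℕ} (hi : PTF i) :
    PTF (fun a => forcedB P (L (c a)) (V (c a)) (k (c a)) (G (c a)) (T a) (i a)) := by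
  unfold forcedB
  refine PTF.any (PTF.range (PTU.const _)) ?_
  have h1 := ptf_dq (α := α × ℕ) P hL hV hk hG (PTF.comp hc PTF.fst) (m := fun x => x.2) PTF.snd
    (PTF.comp hT PTF.fst) (PTF.comp hi PTF.fst)
  have h2 : PTF (fun x : α × ℕ => topQ P (G (c x.1)) (k (c x.1))) :=
    ptf_topQ P (PTF.comp hG (PTF.comp hc PTF.fst)) (PTF.comp hk (PTF.comp hc PTF.fst))
  exact PTPred.toPTF (PTPred.ratLe h1 (by fun_prop))

theorem ptf_scoreQ (hL : PTU L) (hV : PTF (fun x : γ × ℚ × List ℕ => V x.1 x.2.1 x.2.2))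
    (hk : PTF k) (hG : PTF G) (hn : PTF n0) {c : α → γ} (hc : PTF c)
    {T : α → List ℕ} (hT : PTF T) {θ : α → ℚ} (hθ : PTF θ) {i : α → ℕ} (hi : PTF i) :
    PTF (fun a => scoreQ P (L (c a)) (V (c a)) (k (c a)) (G (c a)) (n0 (c a)) (T a) (θ a)
      (i a)) := by
  unfold scoreQ
  refine PTF.ratSumRange (PTU.const _) ?_
  have h1 := ptf_dq (α := α × ℕ) P hL hV hk hG (PTF.comp hc PTF.fst) (m := fun x => x.2) PTF.snd
    (PTF.comp hT PTF.fst) (PTF.comp hi PTF.fst)
  have h2 := ptf_pq (α := α × ℕ) P hL hV hk hG hn (PTF.comp hc PTF.fst) (m := fun x => x.2)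
    PTF.snd (PTF.comp hT PTF.fst) (PTF.comp hθ PTF.fst)
  exact PTF.ratMul h2 h1

theorem ptf_thetaQ (hk : PTF k) (hG : PTF G) {c : α → γ} (hc : PTF c)
    {st : α → List ℕ × ℕ} (hst : PTF st) :
    PTF (fun a => thetaQ P (k (c a)) (G (c a)) (st a)) := by
  unfold thetaQ
  have h1 := ptf_topQ P (PTF.comp hG hc) (PTF.comp hk hc)
  have h2 := ptf_tolQ P (PTF.comp hG hc) (PTF.comp hk hc)
  have h3 := ptf_errQ P (PTF.comp hG hc) (PTF.comp hk hc)
  have h4 : PTF (fun a => ((st a).1.length : ℚ)) :=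
    PTF.ratNatCast (PTU.toPTF (PTU.length (PTF.comp PTF.fst hst)))
  have h5 : PTF (fun a => ((st a).2 : ℚ)) := PTF.ratNatCast (PTF.comp PTF.snd hst)
  have h6 : PTF (fun a => G (c a)) := PTF.comp hG hc
  exact PTF.ratAdd (PTF.ratAdd h6 (PTF.ratMul h5 (PTF.ratAdd h1 h2)))
    (PTF.ratMul (PTF.ratSub h4 h5) h3)

theorem ptf_pickForced (hL : PTU L) (hV : PTF (fun x : γ × ℚ × List ℕ => V x.1 x.2.1 x.2.2))
    (hk : PTF k) (hG : PTF G) {c : α → γ} (hc : PTF c)
    {T : α → List ℕ} (hT : PTF T) :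
    PTF (fun a => pickForced P (L (c a)) (V (c a)) (k (c a)) (G (c a)) (T a)) :=
  PTF.find? (ptf_cands (PTU.comp hL hc) hT)
    (ptf_forcedB (α := α × ℕ) P hL hV hk hG (PTF.comp hc PTF.fst) (PTF.comp hT PTF.fst) PTF.snd)

theorem ptf_pickFree (hL : PTU L) (hV : PTF (fun x : γ × ℚ × List ℕ => V x.1 x.2.1 x.2.2))
    (hk : PTF k) (hG : PTF G) (hn : PTF n0) {c : α → γ} (hc : PTF c)
    {T : α → List ℕ} (hT : PTF T) {θ : α → ℚ} (hθ : PTF θ) :
    PTF (fun a => pickFree P (L (c a)) (V (c a)) (k (c a)) (G (c a)) (n0 (c a)) (T a) (θ a)) := by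
  unfold pickFree
  have hC := ptf_cands (PTU.comp hL hc) hT
  refine PTF.find? hC ?_
  refine PTF.all (l := fun x : α × ℕ => cands (L (c x.1)) (T x.1)) (PTF.comp hC PTF.fst) ?_
  have e1 : PTF (fun x : (α × ℕ) × ℕ => c x.1.1) := PTF.comp hc (PTF.comp PTF.fst PTF.fst)
  have e2 : PTF (fun x : (α × ℕ) × ℕ => T x.1.1) := PTF.comp hT (PTF.comp PTF.fst PTF.fst)
  have e3 : PTF (fun x : (α × ℕ) × ℕ => θ x.1.1) := PTF.comp hθ (PTF.comp PTF.fst PTF.fst)
  exact PTPred.toPTF (PTPred.ratLe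
    (ptf_scoreQ (α := (α × ℕ) × ℕ) P hL hV hk hG hn e1 e2 e3 (i := fun x => x.1.2) (by fun_prop))
    (ptf_scoreQ (α := (α × ℕ) × ℕ) P hL hV hk hG hn e1 e2 e3 (i := fun x => x.2) (by fun_prop)))

theorem ptf_step (hL : PTU L) (hV : PTF (fun x : γ × ℚ × List ℕ => V x.1 x.2.1 x.2.2))
    (hk : PTF k) (hG : PTF G) (hn : PTF n0) {c : α → γ} (hc : PTF c)
    {st : α → List ℕ × ℕ} (hst : PTF st) :
    PTF (fun a => step P (L (c a)) (V (c a)) (k (c a)) (G (c a)) (n0 (c a)) (st a)) := by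
  unfold step
  have hT : PTF (fun a => (st a).1) := PTF.comp PTF.fst hst
  have h1 := ptf_pickForced P hL hV hk hG hc hT
  have h2 := ptf_pickFree P hL hV hk hG hn hc hT (ptf_thetaQ P hk hG hc hst)
  have hst' : PTF (fun x : α × ℕ => st x.1) := PTF.comp hst PTF.fst
  refine PTF.optionGetD (PTF.optionMap h1 ?_) (PTF.optionGetD (PTF.optionMap h2 ?_) hst)
  · have e1 : PTF (fun x : α × ℕ => (st x.1).1) := PTF.comp PTF.fst hst'
    have e2 : PTF (fun x : α × ℕ => (st x.1).2 + 1) :=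
      PTF.natAdd (PTF.comp PTF.snd hst') (PTF.const _)
    exact PTF.prodMk (PTF.listCons PTF.snd e1) e2
  · have e1 : PTF (fun x : α × ℕ => (st x.1).1) := PTF.comp PTF.fst hst'
    have e2 : PTF (fun x : α × ℕ => (st x.1).2) := PTF.comp PTF.snd hst'
    exact PTF.prodMk (PTF.listCons PTF.snd e1) e2

omit [PTCode α] in
theorem mem_cands {L : ℕ} {T : List ℕ} {i : ℕ} : i ∈ cands L T ↔ i < L ∧ i ∉ T := by
  simp [cands]

theorem sz_step (L : ℕ) (V : ℚ → List ℕ → ℚ) (k : ℕ) (G n0 : ℚ) (st : List ℕ × ℕ) :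
    sz (step P L V k G n0 st) ≤ sz st + (4 * L + 3) := by
  have hnat : sz (st.2 + 1) ≤ sz st.2 + 1 := by
    rw [sz_nat, sz_nat]
    refine Nat.size_le.2 ?_
    have := Nat.lt_size_self st.2
    rw [pow_succ]; omega
  unfold step
  cases h1 : pickForced P L V k G st.1 with
  | some i =>
    have h2 := (mem_cands.1 (List.mem_of_find?_eq_some h1)).1
    have h3 := sz_nat_le i
    simp only [Option.map_some, Option.getD_some, sz_prod, sz_cons]
    omega
  | none =>
    simp only [Option.map_none, Option.getD_none]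
    cases h4 : pickFree P L V k G n0 st.1 (thetaQ P k G st) with
    | some i =>
      have h2 := (mem_cands.1 (List.mem_of_find?_eq_some h4)).1
      have h3 := sz_nat_le i
      simp only [Option.map_some, Option.getD_some, sz_prod, sz_cons]
      omega
    | none =>
      simp only [Option.map_none, Option.getD_none]
      omega

theorem ptf_stateAt (hL : PTU L) (hV : PTF (fun x : γ × ℚ × List ℕ => V x.1 x.2.1 x.2.2))
    (hk : PTF k) (hG : PTF G) (hn : PTF n0) {c : α → γ} (hc : PTF c)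
    {t : α → ℕ} (ht : PTU t) :
    PTF (fun a => stateAt P (L (c a)) (V (c a)) (k (c a)) (G (c a)) (n0 (c a)) (t a)) := by
  unfold stateAt
  refine PTF.iterate_add (f := fun a st => step P (L (c a)) (V (c a)) (k (c a)) (G (c a))
    (n0 (c a)) st) ht ?_ (PTF.const _) (G := fun a => 4 * L (c a) + 3) ?_ ?_
  · exact ptf_step (α := α × (List ℕ × ℕ)) P hL hV hk hG hn (PTF.comp hc PTF.fst) PTF.snd
  · have : PB (fun a => L (c a)) := PTU.pb (PTU.comp hL hc)
    exact PB.add (PB.mul (PB.const 4) this) (PB.const 3)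
  · intro a x
    exact sz_step P _ _ _ _ _ _

/-- **The greedy is poly-time.** -/
theorem ptf_prefixes (hL : PTU L) (hV : PTF (fun x : γ × ℚ × List ℕ => V x.1 x.2.1 x.2.2))
    (hk : PTF k) (hG : PTF G) (hn : PTF n0) :
    PTF (fun c => prefixes P (L c) (V c) (k c) (G c) (n0 c)) := by
  unfold prefixes
  refine PTF.tabulate (PTU.succ hL) ?_
  refine PTF.comp PTF.fst ?_
  exact ptf_stateAt (α := γ × ℕ) P hL hV hk hG hn PTF.fst
    (t := fun x => min x.2 (L x.1)) (PTF.natMinUn PTF.snd (PTU.comp hL PTF.fst))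

end ptf

/-! ### the bridge -/

section bridge

/-- the set of copies in a list -/
def toSet (L : ℕ) (T : List ℕ) : Finset (Fin L) := Finset.univ.filter (fun i => (i : ℕ) ∈ T)

/-- the canonical list of a set of copies -/
def listOf {L : ℕ} (S : Finset (Fin L)) : List ℕ :=
  (List.range L).filter (fun i => decide (∃ h : i < L, (⟨i, h⟩ : Fin L) ∈ S))

theorem mem_toSet {L : ℕ} {T : List ℕ} {i : Fin L} : i ∈ toSet L T ↔ (i : ℕ) ∈ T := by
  simp [toSet]

theorem mem_listOf {L : ℕ} {S : Finset (Fin L)} {i : ℕ} :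
    i ∈ listOf S ↔ ∃ h : i < L, (⟨i, h⟩ : Fin L) ∈ S := by
  unfold listOf
  rw [List.mem_filter, List.mem_range, decide_eq_true_iff]
  constructor
  · exact fun h => h.2
  · rintro ⟨h, h'⟩; exact ⟨h, h, h'⟩

theorem toSet_listOf {L : ℕ} (S : Finset (Fin L)) : toSet L (listOf S) = S := by
  ext i
  rw [mem_toSet, mem_listOf]
  constructor
  · rintro ⟨_, h⟩; exact h
  · intro h; exact ⟨i.2, h⟩

theorem canon_eq_listOf (L : ℕ) (T : List ℕ) : canon L T = listOf (toSet L T) := by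
  unfold canon listOf
  refine List.filter_congr fun i hi => ?_
  have hi' := List.mem_range.1 hi
  rw [decide_eq_decide]
  constructor
  · intro h; exact ⟨hi', mem_toSet.2 h⟩
  · rintro ⟨_, h⟩; exact mem_toSet.1 h

theorem toSet_cons {L : ℕ} (T : List ℕ) (i : ℕ) (hi : i < L) :
    toSet L (i :: T) = insert (⟨i, hi⟩ : Fin L) (toSet L T) := by
  ext j
  rw [Finset.mem_insert, mem_toSet, mem_toSet, List.mem_cons]
  constructor
  · rintro (h | h)
    · exact Or.inl (Fin.ext h)
    · exact Or.inr h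
  · rintro (h | h)
    · exact Or.inl (by rw [h])
    · exact Or.inr h

/-- valid lists -/
def Ok (L : ℕ) (T : List ℕ) : Prop := T.Nodup ∧ ∀ i ∈ T, i < L

theorem card_toSet {L : ℕ} {T : List ℕ} (h : Ok L T) : (toSet L T).card = T.length := by
  obtain ⟨h1, h2⟩ := h
  induction T with
  | nil => simp [toSet]
  | cons i T ih =>
    have hi : i < L := h2 i (by simp)
    rw [toSet_cons T i hi, Finset.card_insert_of_notMem, ih (List.nodup_cons.1 h1).2
      (fun j hj => h2 j (by simp [hj]))]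
    · simp
    · rw [mem_toSet]; exact (List.nodup_cons.1 h1).1

variable {L : ℕ} (Φ : Pot (Fin L)) (k : ℕ) (V : ℚ → List ℕ → ℚ) (G n0 : ℚ)

/-- the real table used in `SlackK` -/
noncomputable def tabR (m : ℕ) (S : Finset (Fin L)) : ℝ := (V (priceQ P G k m) (listOf S) : ℝ)

/-- accuracy of the evaluation at the grid prices -/
def AccQ : Prop := ∀ m, m < P.M → ∀ S : Finset (Fin L),
  |(V (priceQ P G k m) (listOf S) : ℝ) - Φ.R (priceQ P G k m : ℚ) S| ≤ P.η * G / k / 6

theorem topQ_cast : ((topQ P G k : ℚ) : ℝ) = P.lamTop G k := by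
  unfold topQ Params.lamTop; push_cast; ring

theorem priceQ_cast {m : ℕ} (hm : m < P.M) :
    ((priceQ P G k m : ℚ) : ℝ) = P.lamBot G k * (P.q : ℝ) ^ m := by
  unfold priceQ Params.lamBot
  rw [min_eq_left hm.le]
  push_cast
  rw [topQ_cast]

theorem penQ_cast {m : ℕ} (hm : m < P.M) : ((penQ P G m : ℚ) : ℝ) = P.pen G m := by
  unfold penQ Params.pen
  rw [min_eq_left hm.le]
  push_cast
  rfl

theorem tolQ_cast : ((tolQ P G k : ℚ) : ℝ) = P.tol G k := by
  unfold tolQ Params.tol; push_cast; rfl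

theorem errQ_cast : ((errQ P G k : ℚ) : ℝ) = P.errv G k := by
  unfold errQ Params.errv; push_cast; rw [topQ_cast, tolQ_cast]

variable {Φ k V G n0}

theorem acc_of_accQ (hG : Φ.G = G) (h : AccQ P Φ k V G) : P.Acc Φ k (tabR P k V G) := by
  intro m T hm
  have h1 := h m hm T
  rw [priceQ_cast P k G hm] at h1
  unfold tabR Params.tol
  rw [hG]
  exact h1

variable (hk : 0 < k) (hG : Φ.G = G) (hn0 : Φ.n0 = n0) (hA : AccQ P Φ k V G)

/-- the data of `SlackK` attached to the evaluation function -/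
noncomputable def dat : Data (Fin L) := P.toData Φ k hk (tabR P k V G) (acc_of_accQ P hG hA)

theorem tab_cast (m : ℕ) (T : List ℕ) :
    ((tab P L V k G m T : ℚ) : ℝ) = tabR P k V G m (toSet L T) := by
  unfold tab tabR
  rw [canon_eq_listOf]

theorem dat_lam {m : ℕ} (hm : m < P.M) : (dat P hk hG hA).lam m = (priceQ P G k m : ℚ) := by
  rw [priceQ_cast P k G hm, ← hG]
  rfl

theorem dat_lamM : (dat P hk hG hA).lamM = (topQ P G k : ℚ) := by
  rw [topQ_cast, ← hG]
  exact P.lamBot_mul _ _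

theorem dat_D {m : ℕ} (hm : m < P.M) (T : List ℕ) (i : ℕ) (hi : i < L) :
    (dat P hk hG hA).D m (toSet L T) ⟨i, hi⟩ = (dq P L V k G m T i : ℚ) := by
  unfold Data.D dq
  rw [dat_lam P hk hG hA hm]
  push_cast
  rw [tab_cast, tab_cast, toSet_cons T i hi]
  rfl

include hn0 in
theorem dat_g {m : ℕ} (hm : m < P.M) {T : List ℕ} (hT : Ok L T) :
    (dat P hk hG hA).g m (toSet L T) = (gq P L V k G n0 m T : ℚ) := by
  unfold Data.g gq
  rw [dat_lam P hk hG hA hm, card_toSet hT]
  push_cast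
  rw [tab_cast, penQ_cast P G hm, ← hn0, ← hG]
  rfl

include hn0 in
theorem dat_p {m : ℕ} (hm : m < P.M) {T : List ℕ} (hT : Ok L T) (θ : ℚ) :
    (dat P hk hG hA).p m (toSet L T) θ = (pq P L V k G n0 m T θ : ℚ) := by
  unfold Data.p pq
  rw [dat_g P hk hG hn0 hA hm hT]
  push_cast
  rfl

include hn0 in
theorem dat_score {T : List ℕ} (hT : Ok L T) (θ : ℚ) (i : ℕ) (hi : i < L) :
    ∑ m ∈ Finset.range (dat P hk hG hA).M,
      (dat P hk hG hA).p m (toSet L T) θ * (dat P hk hG hA).D m (toSet L T) ⟨i, hi⟩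
    = (scoreQ P L V k G n0 T θ i : ℚ) := by
  unfold scoreQ
  push_cast
  refine Finset.sum_congr rfl fun m hm => ?_
  have hm' : m < P.M := Finset.mem_range.1 hm
  rw [dat_p P hk hG hn0 hA hm' hT, dat_D P hk hG hA hm']

theorem thetaQ_cast (st : List ℕ × ℕ) : ((thetaQ P k G st : ℚ) : ℝ)
    = G + (st.2 : ℝ) * (P.lamTop G k + P.tol G k)
      + ((st.1.length : ℝ) - (st.2 : ℝ)) * P.errv G k := by
  unfold thetaQ
  push_cast
  rw [topQ_cast, tolQ_cast, errQ_cast]

/-- existence of a minimiser in a nonempty list -/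
theorem exists_min_mem (l : List ℕ) (hl : l ≠ []) (f : ℕ → ℚ) :
    ∃ i ∈ l, ∀ j ∈ l, f i ≤ f j := by
  obtain ⟨i, hi, h⟩ := Finset.exists_min_image l.toFinset f
    (by obtain ⟨a, ha⟩ := List.exists_mem_of_ne_nil l hl; exact ⟨a, List.mem_toFinset.2 ha⟩)
  exact ⟨i, List.mem_toFinset.1 hi, fun j hj => h j (List.mem_toFinset.2 hj)⟩

include hn0 in
theorem step_spec (st : List ℕ × ℕ) (hT : Ok L st.1) :
    Ok L (step P L V k G n0 st).1 ∧
    (toSet L st.1 = Finset.univ ∨
      (dat P hk hG hA).Forced (toSet L st.1) (thetaQ P k G st)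
        (toSet L (step P L V k G n0 st).1) (thetaQ P k G (step P L V k G n0 st)) ∨
      (dat P hk hG hA).Free (toSet L st.1) (thetaQ P k G st)
        (toSet L (step P L V k G n0 st).1) (thetaQ P k G (step P L V k G n0 st))) := by
  have hB : (dat P hk hG hA).B = P.B := rfl
  have hM : (dat P hk hG hA).M = P.M := rfl
  have he1 : (dat P hk hG hA).e1 = P.tol G k := by rw [← hG]; rfl
  have herr : (dat P hk hG hA).err = P.errv G k := by rw [← hG]; rfl
  have hlamM := dat_lamM P hk hG hA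
  cases h1 : pickForced P L V k G st.1 with
  | some i =>
    have hstep : step P L V k G n0 st = (i :: st.1, st.2 + 1) := by
      unfold step; rw [h1]; rfl
    obtain ⟨hi, hiT⟩ := mem_cands.1 (List.mem_of_find?_eq_some h1)
    have hf : forcedB P L V k G st.1 i = true := List.find?_some h1
    unfold forcedB at hf
    rw [List.any_eq_true] at hf
    obtain ⟨m, hm, hd⟩ := hf
    have hm' := List.mem_range.1 hm
    have hd' := of_decide_eq_true hd
    rw [hstep]
    refine ⟨⟨List.nodup_cons.2 ⟨hiT, hT.1⟩, ?_⟩, Or.inr (Or.inl ?_)⟩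
    · intro j hj
      rcases List.mem_cons.1 hj with rfl | hj
      · exact hi
      · exact hT.2 j hj
    · refine ⟨⟨i, hi⟩, ?_, toSet_cons _ _ _, ?_, m, hm', ?_⟩
      · rw [mem_toSet]; exact hiT
      · rw [he1, hlamM, thetaQ_cast, thetaQ_cast, topQ_cast]
        simp only [List.length_cons]
        push_cast
        ring
      · rw [dat_D P hk hG hA hm', hB, hlamM]
        exact_mod_cast hd'
  | none =>
    have hnf : ∀ j, j < L → j ∉ st.1 → ∀ m, m < P.M →
        - (P.B * topQ P G k) < dq P L V k G m st.1 j := by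
      intro j hj hjT m hm
      have h2 := List.find?_eq_none.1 h1 j (mem_cands.2 ⟨hj, hjT⟩)
      unfold forcedB at h2
      rw [List.any_eq_true] at h2
      by_contra hcon
      exact h2 ⟨m, List.mem_range.2 hm, decide_eq_true (not_lt.1 hcon)⟩
    by_cases hc : cands L st.1 = []
    · have hpick : pickFree P L V k G n0 st.1 (thetaQ P k G st) = none := by
        unfold pickFree; rw [hc]; rfl
      have hstep : step P L V k G n0 st = st := by
        unfold step; rw [h1, hpick]; rfl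
      rw [hstep]
      refine ⟨hT, Or.inl ?_⟩
      ext i
      simp only [Finset.mem_univ, iff_true]
      rw [mem_toSet]
      by_contra hi
      have : (i : ℕ) ∈ cands L st.1 := mem_cands.2 ⟨i.2, hi⟩
      rw [hc] at this
      simp at this
    · cases h2 : pickFree P L V k G n0 st.1 (thetaQ P k G st) with
      | none =>
        exfalso
        obtain ⟨i, hi, hmin⟩ := exists_min_mem _ hc (scoreQ P L V k G n0 st.1 (thetaQ P k G st))
        have h3 := List.find?_eq_none.1 h2 i hi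
        apply h3
        rw [List.all_eq_true]
        intro j hj
        exact decide_eq_true (hmin j hj)
      | some i =>
        have hstep : step P L V k G n0 st = (i :: st.1, st.2) := by
          unfold step; rw [h1, h2]; rfl
        obtain ⟨hi, hiT⟩ := mem_cands.1 (List.mem_of_find?_eq_some h2)
        have hf := List.find?_some h2
        rw [List.all_eq_true] at hf
        rw [hstep]
        refine ⟨⟨List.nodup_cons.2 ⟨hiT, hT.1⟩, ?_⟩, Or.inr (Or.inr ?_)⟩
        · intro j hj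
          rcases List.mem_cons.1 hj with rfl | hj
          · exact hi
          · exact hT.2 j hj
        · refine ⟨⟨i, hi⟩, ?_, toSet_cons _ _ _, ?_, ?_, ?_⟩
          · rw [mem_toSet]; exact hiT
          · rw [herr, thetaQ_cast, thetaQ_cast]
            simp only [List.length_cons]
            push_cast
            ring
          · intro j hj m hm
            rw [mem_toSet] at hj
            have h3 := hnf j j.2 hj m hm
            have h4 := dat_D P hk hG hA (m := m) hm st.1 j j.2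
            rw [hB, hlamM]
            have h5 : (dat P hk hG hA).D m (toSet L st.1) j
                = (dat P hk hG hA).D m (toSet L st.1) ⟨(j : ℕ), j.2⟩ := rfl
            rw [h5, h4]
            exact_mod_cast h3
          · intro j hj
            rw [mem_toSet] at hj
            have h3 := of_decide_eq_true (hf j (mem_cands.2 ⟨j.2, hj⟩))
            have h4 := dat_score P hk hG hn0 hA hT (thetaQ P k G st) i hi
            have h5 := dat_score P hk hG hn0 hA hT (thetaQ P k G st) j j.2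
            rw [h4]
            refine le_trans ?_ (le_of_eq h5.symm)
            exact_mod_cast h3

omit hn0 hk hG hA in
/-- **The greedy works** (grid-price form of the accuracy hypothesis). -/
theorem greedy_good' (hk0 : P.k0 ≤ k) (hn : Φ.n0 ≤ (1 - P.δ) * k) (hG : Φ.G = G)
    (hn0 : Φ.n0 = n0) (hA : AccQ P Φ k V G) :
    ∃ T ∈ prefixes P L V k G n0, Ok L T ∧ T.length ≤ k ∧
      Φ.c (toSet L T) ≤ (1 + 10 * P.ε) * G := by
  have hk : 0 < k := lt_of_lt_of_le P.hk0 hk0
  have hok : ∀ t, Ok L (stateAt P L V k G n0 t).1 := by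
    intro t
    induction t with
    | zero => exact ⟨List.nodup_nil, by intro i hi; simp [stateAt] at hi⟩
    | succ t ih =>
      unfold stateAt at ih ⊢
      rw [Function.iterate_succ_apply']
      exact (step_spec P hk hG hn0 hA _ ih).1
  obtain ⟨t, ht, hcard, hcost⟩ := P.slack_main Φ k hk0 hn (tabR P k V G) (acc_of_accQ P hG hA)
    (fun t => toSet L (stateAt P L V k G n0 t).1)
    (fun t => ((thetaQ P k G (stateAt P L V k G n0 t) : ℚ) : ℝ))
    (by ext i; rw [mem_toSet]; simp [stateAt])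
    (by rw [thetaQ_cast, hG]; simp [stateAt])
    (by
      intro t _
      have h := (step_spec P hk hG hn0 hA (stateAt P L V k G n0 t) (hok t)).2
      have e : stateAt P L V k G n0 (t + 1) = step P L V k G n0 (stateAt P L V k G n0 t) := by
        unfold stateAt; rw [Function.iterate_succ_apply']
      simp only [e]
      exact h)
  rw [card_toSet (hok t)] at hcard
  refine ⟨(stateAt P L V k G n0 t).1, ?_, hok t, by omega, ?_⟩
  · have h1 : t ≤ L := by
      have h2 := Finset.card_le_univ (toSet L (stateAt P L V k G n0 t).1)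
      rw [card_toSet (hok t), hcard, Fintype.card_fin] at h2
      exact h2
    unfold prefixes
    rw [List.mem_map]
    exact ⟨t, List.mem_range.2 (by omega), by rw [min_eq_left h1]⟩
  · rw [← hG]; exact hcost

omit hn0 hk hG hA in
/-- **The greedy works.**  If `V a T` approximates `Φ.R a T` up to `η G / (6 k)` for all rational
prices `a > 0` and all lists `T` of copies, one of the prefixes is good. -/
theorem greedy_good (hk0 : P.k0 ≤ k) (hn : Φ.n0 ≤ (1 - P.δ) * k) (hG : Φ.G = G)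
    (hn0 : Φ.n0 = n0)
    (hV : ∀ a : ℚ, 0 < a → ∀ T : List ℕ, (∀ i ∈ T, i < L) →
      |(V a T : ℝ) - Φ.R a (toSet L T)| ≤ P.η * G / k / 6) :
    ∃ T ∈ prefixes P L V k G n0, Ok L T ∧ T.length ≤ k ∧
      Φ.c (toSet L T) ≤ (1 + 10 * P.ε) * G := by
  refine greedy_good' P hk0 hn hG hn0 ?_
  intro m hm S
  have hk : 0 < k := lt_of_lt_of_le P.hk0 hk0
  have hG0 : (0 : ℝ) < G := by rw [← hG]; exact Φ.hG
  have h0 : 0 < priceQ P G k m := by
    have h1 := priceQ_cast P k G hm
    have h2 : (0 : ℝ) < P.lamBot G k * (P.q : ℝ) ^ m :=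
      mul_pos (P.lamBot_pos hG0 hk) (pow_pos (lt_trans one_pos P.hqr) _)
    rw [← h1] at h2
    exact_mod_cast h2
  have h := hV _ h0 (listOf S) (fun i hi => (mem_listOf.1 hi).1)
  rw [toSet_listOf] at h
  exact h

end bridge

end Crest.Agent.R310.Greedy
end

-- ▼ part R310/EvalPT

/-!
# R310, block EVAL: poly-time evaluation of the potential

`QD` = rational data of a fractional solution made of equal copies (functions on indices).
`QD.eval Q a T` = rational evaluation of the potential at price `a` when the copies `T` are open.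
* `ptf_eval` : it is poly-time as soon as the data are;
* `QD.Good.eval_cast` : its value is `State.RT` of 929's `FracInst`;
* `slack_candidates` : combination with the greedy.
-/

set_option linter.dupNamespace false
set_option autoImplicit false

namespace Crest.Agent.KM.FracInst

variable {ι σ : Type} [Fintype ι] [Fintype σ] [DecidableEq σ] {I : FracInst ι σ}

/-- upper bound of the potential when the copies outside `live` are useless -/
theorem State.R_le_live (S : I.State) {p : ℝ} (live : Finset σ)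
    (hdead : ∀ i, i ∉ live → S.U i = 0) :
    S.R p ≤ p * (live.card / I.M) + (1 + 2 * ee) * ∑ j, I.w j * I.C j := by
  classical
  have he := ee_pos
  have hM := I.M_pos'
  have h1 : ∀ i, ((∑ j ∈ I.J i, I.w j * min (I.d i j) (S.K j)) + S.V p i) ≤
      (∑ j ∈ I.J i, I.w j * (I.d i j + ee * I.key i j)) + (if i ∈ live then p else 0) := by
    intro i
    have h3 : ∑ j ∈ I.J i, I.w j * min (I.d i j) (S.K j) ≤ ∑ j ∈ I.J i, I.w j * I.d i j :=
      Finset.sum_le_sum fun j _ => mul_le_mul_of_nonneg_left (min_le_left _ _) (I.w_nonneg j)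
    have h4 : ∑ j ∈ I.J i, I.w j * (I.d i j + ee * I.key i j) =
        ∑ j ∈ I.J i, I.w j * I.d i j + ∑ j ∈ I.J i, I.w j * (ee * I.key i j) := by
      rw [← Finset.sum_add_distrib]
      apply Finset.sum_congr rfl
      intro j _; ring
    have h5 : 0 ≤ ∑ j ∈ I.J i, I.w j * (ee * I.key i j) :=
      Finset.sum_nonneg fun j _ => mul_nonneg (I.w_nonneg j) (mul_nonneg he.le (I.key_nonneg i j))
    split_ifs with hi
    · have h2 : S.V p i ≤ p + ∑ j ∈ I.J i, I.w j * (ee * I.key i j) := by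
        refine (VV_le _ _ _ _ _ _ zero_le_one le_rfl).trans ?_
        unfold Vf
        rw [mul_one]
        apply add_le_add le_rfl
        apply Finset.sum_le_sum
        intro j _
        apply mul_le_mul_of_nonneg_left _ (I.w_nonneg j)
        rw [cc_one (I.key_nonneg i j) (S.F_nonneg i) (S.u_le i j)]
        exact (min_le_right _ _).trans (mul_le_mul_of_nonneg_left (min_le_right _ _) he.le)
      rw [h4]; linarith
    · have h2 : S.V p i ≤ 0 := by
        have := S.V_le_U p i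
        rw [hdead i hi] at this
        exact this
      rw [h4]; linarith
  unfold State.R
  refine (mul_le_mul_of_nonneg_left (Finset.sum_le_sum fun i _ => h1 i)
    (show 0 ≤ 1 / (I.M:ℝ) by positivity)).trans ?_
  rw [Finset.sum_add_distrib, sum_star_comm (fun i j => I.w j * (I.d i j + ee * I.key i j)),
    Finset.sum_ite_mem, Finset.univ_inter, Finset.sum_const, nsmul_eq_mul, mul_add, add_comm]
  apply add_le_add
  · apply le_of_eq; ring
  · rw [Finset.mul_sum, Finset.mul_sum]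
    apply Finset.sum_le_sum
    intro j _
    rw [← Finset.mul_sum, Finset.sum_add_distrib, ← Finset.mul_sum]
    have hk : ∑ i ∈ I.N j, I.key i j = 2 * (I.M * I.C j) := by
      unfold key
      rw [← Finset.sum_div, Finset.sum_add_distrib, ← Finset.mul_sum, I.sum_d j,
        Finset.sum_const, nsmul_eq_mul, I.card_N j]
      ring
    rw [hk, I.sum_d j, I.card_N j]
    apply le_of_eq
    field_simp

/-- the potential with committed copies: only the copies in `live` count for the mass -/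
noncomputable def potLive (I : FracInst ι σ) (S : I.State) (live : Finset σ)
    (hdead : ∀ i, i ∉ live → S.U i = 0) (n0 : ℝ) (hn0 : (live.card : ℝ) / I.M ≤ n0)
    (G : ℝ) (hG : 0 < G) (hle : (1 + 2 / Real.exp 1) * ∑ j, I.w j * I.C j ≤ G) :
    Crest.Agent.R310.SlackK.Pot σ :=
  { I.pot S G hG hle with
    n0 := n0
    hn0 := le_trans (by positivity) hn0
    start := by
      intro a ha
      change (S.opened ∅).R a ≤ a * n0 + G
      rw [S.opened_empty]
      have h := S.R_le_live (p := a) live hdead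
      rw [two_ee] at h
      have h2 := mul_le_mul_of_nonneg_left hn0 ha.le
      linarith }

end Crest.Agent.KM.FracInst

namespace Crest.Agent.R310

open Crest.Agent.Lib.PT Crest.Agent.Lib.PT.Arith Crest.Agent.KM

/-- rational data of a fractional solution made of equal copies -/
structure QD where
  /-- number of copies -/
  L : ℕ
  /-- number of clients -/
  n : ℕ
  /-- number of time nodes -/
  J : ℕ
  /-- a copy has mass `1/M` -/
  M : ℕ
  /-- distance copy - client -/
  d : ℕ → ℕ → ℚ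
  /-- distance opened copy - star -/
  D : ℕ → ℕ → ℚ
  /-- weights -/
  w : ℕ → ℚ
  /-- `N j i`: copy `i` serves client `j` -/
  N : ℕ → ℕ → Bool
  /-- initial client costs -/
  K0 : ℕ → ℚ
  /-- initial star distances -/
  F0 : ℕ → ℚ

namespace QD

variable (Q : QD)

/-- average cost -/
def C (j : ℕ) : ℚ := 1 / (Q.M : ℚ) * ∑ i ∈ Finset.range Q.L, if Q.N j i = true then Q.d i j else 0
/-- key -/
def key (i j : ℕ) : ℚ := (11 * Q.d i j + 5 * Q.C j) / 8
/-- current client cost -/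
def K (T : List ℕ) (j : ℕ) : ℚ := minL (Q.K0 j) (T.map (fun κ => Q.d κ j))
/-- current star distance -/
def F (T : List ℕ) (i : ℕ) : ℚ := minL (Q.F0 i) (T.map (fun κ => Q.D κ i))
/-- residual -/
def u (T : List ℕ) (i j : ℕ) : ℚ := max (Q.K T j - Q.d i j) 0
/-- clients of a star -/
def Js (i : ℕ) : Finset ℕ := (Finset.range Q.n).filter (fun j => Q.N j i = true)
/-- evaluated potential -/
def eval (a : ℚ) (T : List ℕ) : ℚ :=
  1 / (Q.M : ℚ) * ∑ i ∈ Finset.range Q.L, ((∑ j ∈ Q.Js i, Q.w j * min (Q.d i j) (Q.K T j)) +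
    VT Q.J (expT Q.J) (Q.Js i) Q.w (Q.u T i) (Q.key i) (Q.F T i) a)

end QD

/-! ### poly-time -/

section ptf

variable {α γ : Type} [PTCode α] [PTCode γ]

theorem minL_mem' (x0 : ℚ) (l : List ℚ) : minL x0 l = x0 ∨ minL x0 l ∈ l := by
  induction l with
  | nil => exact Or.inl rfl
  | cons a l ih =>
    have e : minL x0 (a :: l) = min a (minL x0 l) := rfl
    rw [e]
    rcases min_choice a (minL x0 l) with h | h <;> rw [h]
    · exact Or.inr (by simp)
    · rcases ih with h | h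
      · exact Or.inl h
      · exact Or.inr (List.mem_cons_of_mem _ h)

theorem ptf_minL {x0 : α → ℚ} {l : α → List ℚ} (hx : PTF x0) (hl : PTF l) :
    PTF (fun a => minL (x0 a) (l a)) := by
  unfold minL
  refine PTF.foldr (f := fun _ a b => min a b) hl ?_ hx
    (B := fun c => sz (l c) + sz (x0 c)) (PB.add hl.sz hx.sz) ?_
  · exact PTF.ratMin (PTF.comp PTF.fst PTF.snd) (PTF.comp PTF.snd PTF.snd)
  · intro c i _
    change sz (minL (x0 c) ((l c).drop i)) ≤ _
    rcases minL_mem' (x0 c) ((l c).drop i) with h | h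
    · rw [h]; omega
    · have := sz_mem_le (List.mem_of_mem_drop h)
      omega

theorem ptf_expT {J s : α → ℕ} (hJ : PTF J) (hs : PTU s) :
    PTF (fun a => (expT (J a) (s a) : ℚ)) := by
  unfold expT
  have h1 : PTF (fun a => ((J a : ℕ) : ℚ)) := PTF.ratNatCast hJ
  exact PTF.ratPow (by fun_prop) hs

theorem ptf_seg {J l s : α → ℕ} {u F f : α → ℚ} (hJ : PTU J) (hu : PTF u) (hF : PTF F)
    (hf : PTF f) (hl : PTF l) (hs : PTF s) :
    PTF (fun a => seg (J a) (fun _ => expT (J a) (min (s a) (J a))) (u a) (F a) (f a) (l a)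
      (s a)) := by
  unfold seg
  have hJ' : PTF (fun a => ((J a : ℕ) : ℚ)) := PTF.ratNatCast (PTU.toPTF hJ)
  have hl' : PTF (fun a => ((l a : ℕ) : ℚ)) := PTF.ratNatCast hl
  have hs' : PTF (fun a => ((s a : ℕ) : ℚ)) := PTF.ratNatCast hs
  have hE : PTF (fun a => (expT (J a) (min (s a) (J a)) : ℚ)) :=
    ptf_expT (PTU.toPTF hJ) (PTF.natMinUn hs hJ)
  have hm : PTF (fun a => min (F a) (f a)) := PTF.ratMin hF hf
  have h1 : PTF (fun a => (l a : ℚ) / (s a : ℚ)) := PTF.ratDiv hl' hs'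
  have h2 : PTF (fun a => (s a : ℚ) / (J a : ℚ)) := PTF.ratDiv hs' hJ'
  exact PTF.ratAdd (PTF.ratMul (PTF.ratSub (PTF.const 1) h1) hu)
    (PTF.ratMul h1 (PTF.ratAdd (PTF.ratMul (PTF.ratSub (PTF.const 1) h2) (PTF.ratSub hF hm))
      (PTF.ratMul hE hm)))

theorem ptf_hullc {J l : α → ℕ} {u F f : α → ℚ} (hJ : PTU J) (hu : PTF u) (hF : PTF F)
    (hf : PTF f) (hl : PTF l) :
    PTF (fun a => hullc (J a) (expT (J a)) (u a) (F a) (f a) (l a)) := by
  have hJ' : PTF (fun a => ((J a : ℕ) : ℚ)) := PTF.ratNatCast (PTU.toPTF hJ)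
  have hl' : PTF (fun a => ((l a : ℕ) : ℚ)) := PTF.ratNatCast hl
  have hL : PTF (fun a => (List.range (J a + 1)).filter (fun s => decide (l a ≤ s))) :=
    PTF.filter (PTF.range (PTU.succ hJ))
      (PTPred.toPTF (PTPred.natLe (PTF.comp hl PTF.fst) PTF.snd))
  have hmap : PTF (fun a => ((List.range (J a + 1)).filter (fun s => decide (l a ≤ s))).map
      (fun s => seg (J a) (fun _ => expT (J a) (min s (J a))) (u a) (F a) (f a) (l a) s)) :=
    PTF.map hL (ptf_seg (α := α × ℕ) (PTU.comp hJ PTF.fst) (PTF.comp hu PTF.fst)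
      (PTF.comp hF PTF.fst) (PTF.comp hf PTF.fst) (PTF.comp hl PTF.fst) PTF.snd)
  have hx : PTF (fun a => u a - (l a : ℚ) / (J a : ℚ) * (u a / 2)) :=
    PTF.ratSub hu (PTF.ratMul (PTF.ratDiv hl' hJ') (PTF.ratDiv hu (PTF.const 2)))
  have h := PTF.ite (p := fun a => l a = 0) (PTPred.natEq hl (PTF.const 0)) hu (ptf_minL hx hmap)
  refine PTF.of_eq h (fun a => ?_)
  unfold hullc
  split_ifs with h0
  · rfl
  · congr 1
    apply List.map_congr_left
    intro s hs
    obtain ⟨h1, _⟩ := List.mem_filter.1 hs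
    have h2 := List.mem_range.1 h1
    have h3 : min s (J a) = s := min_eq_left (by omega)
    simp only [seg, h3]

/-- the data of a family are poly-time -/
structure QD.PTFam (Q : γ → QD) : Prop where
  L : PTU (fun c => (Q c).L)
  n : PTU (fun c => (Q c).n)
  J : PTU (fun c => (Q c).J)
  M : PTF (fun c => (Q c).M)
  d : PTF (fun x : γ × ℕ × ℕ => (Q x.1).d x.2.1 x.2.2)
  D : PTF (fun x : γ × ℕ × ℕ => (Q x.1).D x.2.1 x.2.2)
  w : PTF (fun x : γ × ℕ => (Q x.1).w x.2)
  N : PTF (fun x : γ × ℕ × ℕ => (Q x.1).N x.2.1 x.2.2)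
  K0 : PTF (fun x : γ × ℕ => (Q x.1).K0 x.2)
  F0 : PTF (fun x : γ × ℕ => (Q x.1).F0 x.2)

namespace QD.PTFam

variable {Q : γ → QD} (h : QD.PTFam Q)
include h

theorem d' {c : α → γ} {i j : α → ℕ} (hc : PTF c) (hi : PTF i) (hj : PTF j) :
    PTF (fun a => (Q (c a)).d (i a) (j a)) :=
  PTF.comp (g := fun x : γ × ℕ × ℕ => (Q x.1).d x.2.1 x.2.2) (f := fun a => (c a, i a, j a))
    h.d (PTF.prodMk hc (PTF.prodMk hi hj))

theorem D' {c : α → γ} {i j : α → ℕ} (hc : PTF c) (hi : PTF i) (hj : PTF j) :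
    PTF (fun a => (Q (c a)).D (i a) (j a)) :=
  PTF.comp (g := fun x : γ × ℕ × ℕ => (Q x.1).D x.2.1 x.2.2) (f := fun a => (c a, i a, j a))
    h.D (PTF.prodMk hc (PTF.prodMk hi hj))

theorem N' {c : α → γ} {i j : α → ℕ} (hc : PTF c) (hi : PTF i) (hj : PTF j) :
    PTF (fun a => (Q (c a)).N (i a) (j a)) :=
  PTF.comp (g := fun x : γ × ℕ × ℕ => (Q x.1).N x.2.1 x.2.2) (f := fun a => (c a, i a, j a))
    h.N (PTF.prodMk hc (PTF.prodMk hi hj))

theorem w' {c : α → γ} {j : α → ℕ} (hc : PTF c) (hj : PTF j) :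
    PTF (fun a => (Q (c a)).w (j a)) :=
  PTF.comp (g := fun x : γ × ℕ => (Q x.1).w x.2) (f := fun a => (c a, j a))
    h.w (PTF.prodMk hc hj)

theorem K0' {c : α → γ} {j : α → ℕ} (hc : PTF c) (hj : PTF j) :
    PTF (fun a => (Q (c a)).K0 (j a)) :=
  PTF.comp (g := fun x : γ × ℕ => (Q x.1).K0 x.2) (f := fun a => (c a, j a))
    h.K0 (PTF.prodMk hc hj)

theorem F0' {c : α → γ} {j : α → ℕ} (hc : PTF c) (hj : PTF j) :
    PTF (fun a => (Q (c a)).F0 (j a)) :=
  PTF.comp (g := fun x : γ × ℕ => (Q x.1).F0 x.2) (f := fun a => (c a, j a))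
    h.F0 (PTF.prodMk hc hj)

theorem M' {c : α → γ} (hc : PTF c) : PTF (fun a => ((Q (c a)).M : ℚ)) :=
  PTF.ratNatCast (PTF.comp (g := fun c => (Q c).M) h.M hc)

theorem L' {c : α → γ} (hc : PTF c) : PTU (fun a => (Q (c a)).L) :=
  PTU.comp (n := fun c => (Q c).L) h.L hc

theorem n' {c : α → γ} (hc : PTF c) : PTU (fun a => (Q (c a)).n) :=
  PTU.comp (n := fun c => (Q c).n) h.n hc

theorem J' {c : α → γ} (hc : PTF c) : PTU (fun a => (Q (c a)).J) :=
  PTU.comp (n := fun c => (Q c).J) h.J hc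

theorem C' {c : α → γ} {j : α → ℕ} (hc : PTF c) (hj : PTF j) :
    PTF (fun a => (Q (c a)).C (j a)) := by
  unfold QD.C
  refine PTF.ratMul (PTF.ratDiv (PTF.const 1) (h.M' hc)) (PTF.ratSumRange
    (f := fun a i => if (Q (c a)).N (j a) i = true then (Q (c a)).d i (j a) else 0)
    (h.L' hc) ?_)
  have hc1 : PTF (fun x : α × ℕ => c x.1) := PTF.comp hc PTF.fst
  have hj1 : PTF (fun x : α × ℕ => j x.1) := PTF.comp hj PTF.fst
  exact PTF.ite (PTF.toPTPred (h.N' hc1 hj1 PTF.snd)) (h.d' hc1 PTF.snd hj1) (PTF.const 0)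

theorem key' {c : α → γ} {i j : α → ℕ} (hc : PTF c) (hi : PTF i) (hj : PTF j) :
    PTF (fun a => (Q (c a)).key (i a) (j a)) := by
  unfold QD.key
  have h1 := h.d' hc hi hj
  have h2 := h.C' hc hj
  exact PTF.ratDiv (PTF.ratAdd (PTF.ratMul (PTF.const 11) h1) (PTF.ratMul (PTF.const 5) h2))
    (PTF.const 8)

theorem K' {c : α → γ} {T : α → List ℕ} {j : α → ℕ} (hc : PTF c) (hT : PTF T) (hj : PTF j) :
    PTF (fun a => (Q (c a)).K (T a) (j a)) := by
  unfold QD.K
  exact ptf_minL (h.K0' hc hj) (PTF.map hT (h.d' (α := α × ℕ) (PTF.comp hc PTF.fst) PTF.snd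
    (PTF.comp hj PTF.fst)))

theorem F' {c : α → γ} {T : α → List ℕ} {i : α → ℕ} (hc : PTF c) (hT : PTF T) (hi : PTF i) :
    PTF (fun a => (Q (c a)).F (T a) (i a)) := by
  unfold QD.F
  exact ptf_minL (h.F0' hc hi) (PTF.map hT (h.D' (α := α × ℕ) (PTF.comp hc PTF.fst) PTF.snd
    (PTF.comp hi PTF.fst)))

theorem u' {c : α → γ} {T : α → List ℕ} {i j : α → ℕ} (hc : PTF c) (hT : PTF T) (hi : PTF i)
    (hj : PTF j) : PTF (fun a => (Q (c a)).u (T a) (i a) (j a)) := by
  unfold QD.u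
  exact PTF.ratMax (PTF.ratSub (h.K' hc hT hj) (h.d' hc hi hj)) (PTF.const 0)

/-- sums over the clients of a star -/
theorem sumJs {c : α → γ} {i : α → ℕ} (hc : PTF c) (hi : PTF i) {g : α → ℕ → ℚ}
    (hg : PTF₂ g) : PTF (fun a => ∑ j ∈ (Q (c a)).Js (i a), g a j) := by
  have h1 : PTF (fun a => ∑ j ∈ Finset.range (Q (c a)).n,
      if (Q (c a)).N j (i a) = true then g a j else 0) := by
    refine PTF.ratSumRange (f := fun a j => if (Q (c a)).N j (i a) = true then g a j else 0)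
      (h.n' hc) ?_
    exact PTF.ite (PTF.toPTPred (h.N' (α := α × ℕ) (PTF.comp hc PTF.fst) PTF.snd
      (PTF.comp hi PTF.fst))) hg (PTF.const 0)
  refine PTF.of_eq h1 (fun a => ?_)
  unfold QD.Js
  rw [Finset.sum_filter]

theorem nodeT' {c : α → γ} {T : α → List ℕ} {i l : α → ℕ} {p : α → ℚ} (hc : PTF c) (hT : PTF T)
    (hi : PTF i) (hl : PTF l) (hp : PTF p) :
    PTF (fun a => nodeT (Q (c a)).J (expT (Q (c a)).J) ((Q (c a)).Js (i a)) (Q (c a)).w
      ((Q (c a)).u (T a) (i a)) ((Q (c a)).key (i a)) ((Q (c a)).F (T a) (i a)) (p a) (l a)) := by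
  unfold nodeT
  have hJ : PTF (fun a => (((Q (c a)).J : ℕ) : ℚ)) :=
    PTF.ratNatCast (PTU.toPTF (h.J' hc))
  have hl' : PTF (fun a => ((l a : ℕ) : ℚ)) := PTF.ratNatCast hl
  refine PTF.ratAdd (PTF.ratMul hp (PTF.ratDiv hl' hJ)) (h.sumJs hc hi ?_)
  have hc1 : PTF (fun x : α × ℕ => c x.1) := PTF.comp hc PTF.fst
  have hT1 : PTF (fun x : α × ℕ => T x.1) := PTF.comp hT PTF.fst
  have hi1 : PTF (fun x : α × ℕ => i x.1) := PTF.comp hi PTF.fst
  have hl1 : PTF (fun x : α × ℕ => l x.1) := PTF.comp hl PTF.fst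
  exact PTF.ratMul (h.w' hc1 PTF.snd) (ptf_hullc (h.J' hc1) (h.u' hc1 hT1 hi1 PTF.snd)
    (h.F' hc1 hT1 hi1) (h.key' hc1 hi1 PTF.snd) hl1)

theorem VT' {c : α → γ} {T : α → List ℕ} {i : α → ℕ} {p : α → ℚ} (hc : PTF c) (hT : PTF T)
    (hi : PTF i) (hp : PTF p) :
    PTF (fun a => VT (Q (c a)).J (expT (Q (c a)).J) ((Q (c a)).Js (i a)) (Q (c a)).w
      ((Q (c a)).u (T a) (i a)) ((Q (c a)).key (i a)) ((Q (c a)).F (T a) (i a)) (p a)) := by
  unfold VT
  refine ptf_minL (h.nodeT' hc hT hi (PTF.const 0) hp)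
    (PTF.map (PTF.range (PTU.succ (h.J' hc))) ?_)
  exact h.nodeT' (α := α × ℕ) (PTF.comp hc PTF.fst) (PTF.comp hT PTF.fst) (PTF.comp hi PTF.fst)
    PTF.snd (PTF.comp hp PTF.fst)

theorem lin' {c : α → γ} {T : α → List ℕ} {i : α → ℕ} (hc : PTF c) (hT : PTF T)
    (hi : PTF i) :
    PTF (fun a => ∑ j ∈ (Q (c a)).Js (i a),
      (Q (c a)).w j * min ((Q (c a)).d (i a) j) ((Q (c a)).K (T a) j)) := by
  refine h.sumJs (g := fun a j => (Q (c a)).w j * min ((Q (c a)).d (i a) j)
    ((Q (c a)).K (T a) j)) hc hi ?_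
  have hc1 : PTF (fun x : α × ℕ => c x.1) := PTF.comp hc PTF.fst
  have hT1 : PTF (fun x : α × ℕ => T x.1) := PTF.comp hT PTF.fst
  have hi1 : PTF (fun x : α × ℕ => i x.1) := PTF.comp hi PTF.fst
  exact PTF.ratMul (h.w' hc1 PTF.snd) (PTF.ratMin (h.d' hc1 hi1 PTF.snd) (h.K' hc1 hT1 PTF.snd))

/-- **The evaluation is poly-time.** -/
theorem eval' {c : α → γ} {T : α → List ℕ} {p : α → ℚ} (hc : PTF c) (hT : PTF T) (hp : PTF p) :
    PTF (fun a => (Q (c a)).eval (p a) (T a)) := by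
  unfold QD.eval
  have hc1 : PTF (fun x : α × ℕ => c x.1) := PTF.comp hc PTF.fst
  have hT1 : PTF (fun x : α × ℕ => T x.1) := PTF.comp hT PTF.fst
  have hp1 : PTF (fun x : α × ℕ => p x.1) := PTF.comp hp PTF.fst
  have h1 := h.lin' (α := α × ℕ) (i := fun x => x.2) hc1 hT1 PTF.snd
  have h2 := h.VT' (α := α × ℕ) (i := fun x => x.2) hc1 hT1 PTF.snd hp1
  exact PTF.ratMul (PTF.ratDiv (PTF.const 1) (h.M' hc)) (PTF.ratSumRange
    (f := fun a i => (∑ j ∈ (Q (c a)).Js i,
        (Q (c a)).w j * min ((Q (c a)).d i j) ((Q (c a)).K (T a) j)) +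
      VT (Q (c a)).J (expT (Q (c a)).J) ((Q (c a)).Js i) (Q (c a)).w ((Q (c a)).u (T a) i)
        ((Q (c a)).key i) ((Q (c a)).F (T a) i) (p a))
    (h.L' hc) (PTF.ratAdd h1 h2))

/-- **The evaluation is poly-time.** -/
theorem ptf_eval : PTF (fun x : γ × ℚ × List ℕ => (Q x.1).eval x.2.1 x.2.2) := by
  have h1 : PTF (fun x : γ × ℚ × List ℕ => x.1) := PTF.fst
  have h2 : PTF (fun x : γ × ℚ × List ℕ => x.2.2) := PTF.comp PTF.snd PTF.snd
  have h3 : PTF (fun x : γ × ℚ × List ℕ => x.2.1) := PTF.comp PTF.fst PTF.snd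
  exact h.eval' h1 h2 h3

end QD.PTFam

end ptf

/-! ### correctness -/

namespace QD

/-- validity of the data -/
structure Good (Q : QD) : Prop where
  M_pos : 0 < Q.M
  card_N : ∀ j < Q.n, ((Finset.range Q.L).filter (fun i => Q.N j i = true)).card = Q.M
  w_nonneg : ∀ j < Q.n, 0 ≤ Q.w j
  d_nonneg : ∀ i < Q.L, ∀ j < Q.n, 0 ≤ Q.d i j
  D_nonneg : ∀ κ < Q.L, ∀ i < Q.L, 0 ≤ Q.D κ i
  tri1 : ∀ i < Q.L, ∀ κ < Q.L, ∀ j < Q.n, Q.D κ i ≤ Q.d i j + Q.d κ j
  tri2 : ∀ i < Q.L, ∀ κ < Q.L, ∀ j < Q.n, Q.d κ j ≤ Q.d i j + Q.D κ i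
  K0_nonneg : ∀ j < Q.n, 0 ≤ Q.K0 j
  F0_nonneg : ∀ i < Q.L, 0 ≤ Q.F0 i
  K0_le : ∀ i < Q.L, ∀ j < Q.n, Q.K0 j ≤ Q.d i j + Q.F0 i

theorem sum_fin_filter {n : ℕ} (p : ℕ → Prop) [DecidablePred p] (g : ℕ → ℝ) :
    ∑ j ∈ (Finset.range n).filter p, g j
      = ∑ j ∈ (Finset.univ : Finset (Fin n)).filter (fun j : Fin n => p (j : ℕ)), g (j : ℕ) := by
  rw [Finset.sum_filter, Finset.sum_filter, Finset.sum_range]

namespace Good

variable {Q : QD} (h : Q.Good)

/-- the real instance -/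
noncomputable def inst : FracInst (Fin Q.n) (Fin Q.L) where
  d := fun i j => (Q.d i j : ℝ)
  D := fun κ i => (Q.D κ i : ℝ)
  w := fun j => (Q.w j : ℝ)
  N := fun j => Finset.univ.filter (fun i : Fin Q.L => Q.N j i = true)
  M := Q.M
  M_pos := h.M_pos
  card_N := by
    intro j
    rw [← h.card_N j j.2, Finset.card_filter, Finset.card_filter, Finset.sum_range]
  w_nonneg := fun j => by exact_mod_cast h.w_nonneg j j.2
  d_nonneg := fun i j => by exact_mod_cast h.d_nonneg i i.2 j j.2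
  D_nonneg := fun i κ => by exact_mod_cast h.D_nonneg κ κ.2 i i.2
  tri1 := fun i κ j => by exact_mod_cast h.tri1 i i.2 κ κ.2 j j.2
  tri2 := fun i κ j => by exact_mod_cast h.tri2 i i.2 κ κ.2 j j.2

/-- the initial state -/
noncomputable def state : h.inst.State where
  K := fun j => (Q.K0 j : ℝ)
  F := fun i => (Q.F0 i : ℝ)
  K_nonneg := fun j => by exact_mod_cast h.K0_nonneg j j.2
  F_nonneg := fun i => by exact_mod_cast h.F0_nonneg i i.2
  K_le := fun i j => by
    have := h.K0_le i i.2 j j.2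
    change (Q.K0 j : ℝ) ≤ (Q.d i j : ℝ) + (Q.F0 i : ℝ)
    exact_mod_cast this

theorem K_cast {T : List ℕ} (hT : ∀ i ∈ T, i < Q.L) (j : Fin Q.n) :
    (h.state.opened (Greedy.toSet Q.L T)).K j = (Q.K T j : ℚ) := by
  induction T with
  | nil =>
    have e : Greedy.toSet Q.L [] = ∅ := by ext i; simp [Greedy.mem_toSet]
    rw [e, FracInst.State.opened_empty]
    rfl
  | cons κ T ih =>
    have hκ : κ < Q.L := hT κ (by simp)
    rw [Greedy.toSet_cons T κ hκ, FracInst.State.opened_insert]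
    have ih' := ih (fun i hi => hT i (by simp [hi]))
    have e1 : Q.K (κ :: T) j = min (Q.d κ j) (Q.K T j) := rfl
    have e2 : ((h.state.opened (Greedy.toSet Q.L T)).step ⟨κ, hκ⟩).K j
        = min ((h.state.opened (Greedy.toSet Q.L T)).K j) (Q.d κ j : ℝ) := rfl
    rw [e1, e2, ih', Rat.cast_min, min_comm]

theorem F_cast {T : List ℕ} (hT : ∀ i ∈ T, i < Q.L) (i : Fin Q.L) :
    (h.state.opened (Greedy.toSet Q.L T)).F i = (Q.F T i : ℚ) := by
  induction T with
  | nil =>
    have e : Greedy.toSet Q.L [] = ∅ := by ext i; simp [Greedy.mem_toSet]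
    rw [e, FracInst.State.opened_empty]
    rfl
  | cons κ T ih =>
    have hκ : κ < Q.L := hT κ (by simp)
    rw [Greedy.toSet_cons T κ hκ, FracInst.State.opened_insert]
    have ih' := ih (fun i hi => hT i (by simp [hi]))
    have e1 : Q.F (κ :: T) i = min (Q.D κ i) (Q.F T i) := rfl
    have e2 : ((h.state.opened (Greedy.toSet Q.L T)).step ⟨κ, hκ⟩).F i
        = min ((h.state.opened (Greedy.toSet Q.L T)).F i) (Q.D κ i : ℝ) := rfl
    rw [e1, e2, ih', Rat.cast_min, min_comm]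

theorem u_cast {T : List ℕ} (hT : ∀ i ∈ T, i < Q.L) (i : Fin Q.L) (j : Fin Q.n) :
    (h.state.opened (Greedy.toSet Q.L T)).u i j = (Q.u T i j : ℚ) := by
  unfold FracInst.State.u QD.u
  rw [h.K_cast hT j, Rat.cast_max]
  push_cast
  rfl

theorem C_cast (j : Fin Q.n) : h.inst.C j = (Q.C j : ℚ) := by
  unfold FracInst.C QD.C
  push_cast
  have e : ∑ x ∈ Finset.range Q.L, ((if Q.N j x = true then Q.d x j else 0 : ℚ) : ℝ)
      = ∑ i ∈ h.inst.N j, h.inst.d i j := by
    have e1 : ∀ x : ℕ, ((if Q.N j x = true then Q.d x j else 0 : ℚ) : ℝ)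
        = if Q.N j x = true then (Q.d x j : ℝ) else 0 := by
      intro x; split_ifs <;> simp
    rw [Finset.sum_congr rfl fun x _ => e1 x, ← Finset.sum_filter,
      sum_fin_filter (fun x => Q.N j x = true) (fun x => (Q.d x j : ℝ))]
    rfl
  rw [e]
  rfl

theorem key_cast (i : Fin Q.L) (j : Fin Q.n) : h.inst.key i j = (Q.key i j : ℚ) := by
  unfold FracInst.key QD.key
  rw [h.C_cast j]
  push_cast
  rfl

theorem sum_J_cast (i : Fin Q.L) (g : ℕ → ℝ) :
    ∑ j ∈ Q.Js i, g j = ∑ j ∈ h.inst.J i, g (j : ℕ) := by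
  unfold QD.Js FracInst.J
  rw [sum_fin_filter (fun j => Q.N j i = true) g]
  refine Finset.sum_congr ?_ (fun _ _ => rfl)
  ext j
  simp [inst]

theorem eval_cast (a : ℚ) {T : List ℕ} (hT : ∀ i ∈ T, i < Q.L) :
    ((Q.eval a T : ℚ) : ℝ) = (h.state.opened (Greedy.toSet Q.L T)).RT Q.J a := by
  unfold QD.eval FracInst.State.RT
  push_cast
  rw [Finset.sum_range]
  have hM : ((h.inst.M : ℕ) : ℝ) = (Q.M : ℝ) := rfl
  rw [hM]
  congr 1
  refine Finset.sum_congr rfl fun i _ => ?_
  congr 1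
  · rw [h.sum_J_cast i (fun j => (Q.w j : ℝ) * min (Q.d i j : ℝ) (Q.K T j : ℝ))]
    refine Finset.sum_congr rfl fun j _ => ?_
    rw [h.K_cast hT j]
    rfl
  · rw [VT_cast]
    have hnode : ∀ l : ℕ, nodeT Q.J (fun s => ((expT Q.J s : ℚ) : ℝ)) (Q.Js i)
        (fun j => (Q.w j : ℝ)) (fun j => (Q.u T i j : ℝ)) (fun j => (Q.key i j : ℝ))
        (Q.F T i : ℝ) (a : ℝ) l
        = nodeT Q.J (expT Q.J) (h.inst.J i) h.inst.w
          ((h.state.opened (Greedy.toSet Q.L T)).u i) (h.inst.key i)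
          ((h.state.opened (Greedy.toSet Q.L T)).F i) a l := by
      intro l
      unfold nodeT
      congr 1
      rw [h.sum_J_cast i]
      refine Finset.sum_congr rfl fun j _ => ?_
      rw [h.u_cast hT i j, h.key_cast i j, h.F_cast hT i]
      have hE : (fun s => ((expT Q.J s : ℚ) : ℝ)) = (expT Q.J : ℕ → ℝ) := by
        funext s; exact expT_cast _ _
      rw [hE]
      rfl
    unfold VT
    rw [hnode]
    congr 1
    apply List.map_congr_left
    intro l _
    exact hnode l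

/-- final cost of a list of copies -/
def costQ (Q : QD) (T : List ℕ) : ℚ := ∑ j ∈ Finset.range Q.n, Q.w j * Q.K T j

/-- fractional cost -/
def fracQ (Q : QD) : ℚ := ∑ j ∈ Finset.range Q.n, Q.w j * Q.C j

theorem cost_cast {T : List ℕ} (hT : ∀ i ∈ T, i < Q.L) :
    (h.state.opened (Greedy.toSet Q.L T)).cost = (costQ Q T : ℚ) := by
  unfold FracInst.State.cost costQ
  push_cast
  rw [Finset.sum_range]
  refine Finset.sum_congr rfl fun j _ => ?_
  rw [h.K_cast hT j]
  rfl

theorem frac_cast : ∑ j, h.inst.w j * h.inst.C j = (fracQ Q : ℚ) := by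
  unfold fracQ
  push_cast
  rw [Finset.sum_range]
  refine Finset.sum_congr rfl fun j _ => ?_
  rw [h.C_cast j]
  rfl

end Good

end QD

/-- **The slack world, computed, with committed copies.**  Copies `i` with `live i = false` must
be useless in the initial state; only the others count for the mass `n0`. -/
theorem slack_candidates_live (P : SlackK.Params) {Q : QD} (h : Q.Good) (live : ℕ → Bool)
    (hdead : ∀ i < Q.L, live i = false → ∀ j < Q.n, Q.N j i = true → Q.K0 j ≤ Q.d i j)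
    (k : ℕ) (G n0 : ℚ)
    (hlive : (((Finset.range Q.L).filter (fun i => live i = true)).card : ℚ) ≤ n0 * Q.M)
    (hk0 : P.k0 ≤ k) (hmass : n0 ≤ (1 - P.δ) * k) (hG : 0 < G)
    (hGC : (1 + 2 / Real.exp 1) * (QD.Good.fracQ Q : ℝ) ≤ G)
    (hJ0 : 0 < Q.J) (hJ : 12 * (k : ℚ) ≤ P.η * (Q.J : ℚ) ^ 2) :
    ∃ T ∈ Greedy.prefixes P Q.L Q.eval k G n0, Greedy.Ok Q.L T ∧
      T.length ≤ k ∧ (QD.Good.costQ Q T : ℝ) ≤ (1 + 10 * P.ε) * G := by
  have hMpos : (0 : ℚ) < Q.M := by exact_mod_cast h.M_pos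
  have hGr : (0 : ℝ) < G := by exact_mod_cast hG
  have hfrac : (1 + 2 / Real.exp 1) * ∑ j, h.inst.w j * h.inst.C j ≤ (G : ℝ) := by
    rw [h.frac_cast]; exact hGC
  have hk : 0 < k := lt_of_lt_of_le P.hk0 hk0
  let lv : Finset (Fin Q.L) := Finset.univ.filter (fun i => live (i : ℕ) = true)
  have hd : ∀ i, i ∉ lv → h.state.U i = 0 := by
    intro i hi
    have hi' : live (i : ℕ) = false := by
      by_contra hne
      exact hi (Finset.mem_filter.2 ⟨Finset.mem_univ _, by simpa using hne⟩)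
    unfold FracInst.State.U
    refine Finset.sum_eq_zero fun j hj => ?_
    have hj' : Q.N j i = true := by
      have := FracInst.mem_J.1 hj
      simpa [QD.Good.inst] using this
    have h1 : h.state.u i j = 0 := by
      unfold FracInst.State.u
      apply max_eq_right
      have h2 := hdead i i.2 hi' j j.2 hj'
      change (Q.K0 j : ℝ) - (Q.d i j : ℝ) ≤ 0
      rw [sub_nonpos]
      exact_mod_cast h2
    rw [h1, mul_zero]
  have hcard : (lv.card : ℝ) = (((Finset.range Q.L).filter (fun i => live i = true)).card : ℝ) := by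
    have : lv.card = ((Finset.range Q.L).filter (fun i => live i = true)).card := by
      rw [Finset.card_filter, Finset.card_filter, Finset.sum_range]
    rw [this]
  have hn0 : (lv.card : ℝ) / h.inst.M ≤ (n0 : ℝ) := by
    have hMr : (0 : ℝ) < h.inst.M := by exact_mod_cast h.M_pos
    rw [div_le_iff₀ hMr, hcard]
    have e : ((h.inst.M : ℕ) : ℝ) = (Q.M : ℝ) := rfl
    rw [e]
    exact_mod_cast hlive
  obtain ⟨T, hT, hok, hlen, hcost⟩ := Greedy.greedy_good (P := P)
    (Φ := h.inst.potLive h.state lv hd (n0 : ℝ) hn0 (G : ℝ) hGr hfrac) (k := k) (V := Q.eval)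
    (G := G) (n0 := n0) hk0
    (by
      change (n0 : ℝ) ≤ (1 - P.δ) * k
      exact_mod_cast hmass)
    rfl rfl
    (by
      intro a ha T hT
      rw [h.eval_cast a hT]
      have h1 := (h.state.opened (Greedy.toSet Q.L T)).RT_err (J := Q.J) hJ0 a
      refine le_trans h1 ?_
      have hJr : (0 : ℝ) < Q.J := by exact_mod_cast hJ0
      have hkr : (0 : ℝ) < k := by exact_mod_cast hk
      have h2 : ∑ j, h.inst.w j * h.inst.C j ≤ (G : ℝ) := by
        have h3 : 0 ≤ ∑ j, h.inst.w j * h.inst.C j :=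
          Finset.sum_nonneg fun j _ => mul_nonneg (h.inst.w_nonneg j) (h.inst.C_nonneg j)
        have h4 : 0 < 2 / Real.exp 1 := by positivity
        nlinarith
      have h5 : 2 / (Q.J : ℝ) ^ 2 * ∑ j, h.inst.w j * h.inst.C j ≤ 2 / (Q.J : ℝ) ^ 2 * G :=
        mul_le_mul_of_nonneg_left h2 (by positivity)
      refine le_trans h5 ?_
      have h6 : 12 * (k : ℝ) ≤ P.η * (Q.J : ℝ) ^ 2 := by exact_mod_cast hJ
      rw [div_div, div_mul_eq_mul_div, div_le_div_iff₀ (by positivity) (by positivity)]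
      nlinarith)
  refine ⟨T, hT, hok, hlen, ?_⟩
  have e : (h.inst.potLive h.state lv hd (n0 : ℝ) hn0 (G : ℝ) hGr hfrac).c (Greedy.toSet Q.L T)
      = (h.state.opened (Greedy.toSet Q.L T)).cost := rfl
  rw [e, h.cost_cast hok.2] at hcost
  exact hcost



/-- the candidates of the slack world with committed copies are poly-time -/
theorem ptf_slack_candidates_live {γ : Type} [PTCode γ] (P : SlackK.Params) {Q : γ → QD}
    (h : QD.PTFam Q) {k : γ → ℕ} {G n0 : γ → ℚ} (hk : PTF k) (hG : PTF G) (hn : PTF n0) :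
    PTF (fun c => Greedy.prefixes P (Q c).L (Q c).eval (k c) (G c) (n0 c)) :=
  Greedy.ptf_prefixes (V := fun c => (Q c).eval) P h.L h.ptf_eval hk hG hn

end Crest.Agent.R310
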