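import Mathlib
import Crest.Agent.R310.LocalSearchCode

-- ▼ part R310/Blackwell
section

/-!
# R310: Blackwell approachability (abstract lemma)

If every new vector `v t` has nonnegative scalar product with the negative part
`R t = (-∑_{s<t} v s)^+` of the partial sum and `‖v t‖² ≤ V`, then `‖R M‖² ≤ M V`.
-/

set_option linter.dupNamespace false
set_option autoImplicit false

namespace Crest.Agent.R310

open Finset

/-- negative part of the partial sums -/
def negSum {J : Type*} (v : ℕ → J → ℚ) (t : ℕ) (j : J) : ℚ := max 0 (-∑ s ∈ range t, v s j)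


theorem neg_sum_le_negSum {J : Type*} (v : ℕ → J → ℚ) (t : ℕ) (j : J) :
    -∑ s ∈ range t, v s j ≤ negSum v t j := le_max_right _ _

theorem negSum_succ_sq {J : Type*} (v : ℕ → J → ℚ) (t : ℕ) (j : J) :
    negSum v (t+1) j ^ 2 ≤ negSum v t j ^ 2 - 2 * (negSum v t j * v t j) + v t j ^ 2 := by
  have h : negSum v t j ^ 2 - 2 * (negSum v t j * v t j) + v t j ^ 2
      = (negSum v t j - v t j) ^ 2 := by ring
  rw [h]
  unfold negSum
  rw [Finset.sum_range_succ]
  set a := ∑ s ∈ range t, v s j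
  rcases le_total 0 (-(a + v t j)) with h1 | h1
  · rw [max_eq_right h1]
    apply pow_le_pow_left₀ h1
    have := le_max_right 0 (-a)
    linarith
  · rw [max_eq_left h1]
    have := sq_nonneg (max 0 (-a) - v t j)
    simpa using this

/-- **Blackwell approachability.** -/
theorem blackwell {J : Type*} (C : Finset J) (v : ℕ → J → ℚ) (V : ℚ) (M : ℕ)
    (h1 : ∀ t < M, 0 ≤ ∑ j ∈ C, negSum v t j * v t j)
    (h2 : ∀ t < M, ∑ j ∈ C, v t j ^ 2 ≤ V) :
    ∑ j ∈ C, negSum v M j ^ 2 ≤ M * V := by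
  induction M with
  | zero =>
    simp [negSum]
  | succ M ih =>
    have ih' := ih (fun t ht => h1 t (by omega)) (fun t ht => h2 t (by omega))
    have h3 : ∑ j ∈ C, negSum v (M+1) j ^ 2
        ≤ ∑ j ∈ C, (negSum v M j ^ 2 - 2 * (negSum v M j * v M j) + v M j ^ 2) :=
      Finset.sum_le_sum fun j _ => negSum_succ_sq v M j
    rw [Finset.sum_add_distrib, Finset.sum_sub_distrib, ← Finset.mul_sum] at h3
    have h4 := h1 M (by omega)
    have h5 := h2 M (by omega)
    push_cast
    nlinarith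

/-- coordinate form, `M = V q²` -/
theorem blackwell_coord {J : Type*} (C : Finset J) (v : ℕ → J → ℚ) (V q : ℕ)
    (h1 : ∀ t < V * q ^ 2, 0 ≤ ∑ j ∈ C, negSum v t j * v t j)
    (h2 : ∀ t < V * q ^ 2, ∑ j ∈ C, v t j ^ 2 ≤ V) {j : J} (hj : j ∈ C) :
    -((V : ℚ) * q) ≤ ∑ s ∈ range (V * q ^ 2), v s j := by
  have h := blackwell C v V (V * q ^ 2) h1 h2
  have h3 : negSum v (V * q ^ 2) j ^ 2 ≤ ∑ j ∈ C, negSum v (V * q ^ 2) j ^ 2 :=
    Finset.single_le_sum (f := fun j => negSum v (V * q ^ 2) j ^ 2)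
      (fun j _ => sq_nonneg _) hj
  have h4 : negSum v (V * q ^ 2) j ^ 2 ≤ ((V : ℚ) * q) ^ 2 := by
    refine (h3.trans h).trans (le_of_eq ?_)
    push_cast; ring
  have h5 : negSum v (V * q ^ 2) j ≤ (V : ℚ) * q :=
    le_of_sq_le_sq h4 (by positivity)
  have h6 := neg_sum_le_negSum v (V * q ^ 2) j
  linarith

end Crest.Agent.R310
end

-- ▼ part R310/FracMath
section

/-!
# R310, block FRAC: the fractional solution, mathematics

Stars `(i, S)`; the star player maximises `∑_{j ∈ C, d i j ≤ A} (R_j - R_0 d i j / A)^+`.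
-/

set_option linter.dupNamespace false
set_option autoImplicit false
set_option linter.unusedSectionVars false

namespace Crest.Agent.R310

open Finset

namespace FracM

variable {ι φ : Type*} [DecidableEq ι] (C : Finset ι) (d : φ → ι → ℚ) (k : ℕ) (A : ℚ)
  (a : ℕ → φ) (S : ℕ → Finset ι)

/-- client weights: `(t - k · #cov)^+` -/
def RJ (t : ℕ) (j : ι) : ℚ := max 0 ((t : ℚ) - k * (((range t).filter (fun s => j ∈ S s)).card : ℚ))

/-- total cost so far -/
def costH (t : ℕ) : ℚ := ∑ s ∈ range t, ∑ j ∈ S s, d (a s) j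

/-- cost weight -/
def R0 (t : ℕ) : ℚ := max 0 (k * costH d a S t / A - t)

/-- the set accepted by facility `i` -/
def acc (RJ : ι → ℚ) (R0 : ℚ) (i : φ) : Finset ι :=
  C.filter (fun j => d i j ≤ A ∧ R0 * d i j / A < RJ j)

/-- gain of facility `i` -/
def gain (RJ : ι → ℚ) (R0 : ℚ) (i : φ) : ℚ :=
  ∑ j ∈ C, if d i j ≤ A then max 0 (RJ j - R0 * d i j / A) else 0

theorem gain_nonneg (RJ : ι → ℚ) (R0 : ℚ) (i : φ) : 0 ≤ gain C d A RJ R0 i := by
  unfold gain
  refine Finset.sum_nonneg fun j _ => ?_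
  split_ifs
  · exact le_max_left _ _
  · exact le_rfl

theorem gain_eq_acc (RJ : ι → ℚ) (R0 : ℚ) (i : φ) :
    gain C d A RJ R0 i = ∑ j ∈ acc C d A RJ R0 i, (RJ j - R0 * d i j / A) := by
  unfold gain acc
  rw [Finset.sum_filter]
  refine Finset.sum_congr rfl fun j _ => ?_
  by_cases h1 : d i j ≤ A
  · by_cases h2 : R0 * d i j / A < RJ j
    · rw [if_pos h1, if_pos ⟨h1, h2⟩, max_eq_right (by linarith)]
    · rw [if_pos h1, if_neg (fun h => h2 h.2), max_eq_left (by linarith)]
  · rw [if_neg h1, if_neg (fun h => h1 h.1)]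

/-- the vectors of the approachability argument -/
def vec (t : ℕ) : Option ι → ℚ
  | none => 1 - k * (∑ j ∈ S t, d (a t) j) / A
  | some j => k * (if j ∈ S t then 1 else 0) - 1


theorem vec_some (t : ℕ) (j : ι) :
    vec d k A a S t (some j) = k * (if j ∈ S t then 1 else 0) - 1 := rfl

theorem negSum_some (t : ℕ) (j : ι) : negSum (vec d k A a S) t (some j) = RJ k S t j := by
  unfold negSum RJ vec
  congr 1
  rw [Finset.sum_sub_distrib, ← Finset.mul_sum, Finset.sum_boole]
  simp

theorem negSum_none (t : ℕ) : negSum (vec d k A a S) t none = R0 d k A a S t := by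
  unfold negSum R0 vec costH
  congr 1
  rw [Finset.sum_sub_distrib, ← Finset.sum_div, ← Finset.mul_sum]
  simp

/-- run of the algorithm -/
structure Run (F : Finset φ) (M : ℕ) : Prop where
  S_eq : ∀ t < M, S t = acc C d A (RJ k S t) (R0 d k A a S t) (a t)
  opt : ∀ t < M, ∀ i ∈ F, gain C d A (RJ k S t) (R0 d k A a S t) i
      ≤ gain C d A (RJ k S t) (R0 d k A a S t) (a t)

variable {C d k A a S}

theorem Run.inner {F : Finset φ} {M : ℕ} (h : Run C d k A a S F M) (hA : 0 < A)
    (hd : ∀ i j, 0 ≤ d i j) (O : Finset φ) (hO : O ⊆ F) (hOk : O.card ≤ k) (o : ι → φ)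
    (ho : ∀ j ∈ C, o j ∈ O) (hcost : ∑ j ∈ C, d (o j) j ≤ A) {t : ℕ} (ht : t < M) :
    0 ≤ ∑ j ∈ insertNone C, negSum (vec d k A a S) t j * vec d k A a S t j := by
  classical
  rw [Finset.sum_insertNone, negSum_none]
  have e1 : ∀ j ∈ C, negSum (vec d k A a S) t (some j) * vec d k A a S t (some j)
      = k * (if j ∈ S t then RJ k S t j else 0) - RJ k S t j := by
    intro j _
    rw [negSum_some, vec_some]
    by_cases hj : j ∈ S t
    · simp only [hj, if_true]; ring
    · simp only [hj, if_false]; ring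
  rw [Finset.sum_congr rfl e1, Finset.sum_sub_distrib, ← Finset.mul_sum]
  have hSC : S t ⊆ C := by rw [h.S_eq t ht]; exact Finset.filter_subset _ _
  have e2 : ∑ j ∈ C, (if j ∈ S t then RJ k S t j else 0) = ∑ j ∈ S t, RJ k S t j := by
    rw [← Finset.sum_filter]
    congr 1
    ext j
    rw [Finset.mem_filter]
    exact ⟨fun h => h.2, fun h => ⟨hSC h, h⟩⟩
  rw [e2]
  have e3 : gain C d A (RJ k S t) (R0 d k A a S t) (a t)
      = ∑ j ∈ S t, RJ k S t j - R0 d k A a S t * (∑ j ∈ S t, d (a t) j) / A := by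
    rw [gain_eq_acc, ← h.S_eq t ht, Finset.sum_sub_distrib, ← Finset.sum_div, ← Finset.mul_sum]
  have hR0 : 0 ≤ R0 d k A a S t := le_max_left _ _
  -- competitor
  have hdA : ∀ j ∈ C, d (o j) j ≤ A := fun j hj =>
    (Finset.single_le_sum (f := fun j => d (o j) j) (fun j _ => hd _ _) hj).trans hcost
  have c1 : ∑ j ∈ C, (RJ k S t j - R0 d k A a S t * d (o j) j / A)
      ≤ ∑ i ∈ O, gain C d A (RJ k S t) (R0 d k A a S t) i := by
    unfold gain
    rw [Finset.sum_comm]
    refine Finset.sum_le_sum fun j hj => ?_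
    refine le_trans ?_ (Finset.single_le_sum (f := fun i => if d i j ≤ A then
      max 0 (RJ k S t j - R0 d k A a S t * d i j / A) else 0) (fun i _ => ?_) (ho j hj))
    · change _ ≤ if d (o j) j ≤ A then
        max 0 (RJ k S t j - R0 d k A a S t * d (o j) j / A) else 0
      rw [if_pos (hdA j hj)]
      exact le_max_right _ _
    · change 0 ≤ if d i j ≤ A then _ else _
      split_ifs
      · exact le_max_left _ _
      · exact le_rfl
  have c2 : ∑ i ∈ O, gain C d A (RJ k S t) (R0 d k A a S t) i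
      ≤ k * gain C d A (RJ k S t) (R0 d k A a S t) (a t) := by
    have h1 : ∑ i ∈ O, gain C d A (RJ k S t) (R0 d k A a S t) i
        ≤ ∑ _i ∈ O, gain C d A (RJ k S t) (R0 d k A a S t) (a t) :=
      Finset.sum_le_sum fun i hi => h.opt t ht i (hO hi)
    rw [Finset.sum_const, nsmul_eq_mul] at h1
    refine h1.trans (mul_le_mul_of_nonneg_right ?_ (gain_nonneg _ _ _ _ _ _))
    exact_mod_cast hOk
  have c3 : ∑ j ∈ C, RJ k S t j - R0 d k A a S t
      ≤ ∑ j ∈ C, (RJ k S t j - R0 d k A a S t * d (o j) j / A) := by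
    rw [Finset.sum_sub_distrib, ← Finset.sum_div, ← Finset.mul_sum]
    have : R0 d k A a S t * (∑ j ∈ C, d (o j) j) / A ≤ R0 d k A a S t := by
      rw [div_le_iff₀ hA]
      exact mul_le_mul_of_nonneg_left hcost hR0
    linarith
  have e4 : R0 d k A a S t * vec d k A a S t none
      = R0 d k A a S t - k * (R0 d k A a S t * (∑ j ∈ S t, d (a t) j) / A) := by
    unfold vec
    ring
  rw [e4]
  have := (c3.trans c1).trans c2
  rw [e3] at this
  linarith

theorem Run.norm {F : Finset φ} {M : ℕ} (h : Run C d k A a S F M) (hA : 0 < A)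
    (hd : ∀ i j, 0 ≤ d i j) {n : ℕ} (hn : C.card ≤ n) (hn1 : 1 ≤ n) (hk : 1 ≤ k)
    {t : ℕ} (ht : t < M) :
    ∑ j ∈ insertNone C, vec d k A a S t j ^ 2 ≤ ((2 * k ^ 2 * n ^ 2 : ℕ) : ℚ) := by
  rw [Finset.sum_insertNone]
  have hkq : (1 : ℚ) ≤ k := by exact_mod_cast hk
  have hnq : (1 : ℚ) ≤ n := by exact_mod_cast hn1
  have hnn : (C.card : ℚ) ≤ n := by exact_mod_cast hn
  have hSC : S t ⊆ C := by rw [h.S_eq t ht]; exact Finset.filter_subset _ _
  have h1 : ∑ j ∈ C, vec d k A a S t (some j) ^ 2 ≤ k ^ 2 * n ^ 2 := by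
    have : ∀ j ∈ C, vec d k A a S t (some j) ^ 2 ≤ (k : ℚ) ^ 2 := by
      intro j _
      rw [vec_some]
      by_cases hj : j ∈ S t
      · rw [if_pos hj]; nlinarith
      · rw [if_neg hj]; nlinarith
    refine (Finset.sum_le_sum this).trans ?_
    rw [Finset.sum_const, nsmul_eq_mul]
    nlinarith [sq_nonneg (k : ℚ), mul_le_mul_of_nonneg_right hnn (sq_nonneg (k : ℚ)),
      mul_le_mul_of_nonneg_left hnq (show (0 : ℚ) ≤ n * k ^ 2 by positivity)]
  have h2 : vec d k A a S t none ^ 2 ≤ (k : ℚ) ^ 2 * n ^ 2 := by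
    unfold vec
    have c0 : 0 ≤ ∑ j ∈ S t, d (a t) j := Finset.sum_nonneg fun j _ => hd _ _
    have c1 : ∑ j ∈ S t, d (a t) j ≤ n * A := by
      have : ∀ j ∈ S t, d (a t) j ≤ A := by
        intro j hj
        rw [h.S_eq t ht] at hj
        exact (Finset.mem_filter.1 hj).2.1
      refine (Finset.sum_le_sum this).trans ?_
      rw [Finset.sum_const, nsmul_eq_mul]
      refine mul_le_mul_of_nonneg_right ?_ hA.le
      have := Finset.card_le_card hSC
      exact_mod_cast this.trans hn
    have c2 : 0 ≤ (k : ℚ) * (∑ j ∈ S t, d (a t) j) / A := by positivity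
    have c3 : (k : ℚ) * (∑ j ∈ S t, d (a t) j) / A ≤ k * n := by
      rw [div_le_iff₀ hA]
      have := mul_le_mul_of_nonneg_left c1 (show (0 : ℚ) ≤ k by positivity)
      linarith
    rw [← mul_pow]
    apply sq_le_sq'
    · nlinarith
    · nlinarith
  push_cast
  linarith

/-- **Output of the algorithm.** -/
theorem Run.spec {F : Finset φ} {n q : ℕ} (hk : 1 ≤ k) (hn : C.card ≤ n) (hn1 : 1 ≤ n)
    (h : Run C d k A a S F (2 * k ^ 2 * n ^ 2 * q ^ 2)) (hA : 0 < A)
    (hd : ∀ i j, 0 ≤ d i j) (O : Finset φ) (hO : O ⊆ F) (hOk : O.card ≤ k) (o : ι → φ)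
    (ho : ∀ j ∈ C, o j ∈ O) (hcost : ∑ j ∈ C, d (o j) j ≤ A) :
    (∀ j ∈ C, 2 * k * n ^ 2 * q * (q - 1)
      ≤ ((range (2 * k ^ 2 * n ^ 2 * q ^ 2)).filter (fun s => j ∈ S s)).card) ∧
    costH d a S (2 * k ^ 2 * n ^ 2 * q ^ 2) ≤ ((2 * k * n ^ 2 * q * (q + 1) : ℕ) : ℚ) * A := by
  have hkq : (0 : ℚ) < k := by exact_mod_cast hk
  have key : ∀ j ∈ insertNone C, -(((2 * k ^ 2 * n ^ 2 : ℕ) : ℚ) * q)
      ≤ ∑ s ∈ range (2 * k ^ 2 * n ^ 2 * q ^ 2), vec d k A a S s j := fun j hj =>
    blackwell_coord (insertNone C) (vec d k A a S) (2 * k ^ 2 * n ^ 2) q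
      (fun t ht => h.inner hA hd O hO hOk o ho hcost ht)
      (fun t ht => h.norm hA hd hn hn1 hk ht) hj
  constructor
  · intro j hj
    have h1 := key (some j) (by simpa using hj)
    have h2 : ∑ s ∈ range (2 * k ^ 2 * n ^ 2 * q ^ 2), vec d k A a S s (some j)
        = k * (((range (2 * k ^ 2 * n ^ 2 * q ^ 2)).filter (fun s => j ∈ S s)).card : ℚ)
          - ((2 * k ^ 2 * n ^ 2 * q ^ 2 : ℕ) : ℚ) := by
      unfold vec
      rw [Finset.sum_sub_distrib, ← Finset.mul_sum, Finset.sum_boole]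
      simp
    rw [h2] at h1
    rcases Nat.eq_zero_or_pos q with hq | hq
    · subst hq; simp
    have h3 : (k : ℚ) * ((2 * k * n ^ 2 * q * (q - 1) : ℕ) : ℚ)
        ≤ k * (((range (2 * k ^ 2 * n ^ 2 * q ^ 2)).filter (fun s => j ∈ S s)).card : ℚ) := by
      have h4 : ((q - 1 : ℕ) : ℚ) = (q : ℚ) - 1 := by
        rw [Nat.cast_sub hq]; simp
      have h5 : ((2 * k * n ^ 2 * q * (q - 1) : ℕ) : ℚ) = 2 * k * n ^ 2 * q * ((q : ℚ) - 1) := by
        rw [← h4]; push_cast; ring
      rw [h5]
      push_cast at h1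
      linarith
    have h6 := le_of_mul_le_mul_left h3 hkq
    exact_mod_cast h6
  · have h1 := key none (by simp)
    have h2 : ∑ s ∈ range (2 * k ^ 2 * n ^ 2 * q ^ 2), vec d k A a S s none
        = ((2 * k ^ 2 * n ^ 2 * q ^ 2 : ℕ) : ℚ)
          - k * costH d a S (2 * k ^ 2 * n ^ 2 * q ^ 2) / A := by
      unfold vec costH
      rw [Finset.sum_sub_distrib, ← Finset.sum_div, ← Finset.mul_sum]
      simp
    rw [h2] at h1
    have h3 : k * costH d a S (2 * k ^ 2 * n ^ 2 * q ^ 2) / A
        ≤ k * ((2 * k * n ^ 2 * q * (q + 1) : ℕ) : ℚ) := by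
      push_cast at h1 ⊢
      linarith
    rw [div_le_iff₀ hA] at h3
    have h4 : (k : ℚ) * costH d a S (2 * k ^ 2 * n ^ 2 * q ^ 2)
        ≤ k * (((2 * k * n ^ 2 * q * (q + 1) : ℕ) : ℚ) * A) := by
      rw [← mul_assoc]; exact h3
    exact le_of_mul_le_mul_left h4 hkq

end FracM

end Crest.Agent.R310
end

-- ▼ part R310/FracCode
section

/-!
# R310, block FRAC: the fractional solution as a `PTF` function

`fracY r k q A` = list of copies of facilities, `fracM r k q` = number of copies of mass one.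
-/

set_option linter.dupNamespace false
set_option autoImplicit false

namespace Crest.Agent.R310

open Crest.Agent.Lib.PT Crest.Agent.Lib.PT.Arith Crest.LogicCS.KMedian

/-- history: chosen facility and accepted clients of every round -/
abbrev Hist := List (ℕ × List Bool)

/-- facility of round `s` -/
def hFac (h : Hist) (s : ℕ) : ℕ := (h.getD s (0, [])).1
/-- is client `j` accepted in round `s`? -/
def hAcc (h : Hist) (s j : ℕ) : Bool := (h.getD s (0, [])).2.getD j false
/-- number of rounds that accept `j` -/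
def hCov (h : Hist) (j : ℕ) : ℕ := ∑ s ∈ Finset.range h.length, if hAcc h s j = true then 1 else 0
/-- total cost -/
def hCost (r : RI) (h : Hist) : ℚ :=
  ∑ s ∈ Finset.range h.length, ∑ j ∈ Finset.range (riN r),
    if hAcc h s j = true then riD r (hFac h s) j else 0
/-- client weight -/
def hRJ (k : ℕ) (h : Hist) (j : ℕ) : ℚ := max 0 ((h.length : ℚ) - k * (hCov h j : ℚ))
/-- cost weight -/
def hR0 (r : RI) (k : ℕ) (A : ℚ) (h : Hist) : ℚ := max 0 (k * hCost r h / A - h.length)
/-- gain of a facility -/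
def fGain (r : RI) (k : ℕ) (A : ℚ) (h : Hist) (i : ℕ) : ℚ :=
  ∑ j ∈ Finset.range (riN r), if riC r j = true ∧ riD r i j ≤ A then
    max 0 (hRJ k h j - hR0 r k A h * riD r i j / A) else 0
/-- accepted clients -/
def fMask (r : RI) (k : ℕ) (A : ℚ) (h : Hist) (i : ℕ) : List Bool :=
  (List.range (riN r)).map fun j =>
    decide (riC r j = true ∧ riD r i j ≤ A ∧ hR0 r k A h * riD r i j / A < hRJ k h j)
/-- best facility -/
def fBest (r : RI) (k : ℕ) (A : ℚ) (h : Hist) : ℕ :=
  (facL r).foldl (fun o c => if fGain r k A h o < fGain r k A h c then c else o)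
    ((facL r).headD 0)
/-- one round -/
def fStep (r : RI) (k : ℕ) (A : ℚ) (h : Hist) : Hist :=
  h ++ [(fBest r k A h, fMask r k A h (fBest r k A h))]
/-- number of rounds -/
def fracT (r : RI) (k q : ℕ) : ℕ := 2 * k ^ 2 * riN r ^ 2 * q ^ 2
/-- number of copies of mass one -/
def fracM (r : RI) (k q : ℕ) : ℕ := 2 * k * riN r ^ 2 * q * (q - 1)
/-- the whole run -/
def fHist (r : RI) (k : ℕ) (A : ℚ) (t : ℕ) : Hist := (fStep r k A)^[t] []
/-- **list of copies** -/
def fracY (r : RI) (k q : ℕ) (A : ℚ) : List ℕ := (fHist r k A (fracT r k q)).map Prod.fst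

/-! ### poly-time -/

section ptf
variable {γ : Type} [PTCode γ] {r : γ → RI} {k q : γ → ℕ} {A : γ → ℚ} {h : γ → Hist}
  {i j s : γ → ℕ}

theorem ptf_hFac (hh : PTF h) (hs : PTF s) : PTF (fun c => hFac (h c) (s c)) :=
  PTF.comp (g := fun p : ℕ × List Bool => p.1) PTF.fst (ptf_getDN hs hh (PTF.const _))

theorem ptf_hAcc (hh : PTF h) (hs : PTF s) (hj : PTF j) : PTF (fun c => hAcc (h c) (s c) (j c)) :=
  ptf_getDN hj (PTF.comp (g := fun p : ℕ × List Bool => p.2) PTF.snd
    (ptf_getDN hs hh (PTF.const _))) (PTF.const _)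

theorem ptf_hCov (hh : PTF h) (hj : PTF j) : PTF (fun c => hCov (h c) (j c)) := by
  refine PTF.natSumRange (PTU.length hh)
    (f := fun c s => if hAcc (h c) s (j c) = true then 1 else 0) ?_
  exact PTF.ite (PTF.toPTPred (ptf_hAcc (PTF.comp hh PTF.fst) PTF.snd (PTF.comp hj PTF.fst)))
    (PTF.const _) (PTF.const _)

theorem ptf_hCost (hr : PTF r) (hh : PTF h) : PTF (fun c => hCost (r c) (h c)) := by
  refine PTF.ratSumRange (PTU.length hh)
    (f := fun c s => ∑ j ∈ Finset.range (riN (r c)),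
      if hAcc (h c) s j = true then riD (r c) (hFac (h c) s) j else 0) ?_
  have hr1 : PTF (fun p : γ × ℕ => r p.1) := PTF.comp hr PTF.fst
  refine PTF.ratSumRange (α := γ × ℕ) (n := fun p => riN (r p.1)) (ptu_riN hr1)
    (f := fun p j => if hAcc (h p.1) p.2 j = true then riD (r p.1) (hFac (h p.1) p.2) j else 0) ?_
  have h1 : PTF (fun x : (γ × ℕ) × ℕ => x.1.1) := PTF.comp PTF.fst PTF.fst
  have h2 : PTF (fun x : (γ × ℕ) × ℕ => x.1.2) := PTF.comp PTF.snd PTF.fst
  refine PTF.ite (PTF.toPTPred (ptf_hAcc (PTF.comp hh h1) h2 PTF.snd)) ?_ (PTF.const _)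
  exact ptf_riD (PTF.comp hr h1) (ptf_hFac (PTF.comp hh h1) h2) PTF.snd

theorem ptf_hRJ (hk : PTF k) (hh : PTF h) (hj : PTF j) : PTF (fun c => hRJ (k c) (h c) (j c)) := by
  refine PTF.ratMax (PTF.const _) (PTF.ratSub (PTF.ratNatCast (PTU.toPTF (PTU.length hh))) ?_)
  exact PTF.ratMul (PTF.ratNatCast hk) (PTF.ratNatCast (ptf_hCov hh hj))

theorem ptf_hR0 (hr : PTF r) (hk : PTF k) (hA : PTF A) (hh : PTF h) :
    PTF (fun c => hR0 (r c) (k c) (A c) (h c)) := by
  refine PTF.ratMax (PTF.const _) (PTF.ratSub ?_ (PTF.ratNatCast (PTU.toPTF (PTU.length hh))))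
  exact PTF.ratDiv (PTF.ratMul (PTF.ratNatCast hk) (ptf_hCost hr hh)) hA

theorem ptf_fGain (hr : PTF r) (hk : PTF k) (hA : PTF A) (hh : PTF h) (hi : PTF i) :
    PTF (fun c => fGain (r c) (k c) (A c) (h c) (i c)) := by
  refine PTF.ratSumRange (ptu_riN hr)
    (f := fun c j => if riC (r c) j = true ∧ riD (r c) (i c) j ≤ A c then
      max 0 (hRJ (k c) (h c) j - hR0 (r c) (k c) (A c) (h c) * riD (r c) (i c) j / A c) else 0) ?_
  have h1 : PTF (fun x : γ × ℕ => x.1) := PTF.fst
  have hd : PTF (fun x : γ × ℕ => riD (r x.1) (i x.1) x.2) :=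
    ptf_riD (PTF.comp hr h1) (PTF.comp hi h1) PTF.snd
  refine PTF.ite (PTPred.and (PTF.toPTPred (ptf_riC (PTF.comp hr h1) PTF.snd))
    (PTPred.ratLe hd (PTF.comp hA h1))) ?_ (PTF.const _)
  refine PTF.ratMax (PTF.const _) (PTF.ratSub (ptf_hRJ (PTF.comp hk h1) (PTF.comp hh h1) PTF.snd) ?_)
  exact PTF.ratDiv (PTF.ratMul (ptf_hR0 (PTF.comp hr h1) (PTF.comp hk h1) (PTF.comp hA h1)
    (PTF.comp hh h1)) hd) (PTF.comp hA h1)

theorem ptf_fMask (hr : PTF r) (hk : PTF k) (hA : PTF A) (hh : PTF h) (hi : PTF i) :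
    PTF (fun c => fMask (r c) (k c) (A c) (h c) (i c)) := by
  refine PTF.tabulate (ptu_riN hr) (f := fun c j =>
    decide (riC (r c) j = true ∧ riD (r c) (i c) j ≤ A c ∧
      hR0 (r c) (k c) (A c) (h c) * riD (r c) (i c) j / A c < hRJ (k c) (h c) j)) ?_
  have h1 : PTF (fun x : γ × ℕ => x.1) := PTF.fst
  have hd : PTF (fun x : γ × ℕ => riD (r x.1) (i x.1) x.2) :=
    ptf_riD (PTF.comp hr h1) (PTF.comp hi h1) PTF.snd
  refine PTPred.toPTF (PTPred.and (PTF.toPTPred (ptf_riC (PTF.comp hr h1) PTF.snd))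
    (PTPred.and (PTPred.ratLe hd (PTF.comp hA h1)) (PTPred.ratLt ?_ ?_)))
  · exact PTF.ratDiv (PTF.ratMul (ptf_hR0 (PTF.comp hr h1) (PTF.comp hk h1) (PTF.comp hA h1)
      (PTF.comp hh h1)) hd) (PTF.comp hA h1)
  · exact ptf_hRJ (PTF.comp hk h1) (PTF.comp hh h1) PTF.snd

end ptf

/-! ### argmax by a fold -/

theorem foldl_argmax (g : ℕ → ℚ) (l : List ℕ) (a : ℕ) :
    (l.foldl (fun o c => if g o < g c then c else o) a = a ∨
      l.foldl (fun o c => if g o < g c then c else o) a ∈ l) ∧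
    g a ≤ g (l.foldl (fun o c => if g o < g c then c else o) a) ∧
    ∀ c ∈ l, g c ≤ g (l.foldl (fun o c => if g o < g c then c else o) a) := by
  induction l generalizing a with
  | nil => simp
  | cons b l ih =>
    rw [List.foldl_cons]
    by_cases hab : g a < g b
    · rw [if_pos hab]
      obtain ⟨h1, h2, h3⟩ := ih b
      refine ⟨Or.inr ?_, hab.le.trans h2, ?_⟩
      · rcases h1 with h1 | h1
        · rw [h1]; simp
        · exact List.mem_cons_of_mem _ h1
      · intro c hc
        rcases List.mem_cons.1 hc with rfl | hc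
        · exact h2
        · exact h3 c hc
    · rw [if_neg hab]
      obtain ⟨h1, h2, h3⟩ := ih a
      refine ⟨?_, h2, ?_⟩
      · rcases h1 with h1 | h1
        · exact Or.inl h1
        · exact Or.inr (List.mem_cons_of_mem _ h1)
      · intro c hc
        rcases List.mem_cons.1 hc with rfl | hc
        · exact (not_lt.1 hab).trans h2
        · exact h3 c hc

theorem fBest_mem (r : RI) (k : ℕ) (A : ℚ) (h : Hist) :
    fBest r k A h ∈ facL r ∨ (facL r = [] ∧ fBest r k A h = 0) := by
  unfold fBest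
  rcases hf : facL r with _ | ⟨a, l⟩
  · exact Or.inr ⟨rfl, rfl⟩
  · refine Or.inl ?_
    rcases (foldl_argmax (fGain r k A h) (a :: l) a).1 with h1 | h1
    · rw [List.headD_cons, h1]; simp
    · exact h1

theorem fBest_max (r : RI) (k : ℕ) (A : ℚ) (h : Hist) {i : ℕ} (hi : i ∈ facL r) :
    fGain r k A h i ≤ fGain r k A h (fBest r k A h) :=
  (foldl_argmax (fGain r k A h) (facL r) _).2.2 i hi

section ptf
variable {γ : Type} [PTCode γ] {r : γ → RI} {k q : γ → ℕ} {A : γ → ℚ} {h : γ → Hist}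

theorem ptf_fBest (hr : PTF r) (hk : PTF k) (hA : PTF A) (hh : PTF h) :
    PTF (fun c => fBest (r c) (k c) (A c) (h c)) := by
  refine PTF.foldl_bdd (γ := γ) (α := ℕ) (β := ℕ) (l := fun c => facL (r c))
    (f := fun c o b => if fGain (r c) (k c) (A c) (h c) o < fGain (r c) (k c) (A c) (h c) b
      then b else o) (b := fun c => (facL (r c)).headD 0) (ptf_facL hr) ?_ ?_
    (G := fun c => sz (facL (r c))) (ptf_facL hr).sz ?_ ?_
  · have h1 : PTF (fun p : γ × ℕ × ℕ => p.1) := PTF.fst
    have h2 : PTF (fun p : γ × ℕ × ℕ => p.2.1) := by fun_prop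
    have h3 : PTF (fun p : γ × ℕ × ℕ => p.2.2) := by fun_prop
    refine PTF.ite (PTPred.ratLt ?_ ?_) h3 h2
    · exact ptf_fGain (PTF.comp hr h1) (PTF.comp hk h1) (PTF.comp hA h1) (PTF.comp hh h1) h2
    · exact ptf_fGain (PTF.comp hr h1) (PTF.comp hk h1) (PTF.comp hA h1) (PTF.comp hh h1) h3
  · refine PTF.of_eq (PTF.optionGetD (s := fun c => (facL (r c)).head?) (d := fun _ => (0 : ℕ))
      (PTF.head? (ptf_facL hr)) (PTF.const _)) (fun c => ?_)
    cases facL (r c) <;> rfl
  · intro c b a ha hb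
    change sz (if _ then a else b) ≤ _
    split_ifs
    · exact sz_mem_le ha
    · exact hb
  · intro c
    change sz ((facL (r c)).headD 0) ≤ _
    cases hf : facL (r c) with
    | nil => simp [sz_nat]
    | cons a l => simp only [List.headD_cons, sz_cons]; omega

theorem ptf_fStep (hr : PTF r) (hk : PTF k) (hA : PTF A) (hh : PTF h) :
    PTF (fun c => fStep (r c) (k c) (A c) (h c)) := by
  have hb := ptf_fBest hr hk hA hh
  refine PTF.append hh (PTF.listCons (PTF.prodMk hb (ptf_fMask hr hk hA hh hb)) (PTF.const []))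

end ptf

theorem fHist_succ (r : RI) (k : ℕ) (A : ℚ) (t : ℕ) :
    fHist r k A (t+1) = fStep r k A (fHist r k A t) := by
  unfold fHist; rw [Function.iterate_succ_apply']

theorem length_fHist (r : RI) (k : ℕ) (A : ℚ) (t : ℕ) : (fHist r k A t).length = t := by
  induction t with
  | zero => rfl
  | succ t ih =>
    rw [fHist_succ]
    unfold fStep
    rw [List.length_append, ih]; rfl

theorem fHist_entry (r : RI) (k : ℕ) (A : ℚ) (t : ℕ) : ∀ e ∈ fHist r k A t,
    sz e ≤ 2 * sz (facL r) + 1 + 3 * riN r ∧ (e.1 ∈ facL r ∨ facL r = []) := by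
  induction t with
  | zero => intro e he; simp [fHist] at he
  | succ t ih =>
    intro e he
    rw [fHist_succ] at he
    unfold fStep at he
    rcases List.mem_append.1 he with he | he
    · exact ih e he
    · rw [List.mem_singleton] at he
      subst he
      constructor
      · simp only [sz_prod, sz_boolList]
        have h1 : (fMask r k A (fHist r k A t) (fBest r k A (fHist r k A t))).length = riN r := by
          simp [fMask]
        rw [h1]
        have h2 : sz (fBest r k A (fHist r k A t)) ≤ sz (facL r) := by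
          rcases fBest_mem r k A (fHist r k A t) with h | ⟨_, h⟩
          · exact sz_mem_le h
          · rw [h]; simp [sz_nat]
        omega
      · rcases fBest_mem r k A (fHist r k A t) with h | ⟨h, _⟩
        · exact Or.inl h
        · exact Or.inr h

section ptf
variable {γ : Type} [PTCode γ] {r : γ → RI} {k q t : γ → ℕ} {A : γ → ℚ}

theorem ptf_fHist (hr : PTF r) (hk : PTF k) (hA : PTF A) (ht : PTU t) :
    PTF (fun c => fHist (r c) (k c) (A c) (t c)) := by
  refine PTF.iterate' (γ := γ) (n := t) (f := fun c x => fStep (r c) (k c) (A c) x)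
    (a := fun _ => []) ht ?_ (PTF.const _)
    (B := fun c => t c * (2 * (2 * sz (facL (r c)) + 1 + 3 * riN (r c)) + 1)) ?_ ?_
  · exact ptf_fStep (PTF.comp hr PTF.fst) (PTF.comp hk PTF.fst) (PTF.comp hA PTF.fst) PTF.snd
  · have h1 : PB (fun c => sz (facL (r c))) := (ptf_facL hr).sz
    have h2 : PB (fun c => riN (r c)) := PTU.pb (ptu_riN hr)
    have h3 : PB t := PTU.pb ht
    exact PB.mul h3 (PB.add (PB.mul (PB.const 2) (PB.add (PB.add (PB.mul (PB.const 2) h1)
      (PB.const 1)) (PB.mul (PB.const 3) h2))) (PB.const 1))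
  · intro c i hi
    have h1 : (fHist (r c) (k c) (A c) i).length = i := length_fHist _ _ _ _
    have h2 := sz_list_le (l := fHist (r c) (k c) (A c) i)
      (m := 2 * sz (facL (r c)) + 1 + 3 * riN (r c))
      (fun e he => (fHist_entry (r c) (k c) (A c) i e he).1)
    rw [h1] at h2
    exact h2.trans (Nat.mul_le_mul_right _ hi)

theorem ptu_fracT (hr : PTF r) (hk : PTU k) (hq : PTU q) :
    PTU (fun c => fracT (r c) (k c) (q c)) := by
  have h1 : PTU (fun c => riN (r c)) := ptu_riN hr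
  refine PTU.of_eq (PTU.mul (PTU.mul (PTU.mul (PTU.const 2) (PTU.mul hk hk)) (PTU.mul h1 h1))
    (PTU.mul hq hq)) (fun c => ?_)
  unfold fracT; ring

theorem ptu_fracM (hr : PTF r) (hk : PTU k) (hq : PTU q) :
    PTU (fun c => fracM (r c) (k c) (q c)) := by
  have h1 : PTU (fun c => riN (r c)) := ptu_riN hr
  refine PTU.of_eq (PTU.mul (PTU.mul (PTU.mul (PTU.mul (PTU.const 2) hk) (PTU.mul h1 h1))
    hq) (PTU.sub hq (PTU.const 1))) (fun c => ?_)
  unfold fracM; ring

theorem ptf_fracY (hr : PTF r) (hk : PTU k) (hq : PTU q) (hA : PTF A) :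
    PTF (fun c => fracY (r c) (k c) (q c) (A c)) :=
  PTF.map (l := fun c => fHist (r c) (k c) (A c) (fracT (r c) (k c) (q c)))
    (f := fun _ p => p.1) (ptf_fHist hr (PTU.toPTF hk) hA (ptu_fracT hr hk hq))
    (PTF.comp PTF.fst PTF.snd)

end ptf

theorem length_fracY (r : RI) (k q : ℕ) (A : ℚ) : (fracY r k q A).length = fracT r k q := by
  unfold fracY; rw [List.length_map, length_fHist]

theorem fracY_mem (r : RI) (hF : facL r ≠ []) (k q : ℕ) (A : ℚ) : ∀ e ∈ fracY r k q A, e ∈ facL r := by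
  intro e he
  unfold fracY at he
  obtain ⟨p, hp, rfl⟩ := List.mem_map.1 he
  exact ((fHist_entry r k A _ p hp).2).resolve_right hF

end Crest.Agent.R310
end

-- ▼ part R310/Frac
section

/-!
# R310, block FRAC: specification

* `near r Y m j e`: copy `e` of the list `Y` is one of the `m` copies nearest to `j`
  (order: distance, location, index);
* `fracY_spec`: the copies of `fracY` form a nearly optimal fractional solution.
-/

set_option linter.dupNamespace false
set_option autoImplicit false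

namespace Crest.Agent.R310

open Crest.Agent.Lib.PT Crest.Agent.Lib.PT.Arith Crest.LogicCS.KMedian Finset

/-! ### ranks -/

section rank

variable {Λ : Type*} [LinearOrder Λ] (κ : ℕ → Λ) (L : ℕ)

/-- rank of `e` among the indices below `L` -/
def rk (e : ℕ) : ℕ := ((range L).filter (fun e' => κ e' < κ e)).card

theorem rk_lt {e : ℕ} (he : e < L) : rk κ L e < L := by
  unfold rk
  have h1 : (range L).filter (fun e' => κ e' < κ e) ⊂ range L := by
    rw [Finset.filter_ssubset]
    exact ⟨e, mem_range.2 he, lt_irrefl _⟩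
  simpa using Finset.card_lt_card h1

theorem rk_lt_rk {e e' : ℕ} (he : e' < L) (h : κ e' < κ e) : rk κ L e' < rk κ L e := by
  unfold rk
  apply Finset.card_lt_card
  rw [Finset.ssubset_iff_of_subset]
  · exact ⟨e', by simp [he, h], by simp⟩
  · intro x hx
    rw [Finset.mem_filter] at hx ⊢
    exact ⟨hx.1, hx.2.trans h⟩

theorem card_rk_lt (hinj : ∀ e < L, ∀ e' < L, κ e = κ e' → e = e') {m : ℕ} (hm : m ≤ L) :
    ((range L).filter (fun e => rk κ L e < m)).card = m := by
  have hi : Set.InjOn (rk κ L) (range L : Set ℕ) := by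
    intro e he e' he' h
    have he1 : e < L := by simpa using he
    have he2 : e' < L := by simpa using he'
    rcases lt_trichotomy (κ e) (κ e') with h1 | h1 | h1
    · have := rk_lt_rk κ L he1 h1; omega
    · exact hinj e he1 e' he2 h1
    · have := rk_lt_rk κ L he2 h1; omega
  have himg : (range L).image (rk κ L) = range L := by
    apply Finset.eq_of_subset_of_card_le
    · intro x hx
      obtain ⟨e, he, rfl⟩ := Finset.mem_image.1 hx
      exact mem_range.2 (rk_lt κ L (mem_range.1 he))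
    · rw [Finset.card_image_of_injOn hi]
  have h2 : ((range L).filter (fun e => rk κ L e < m)).image (rk κ L) = range m := by
    ext x
    rw [Finset.mem_image, mem_range]
    constructor
    · rintro ⟨e, he, rfl⟩; exact (Finset.mem_filter.1 he).2
    · intro hx
      have : x ∈ (range L).image (rk κ L) := by rw [himg]; exact mem_range.2 (by omega)
      obtain ⟨e, he, rfl⟩ := Finset.mem_image.1 this
      exact ⟨e, Finset.mem_filter.2 ⟨he, hx⟩, rfl⟩
  rw [← Finset.card_image_of_injOn (s := (range L).filter (fun e => rk κ L e < m))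
    (hi.mono (by intro x hx; simp only [Finset.coe_filter, Set.mem_ofPred_eq] at hx; exact hx.1)),
    h2, Finset.card_range]

theorem rk_sum_le (hinj : ∀ e < L, ∀ e' < L, κ e = κ e' → e = e') {m : ℕ} (hm : m ≤ L)
    (g : ℕ → ℚ) (hg : ∀ e e', κ e ≤ κ e' → g e ≤ g e') {X : Finset ℕ} (hX : X ⊆ range L)
    (hXm : X.card = m) :
    ∑ e ∈ (range L).filter (fun e => rk κ L e < m), g e ≤ ∑ e ∈ X, g e := by
  classical
  set Nr := (range L).filter (fun e => rk κ L e < m) with hN
  have hc : Nr.card = m := card_rk_lt κ L hinj hm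
  have hpt : ∀ e ∈ Nr \ X, ∀ e' ∈ X \ Nr, g e ≤ g e' := by
    intro e he e' he'
    rw [Finset.mem_sdiff] at he he'
    have h1 := (Finset.mem_filter.1 he.1).2
    have h2 : ¬ rk κ L e' < m := fun h => he'.2 (Finset.mem_filter.2 ⟨hX he'.1, h⟩)
    apply hg
    by_contra hlt
    have := rk_lt_rk κ L (mem_range.1 (hX he'.1)) (not_le.1 hlt)
    omega
  have hcard : (Nr \ X).card = (X \ Nr).card := by
    have h1 := Finset.card_sdiff_add_card_inter Nr X
    have h2 := Finset.card_sdiff_add_card_inter X Nr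
    rw [Finset.inter_comm] at h2
    omega
  have h3 : ∑ e ∈ Nr \ X, g e ≤ ∑ e ∈ X \ Nr, g e := by
    rcases (Nr \ X).eq_empty_or_nonempty with h0 | h0
    · rw [h0, Finset.card_empty] at hcard
      have : X \ Nr = ∅ := Finset.card_eq_zero.1 hcard.symm
      rw [h0, this]
    · have hne := h0
      obtain ⟨e0, he0, hmax⟩ := Finset.exists_max_image (Nr \ X) g h0
      refine (Finset.sum_le_card_nsmul _ _ (g e0) hmax).trans ?_
      rw [hcard]
      exact Finset.card_nsmul_le_sum _ _ _ (fun e' he' => hpt e0 he0 e' he')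
  have e1 := Finset.sum_inter_add_sum_sdiff Nr X g
  have e2 := Finset.sum_inter_add_sum_sdiff X Nr g
  rw [← e1, ← e2, Finset.inter_comm X Nr]
  linarith

end rank

/-! ### the nearest copies -/

/-- order of the copies seen from `j` -/
def copyKey (r : RI) (Y : List ℕ) (j e : ℕ) : ℚ ×ₗ ℕ ×ₗ ℕ :=
  toLex (riD r (Y.getD e 0) j, toLex (Y.getD e 0, e))

theorem copyKey_lt (r : RI) (Y : List ℕ) (j e' e : ℕ) :
    copyKey r Y j e' < copyKey r Y j e ↔
      (riD r (Y.getD e' 0) j < riD r (Y.getD e 0) j ∨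
        (riD r (Y.getD e' 0) j = riD r (Y.getD e 0) j ∧
          (Y.getD e' 0 < Y.getD e 0 ∨ (Y.getD e' 0 = Y.getD e 0 ∧ e' < e)))) := by
  unfold copyKey
  rw [Prod.Lex.toLex_lt_toLex]
  simp only [Prod.Lex.toLex_lt_toLex]

theorem copyKey_inj {r : RI} {Y : List ℕ} {j e e' : ℕ} (h : copyKey r Y j e = copyKey r Y j e') :
    e = e' := by
  unfold copyKey at h
  have h1 := toLex.injective h
  rw [Prod.mk.injEq] at h1
  have h2 := toLex.injective h1.2
  rw [Prod.mk.injEq] at h2
  exact h2.2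

theorem copyKey_le_imp {r : RI} {Y : List ℕ} {j e e' : ℕ} (h : copyKey r Y j e ≤ copyKey r Y j e') :
    riD r (Y.getD e 0) j ≤ riD r (Y.getD e' 0) j := by
  by_contra hlt
  exact absurd ((copyKey_lt r Y j e' e).2 (Or.inl (not_le.1 hlt))) (not_lt.2 h)

/-- does `e'` come before `e`? -/
def nBefore (r : RI) (Y : List ℕ) (j e' e : ℕ) : Bool :=
  decide (riD r (Y.getD e' 0) j < riD r (Y.getD e 0) j ∨
        (riD r (Y.getD e' 0) j = riD r (Y.getD e 0) j ∧
          (Y.getD e' 0 < Y.getD e 0 ∨ (Y.getD e' 0 = Y.getD e 0 ∧ e' < e))))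

/-- copy `e` is one of the `m` nearest copies of client `j` -/
def near (r : RI) (Y : List ℕ) (m j e : ℕ) : Bool :=
  decide (((List.range Y.length).filter (fun e' => nBefore r Y j e' e)).length < m)

theorem near_iff (r : RI) (Y : List ℕ) (m j e : ℕ) :
    near r Y m j e = true ↔ rk (copyKey r Y j) Y.length e < m := by
  unfold near rk
  rw [decide_eq_true_eq]
  have : ((List.range Y.length).filter (fun e' => nBefore r Y j e' e)).length
      = ((range Y.length).filter (fun e' => copyKey r Y j e' < copyKey r Y j e)).card := by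
    rw [← List.toFinset_card_of_nodup (List.Nodup.filter _ List.nodup_range)]
    congr 1
    ext x
    simp only [List.mem_toFinset, List.mem_filter, List.mem_range, Finset.mem_filter,
      Finset.mem_range, nBefore, decide_eq_true_eq, copyKey_lt]
  rw [this]

theorem near_card (r : RI) (Y : List ℕ) {m : ℕ} (hm : m ≤ Y.length) (j : ℕ) :
    ((range Y.length).filter (fun e => near r Y m j e = true)).card = m := by
  have : (range Y.length).filter (fun e => near r Y m j e = true)
      = (range Y.length).filter (fun e => rk (copyKey r Y j) Y.length e < m) := by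
    ext e; simp only [Finset.mem_filter, near_iff]
  rw [this]
  exact card_rk_lt _ _ (fun e _ e' _ h => copyKey_inj h) hm

theorem near_min (r : RI) (Y : List ℕ) {m : ℕ} (hm : m ≤ Y.length) (j : ℕ) {X : Finset ℕ}
    (hX : X ⊆ range Y.length) (hXm : m ≤ X.card) (hd : ∀ e ∈ X, 0 ≤ riD r (Y.getD e 0) j) :
    ∑ e ∈ (range Y.length).filter (fun e => near r Y m j e = true), riD r (Y.getD e 0) j
      ≤ ∑ e ∈ X, riD r (Y.getD e 0) j := by
  obtain ⟨X', hX', hc⟩ := Finset.exists_subset_card_eq hXm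
  have : (range Y.length).filter (fun e => near r Y m j e = true)
      = (range Y.length).filter (fun e => rk (copyKey r Y j) Y.length e < m) := by
    ext e; simp only [Finset.mem_filter, near_iff]
  rw [this]
  refine (rk_sum_le (copyKey r Y j) Y.length (fun e _ e' _ h => copyKey_inj h) hm
    (fun e => riD r (Y.getD e 0) j) (fun e e' h => copyKey_le_imp h) (hX'.trans hX) hc).trans ?_
  exact Finset.sum_le_sum_of_subset_of_nonneg hX' (fun e he _ => hd e he)

theorem ptf_near {γ : Type} [PTCode γ] {r : γ → RI} {Y : γ → List ℕ} {m j e : γ → ℕ}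
    (hr : PTF r) (hY : PTF Y) (hm : PTF m) (hj : PTF j) (he : PTF e) :
    PTF (fun c => near (r c) (Y c) (m c) (j c) (e c)) := by
  refine PTPred.toPTF (PTPred.natLt (PTU.toPTF (PTU.length (PTF.filter
    (l := fun c => List.range (Y c).length) (p := fun c e' => nBefore (r c) (Y c) (j c) e' (e c))
    (PTF.range (PTU.length hY)) ?_))) hm)
  have h1 : PTF (fun x : γ × ℕ => x.1) := PTF.fst
  have hr' : PTF (fun x : γ × ℕ => r x.1) := PTF.comp hr h1
  have hj' : PTF (fun x : γ × ℕ => j x.1) := PTF.comp hj h1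
  have he' : PTF (fun x : γ × ℕ => e x.1) := PTF.comp he h1
  have hY' : PTF (fun x : γ × ℕ => Y x.1) := PTF.comp hY h1
  have y1 : PTF (fun x : γ × ℕ => (Y x.1).getD x.2 0) := ptf_getDN PTF.snd hY' (PTF.const _)
  have y2 : PTF (fun x : γ × ℕ => (Y x.1).getD (e x.1) 0) := ptf_getDN he' hY' (PTF.const _)
  have d1 : PTF (fun x : γ × ℕ => riD (r x.1) ((Y x.1).getD x.2 0) (j x.1)) := ptf_riD hr' y1 hj'
  have d2 : PTF (fun x : γ × ℕ => riD (r x.1) ((Y x.1).getD (e x.1) 0) (j x.1)) :=
    ptf_riD hr' y2 hj'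
  exact PTPred.toPTF (PTPred.or (PTPred.ratLt d1 d2) (PTPred.and (PTPred.ratEq d1 d2)
    (PTPred.or (PTPred.natLt y1 y2) (PTPred.and (PTPred.natEq y1 y2) (PTPred.natLt PTF.snd he')))))

end Crest.Agent.R310
end

-- ▼ part R310/FracSpec

/-!
# R310, block FRAC: `fracY` is a nearly optimal fractional solution
-/

set_option linter.dupNamespace false
set_option autoImplicit false

namespace Crest.Agent.R310

open Crest.Agent.Lib.PT Crest.Agent.Lib.PT.Arith Crest.LogicCS.KMedian Finset

/-! ### the run as a sequence -/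

/-- facility of round `t` -/
def rA (r : RI) (k : ℕ) (A : ℚ) (t : ℕ) : ℕ := fBest r k A (fHist r k A t)
/-- mask of round `t` -/
def rM (r : RI) (k : ℕ) (A : ℚ) (t : ℕ) : List Bool := fMask r k A (fHist r k A t) (rA r k A t)
/-- accepted clients of round `t` -/
def rS (r : RI) (k : ℕ) (A : ℚ) (t : ℕ) : Finset ℕ :=
  (range (riN r)).filter (fun j => (rM r k A t).getD j false = true)

theorem fHist_getD (r : RI) (k : ℕ) (A : ℚ) {t s : ℕ} (hs : s < t) :
    (fHist r k A t).getD s (0, []) = (rA r k A s, rM r k A s) := by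
  induction t with
  | zero => omega
  | succ t ih =>
    rw [fHist_succ]
    unfold fStep
    have hl := length_fHist r k A t
    rcases Nat.lt_or_ge s t with h | h
    · rw [List.getD_append _ _ _ _ (by omega)]
      exact ih h
    · have : s = t := by omega
      subst this
      rw [List.getD_append_right _ _ _ _ (by omega), hl]
      simp [rA, rM]

theorem hFac_fHist (r : RI) (k : ℕ) (A : ℚ) {t s : ℕ} (hs : s < t) :
    hFac (fHist r k A t) s = rA r k A s := by
  unfold hFac; rw [fHist_getD r k A hs]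

theorem hAcc_fHist (r : RI) (k : ℕ) (A : ℚ) {t s : ℕ} (hs : s < t) (j : ℕ) :
    hAcc (fHist r k A t) s j = (rM r k A s).getD j false := by
  unfold hAcc; rw [fHist_getD r k A hs]

theorem rM_getD (r : RI) (k : ℕ) (A : ℚ) (s : ℕ) {j : ℕ} (hj : j < riN r) :
    (rM r k A s).getD j false = decide (riC r j = true ∧ riD r (rA r k A s) j ≤ A ∧
      hR0 r k A (fHist r k A s) * riD r (rA r k A s) j / A < hRJ k (fHist r k A s) j) := by
  unfold rM fMask
  rw [List.getD_eq_getElem?_getD, List.getElem?_map, List.getElem?_range hj]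
  rfl

theorem mem_rS {r : RI} {k : ℕ} {A : ℚ} {s j : ℕ} :
    j ∈ rS r k A s ↔ j < riN r ∧ (rM r k A s).getD j false = true := by
  unfold rS; rw [Finset.mem_filter, Finset.mem_range]

theorem hCov_eq (r : RI) (k : ℕ) (A : ℚ) (t : ℕ) {j : ℕ} (hj : j < riN r) :
    hCov (fHist r k A t) j = ((range t).filter (fun s => j ∈ rS r k A s)).card := by
  unfold hCov
  rw [length_fHist, Finset.card_filter]
  refine Finset.sum_congr rfl fun s hs => ?_
  rw [hAcc_fHist r k A (mem_range.1 hs)]
  by_cases h : (rM r k A s).getD j false = true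
  · rw [if_pos h, if_pos (mem_rS.2 ⟨hj, h⟩)]
  · rw [if_neg h, if_neg (fun h' => h (mem_rS.1 h').2)]

theorem hRJ_eq (r : RI) (k : ℕ) (A : ℚ) (t : ℕ) {j : ℕ} (hj : j < riN r) :
    hRJ k (fHist r k A t) j = FracM.RJ k (rS r k A) t j := by
  unfold hRJ FracM.RJ
  rw [length_fHist, hCov_eq r k A t hj]

theorem hCost_eq (r : RI) (k : ℕ) (A : ℚ) (t : ℕ) :
    hCost r (fHist r k A t) = FracM.costH (riD r) (rA r k A) (rS r k A) t := by
  unfold hCost FracM.costH
  rw [length_fHist]
  refine Finset.sum_congr rfl fun s hs => ?_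
  rw [hFac_fHist r k A (mem_range.1 hs), rS, Finset.sum_filter]
  refine Finset.sum_congr rfl fun j _ => ?_
  rw [hAcc_fHist r k A (mem_range.1 hs)]

theorem hR0_eq (r : RI) (k : ℕ) (A : ℚ) (t : ℕ) :
    hR0 r k A (fHist r k A t) = FracM.R0 (riD r) k A (rA r k A) (rS r k A) t := by
  unfold hR0 FracM.R0
  rw [length_fHist, hCost_eq]

/-- set of clients, as natural numbers -/
def cliS (r : RI) : Finset ℕ := (range (riN r)).filter (fun j => riC r j = true)

theorem fGain_eq (r : RI) (k : ℕ) (A : ℚ) (t i : ℕ) :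
    fGain r k A (fHist r k A t) i = FracM.gain (cliS r) (riD r) A (FracM.RJ k (rS r k A) t)
      (FracM.R0 (riD r) k A (rA r k A) (rS r k A) t) i := by
  unfold fGain FracM.gain cliS
  rw [Finset.sum_filter]
  refine Finset.sum_congr rfl fun j hj => ?_
  rw [hRJ_eq r k A t (mem_range.1 hj), hR0_eq]
  by_cases h1 : riC r j = true
  · by_cases h2 : riD r i j ≤ A
    · rw [if_pos ⟨h1, h2⟩, if_pos h1, if_pos h2]
    · rw [if_neg (fun h => h2 h.2), if_pos h1, if_neg h2]
  · rw [if_neg (fun h => h1 h.1), if_neg h1]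

theorem rS_eq (r : RI) (k : ℕ) (A : ℚ) (t : ℕ) :
    rS r k A t = FracM.acc (cliS r) (riD r) A (FracM.RJ k (rS r k A) t)
      (FracM.R0 (riD r) k A (rA r k A) (rS r k A) t) (rA r k A t) := by
  ext j
  unfold FracM.acc cliS
  rw [mem_rS, Finset.mem_filter, Finset.mem_filter, mem_range]
  constructor
  · rintro ⟨h1, h2⟩
    rw [rM_getD r k A t h1, decide_eq_true_eq, hR0_eq, hRJ_eq r k A t h1] at h2
    exact ⟨⟨h1, h2.1⟩, h2.2⟩
  · rintro ⟨⟨h1, h2⟩, h3⟩
    refine ⟨h1, ?_⟩
    rw [rM_getD r k A t h1, decide_eq_true_eq, hR0_eq, hRJ_eq r k A t h1]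
    exact ⟨h2, h3⟩

theorem run_raw (r : RI) (k : ℕ) (A : ℚ) (M : ℕ) :
    FracM.Run (cliS r) (riD r) k A (rA r k A) (rS r k A) (facL r).toFinset M where
  S_eq := fun t _ => rS_eq r k A t
  opt := by
    intro t _ i hi
    rw [← fGain_eq, ← fGain_eq]
    exact fBest_max r k A _ (List.mem_toFinset.1 hi)

/-! ### distances -/

theorem riD_nonneg {I : Instance} (hI : I.Valid) (i j : ℕ) : 0 ≤ riD (raw I) i j := by
  by_cases hi : i < I.N
  · by_cases hj : j < I.N
    · have := riD_raw I ⟨i, hi⟩ ⟨j, hj⟩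
      simp only at this
      rw [this]
      by_cases hij : (⟨i, hi⟩ : Fin I.N) = ⟨j, hj⟩
      · rw [hij, hI.1]
      · exact (hI.2.1 _ _ hij).le
    · have : riD (raw I) i j = 0 := by
        unfold riD
        apply List.getD_eq_default
        rw [List.getD_eq_getElem?_getD]
        unfold raw
        simp only [List.getElem?_map]
        rcases h : (List.finRange I.N)[i]? with _ | x
        · simp
        · simp; omega
      rw [this]
  · have : riD (raw I) i j = 0 := by
      unfold riD raw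
      simp only
      have h1 : ((List.finRange I.N).map fun i => (List.finRange I.N).map fun j => I.dist i j).getD i []
          = [] := List.getD_eq_default _ _ (by simp; omega)
      rw [h1]; rfl
    rw [this]

theorem fracM_le_length {r : RI} {k q : ℕ} {A : ℚ} (hk : 1 ≤ k) :
    fracM r k q ≤ (fracY r k q A).length := by
  rw [length_fracY]
  unfold fracM fracT
  have h1 : q * (q - 1) ≤ q ^ 2 := by
    rw [pow_two]; exact Nat.mul_le_mul_left _ (Nat.sub_le _ _)
  have h2 : k ≤ k ^ 2 := by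
    rw [pow_two]; exact Nat.le_mul_of_pos_left _ hk
  calc 2 * k * riN r ^ 2 * q * (q - 1) = 2 * k * riN r ^ 2 * (q * (q - 1)) := by ring
    _ ≤ 2 * k ^ 2 * riN r ^ 2 * q ^ 2 := by
      apply Nat.mul_le_mul _ h1
      apply Nat.mul_le_mul_right
      omega


/-- **The fractional solution.** -/
theorem fracY_spec {I : Instance} (hI : I.Valid) {k q : ℕ} (hk : 1 ≤ k) {A : ℚ}
    (hA : 0 < A) {O : Finset (Fin I.N)} (hO : O ⊆ I.facilities) (hO0 : O.Nonempty)
    (hOk : O.card ≤ k) (hOc : I.cost O ≤ A) :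
    ∑ j ∈ cliS (raw I), ∑ e ∈ (range (fracY (raw I) k q A).length).filter
        (fun e => near (raw I) (fracY (raw I) k q A) (fracM (raw I) k q) j e = true),
        riD (raw I) ((fracY (raw I) k q A).getD e 0) j
      ≤ ((2 * k * riN (raw I) ^ 2 * q * (q + 1) : ℕ) : ℚ) * A := by
  classical
  set r := raw I with hr
  set Y := fracY r k q A with hY
  have hN1 : 1 ≤ riN r := by
    rw [riN_raw]
    obtain ⟨x, _⟩ := hO0
    exact Nat.one_le_iff_ne_zero.2 (fun h => by have := x.2; omega)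
  have hd : ∀ i j, 0 ≤ riD r i j := fun i j => riD_nonneg hI i j
  -- competitor
  have hassign : ∀ j : ℕ, ∃ o : ℕ, j ∈ cliS r → (o ∈ O.image (fun x : Fin I.N => (x : ℕ)) ∧
      ∀ hj : j < I.N, riD r o j = O.inf' hO0 (I.dist ⟨j, hj⟩)) := by
    intro j
    by_cases hj : j < I.N
    · obtain ⟨o, ho, he⟩ := Finset.exists_mem_eq_inf' hO0 (I.dist ⟨j, hj⟩)
      refine ⟨o, fun _ => ⟨Finset.mem_image_of_mem _ ho, fun hj' => ?_⟩⟩
      rw [he]
      have := riD_raw I o ⟨j, hj⟩
      simp only at this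
      rw [hr, this, hI.2.2.1]
    · refine ⟨0, fun h => ?_⟩
      unfold cliS at h
      rw [Finset.mem_filter, mem_range, riN_raw] at h
      exact absurd h.1 hj
  choose o ho using hassign
  have hcl : ∀ j ∈ cliS r, j < I.N := by
    intro j h
    unfold cliS at h
    rw [Finset.mem_filter, mem_range, riN_raw] at h
    exact h.1
  have hOF : O.image (fun x : Fin I.N => (x : ℕ)) ⊆ (facL r).toFinset := by
    intro x hx
    obtain ⟨y, hy, rfl⟩ := Finset.mem_image.1 hx
    exact List.mem_toFinset.2 (mem_facL.2 ⟨y.2, hO hy⟩)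
  have hcost : ∑ j ∈ cliS r, riD r (o j) j ≤ A := by
    refine le_trans (le_of_eq ?_) hOc
    unfold Instance.cost
    rw [dif_pos hO0]
    have h1 : ∑ j ∈ cliS r, riD r (o j) j = ∑ j ∈ cliS r,
        (if hj : j < I.N then O.inf' hO0 (I.dist ⟨j, hj⟩) else 0) := by
      refine Finset.sum_congr rfl fun j hj => ?_
      rw [dif_pos (hcl j hj)]
      exact (ho j hj).2 (hcl j hj)
    rw [h1]
    unfold cliS
    rw [Finset.sum_filter, riN_raw, Finset.sum_range, ← Finset.sum_filter]
    have hf : Finset.univ.filter (fun j : Fin I.N => riC r j = true) = I.clients := by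
      ext j; rw [hr]; simp [riC_raw]
    rw [hf]
    refine Finset.sum_congr rfl fun j _ => ?_
    rw [dif_pos j.2]
  have hn : (cliS r).card ≤ riN r := by
    unfold cliS
    refine (Finset.card_filter_le _ _).trans ?_
    rw [Finset.card_range]
  obtain ⟨h1, h2⟩ := (run_raw r k A (2 * k ^ 2 * riN r ^ 2 * q ^ 2)).spec (n := riN r) (q := q)
    hk hn hN1 hA hd (O.image (fun x : Fin I.N => (x : ℕ))) hOF
    ((Finset.card_image_le).trans hOk) o (fun j hj => (ho j hj).1) hcost
  have hlen : Y.length = 2 * k ^ 2 * riN r ^ 2 * q ^ 2 := by rw [hY, length_fracY]; rfl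
  have hYget : ∀ s < Y.length, Y.getD s 0 = rA r k A s := by
    intro s hs
    rw [hY, fracY]
    rw [hlen] at hs
    have h3 := fHist_getD r k A (t := fracT r k q) (s := s) hs
    rw [List.getD_eq_getElem?_getD, List.getElem?_map]
    rw [List.getD_eq_getElem?_getD] at h3
    have hl := length_fHist r k A (fracT r k q)
    have hs' : s < (fHist r k A (fracT r k q)).length := by rw [hl]; exact hs
    rw [List.getElem?_eq_getElem hs'] at h3 ⊢
    simp only [Option.getD_some, Option.map_some] at h3 ⊢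
    rw [h3]
  have hmain : ∀ j ∈ cliS r, ∑ e ∈ (range Y.length).filter
        (fun e => near r Y (fracM r k q) j e = true), riD r (Y.getD e 0) j
      ≤ ∑ e ∈ (range Y.length).filter (fun e => j ∈ rS r k A e), riD r (Y.getD e 0) j := by
    intro j hj
    refine near_min r Y (fracM_le_length hk) j (Finset.filter_subset _ _) ?_ (fun e _ => hd _ _)
    have := h1 j hj
    rw [hlen]
    exact this
  refine (Finset.sum_le_sum hmain).trans ?_
  refine le_trans (le_of_eq ?_) h2
  unfold FracM.costH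
  rw [← hlen]
  have e1 : ∀ j ∈ cliS r, ∑ e ∈ (range Y.length).filter (fun e => j ∈ rS r k A e),
      riD r (Y.getD e 0) j = ∑ e ∈ range Y.length, if j ∈ rS r k A e then riD r (rA r k A e) j else 0 := by
    intro j _
    rw [Finset.sum_filter]
    refine Finset.sum_congr rfl fun e he => ?_
    rw [hYget e (mem_range.1 he)]
  rw [Finset.sum_congr rfl e1, Finset.sum_comm]
  refine Finset.sum_congr rfl fun e _ => ?_
  rw [← Finset.sum_filter]
  refine Finset.sum_congr ?_ (fun _ _ => rfl)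
  ext j
  rw [Finset.mem_filter]
  constructor
  · exact fun h => h.2
  · intro h
    refine ⟨?_, h⟩
    rw [rS_eq] at h
    exact Finset.mem_of_mem_filter j h


end Crest.Agent.R310
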