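import Crest.Agent.R310.LocalSearchCode
import Crest.Agent.R310.EvalPT
import Crest.Agent.R310.FracSpec
import Crest.Agent.R310.TightSmallCode

-- ▼ part R310/Grid
section

/-!
# R310, block GRID: guessing the optimal cost and the slack

* `gridL q r` : constant-length list of rational guesses `A` (built on the local search);
* `exists_slack` : the number `s` with `OPT_{k-s} ≤ (1+e) OPT_k < OPT_{k-s-1}`;
* `kmedian_of_guess` : the final assembly, where the candidate generator may use a guess `A` with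
  `OPT ≤ A ≤ (1+1/q) OPT` and the slack `s`.
-/

set_option linter.dupNamespace false
set_option autoImplicit false

namespace Crest.Agent.R310

open Crest.Agent.Lib.PT Crest.Agent.Lib.PT.Arith Crest.LogicCS.KMedian

/-- the constant factors of the grid -/
def gridC (q : ℕ) : List ℚ := (List.range (3 * q + 1)).map (fun i => (1 + 1 / (q : ℚ)) ^ i / 6)

/-- guesses of the optimal cost -/
def gridL (q : ℕ) (r : RI) : List ℚ := (gridC q).map (fun a => costL r (localS r) * a)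

theorem ptf_gridL (q : ℕ) {γ : Type} [PTCode γ] {r : γ → RI} (hr : PTF r) :
    PTF (fun c => gridL q (r c)) := by
  refine PTF.map (l := fun _ => gridC q) (f := fun c a => costL (r c) (localS (r c)) * a)
    (PTF.const _) ?_
  have hr' : PTF (fun p : γ × ℚ => r p.1) := PTF.comp hr PTF.fst
  exact PTF.ratMul (ptf_costL hr' (ptf_localS hr')) PTF.snd


/-- some guess is right up to the factor `1 + 1/q` -/
theorem exists_guess {q : ℕ} (hq : 0 < q) {I : Instance} (hI : I.Valid) {O : Finset (Fin I.N)}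
    (hO : O ⊆ I.facilities) (hO0 : O.Nonempty) (hOk : O.card ≤ I.k)
    (hopt : ∀ S : Finset (Fin I.N), S ⊆ I.facilities → S.Nonempty → S.card ≤ I.k →
      I.cost O ≤ I.cost S) (hpos : 0 < I.cost O) :
    ∃ A ∈ gridL q (raw I), I.cost O ≤ A ∧ A ≤ (1 + 1 / (q : ℚ)) * I.cost O := by
  obtain ⟨l1, l2, l3⟩ := localS_spec hI
  set c := localS (raw I) with hc
  have hk : 1 ≤ I.k := hI.2.2.2.2.1
  have hne : c ≠ [] := by
    intro h
    rw [h] at l1
    simp at l1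
    omega
  have hlt : ∀ i ∈ c, i < I.N := fun i hi => (l2 i hi).1
  set L := I.cost (setOf I c) with hL
  have hLO : L ≤ 6 * I.cost O := l3 O hO hO0 hOk
  have hOL : I.cost O ≤ L := by
    refine hopt _ ?_ (setOf_nonempty hne hlt) ((card_setOf_le _ _).trans l1.le)
    intro i hi
    obtain ⟨h1, h2⟩ := l2 i (mem_setOf.1 hi)
    exact h2
  have hLpos : 0 < L := lt_of_lt_of_le hpos hOL
  have hqr : (0 : ℚ) < q := by exact_mod_cast hq
  set b : ℚ := 1 + 1 / (q : ℚ) with hb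
  have hb1 : 1 ≤ b := by rw [hb]; linarith [div_pos one_pos hqr]
  have hb0 : 0 < b := by linarith
  -- the last guess is large enough
  have hlast : I.cost O ≤ L * (b ^ (3 * q) / 6) := by
    have h2 : (2 : ℚ) ≤ b ^ q := by
      have := one_add_mul_le_pow (a := 1 / (q : ℚ)) (by linarith [div_pos one_pos hqr]) q
      rw [mul_one_div_cancel hqr.ne'] at this
      rw [hb]; linarith
    have h8 : (8 : ℚ) ≤ b ^ (3 * q) := by
      have e : b ^ (3 * q) = (b ^ q) ^ 3 := by rw [mul_comm, pow_mul]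
      rw [e]
      have := pow_le_pow_left₀ (by norm_num : (0 : ℚ) ≤ 2) h2 3
      norm_num at this
      exact this
    nlinarith
  have hex : ∃ i, I.cost O ≤ L * (b ^ i / 6) := ⟨3 * q, hlast⟩
  classical
  obtain ⟨i, hi, hmin⟩ : ∃ i, I.cost O ≤ L * (b ^ i / 6) ∧ ∀ j < i, ¬ I.cost O ≤ L * (b ^ j / 6) :=
    ⟨Nat.find hex, Nat.find_spec hex, fun j hj => Nat.find_min hex hj⟩
  have hile : i ≤ 3 * q := by
    by_contra h
    push Not at h
    exact hmin _ h hlast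
  refine ⟨L * (b ^ i / 6), ?_, hi, ?_⟩
  · unfold gridL gridC
    rw [List.mem_map]
    refine ⟨b ^ i / 6, List.mem_map.2 ⟨i, List.mem_range.2 (by omega), rfl⟩, ?_⟩
    rw [← hc, costL_raw hne hlt]
  · rcases Nat.eq_zero_or_pos i with h0 | h0
    · rw [h0, pow_zero]
      have : L * (1 / 6) ≤ I.cost O := by linarith
      nlinarith
    · obtain ⟨j, rfl⟩ : ∃ j, i = j + 1 := ⟨i - 1, by omega⟩
      have := hmin j (by omega)
      push Not at this
      rw [pow_succ]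
      nlinarith

/-- opening more does not cost more -/
theorem cost_anti {I : Instance} {S T : Finset (Fin I.N)} (h : S ⊆ T) (hS : S.Nonempty) :
    I.cost T ≤ I.cost S := by
  unfold Instance.cost
  rw [dif_pos hS, dif_pos (hS.mono h)]
  exact Finset.sum_le_sum fun j _ => Finset.inf'_mono _ h hS

/-- a set of exactly `k` facilities with the smallest cost -/
theorem exists_opt {I : Instance} (hI : I.Valid) :
    ∃ O : Finset (Fin I.N), O ⊆ I.facilities ∧ O.card = I.k ∧ O.Nonempty ∧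
      ∀ S : Finset (Fin I.N), S ⊆ I.facilities → S.Nonempty → S.card ≤ I.k →
        I.cost O ≤ I.cost S := by
  classical
  have hk : 1 ≤ I.k := hI.2.2.2.2.1
  have hkF : I.k ≤ I.facilities.card := hI.2.2.2.2.2
  set P := I.facilities.powerset.filter (fun S => S.card = I.k) with hP
  have hPne : P.Nonempty := by
    obtain ⟨S, hS, hc⟩ := Finset.exists_subset_card_eq hkF
    exact ⟨S, by rw [hP, Finset.mem_filter, Finset.mem_powerset]; exact ⟨hS, hc⟩⟩
  obtain ⟨O, hO, hmin⟩ := Finset.exists_min_image P (fun S => I.cost S) hPne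
  rw [hP, Finset.mem_filter, Finset.mem_powerset] at hO
  refine ⟨O, hO.1, hO.2, Finset.card_pos.1 (by omega), fun S hS hS0 hSk => ?_⟩
  obtain ⟨T, hST, hTF, hTc⟩ := Finset.exists_subsuperset_card_eq hS hSk hkF
  refine (hmin T ?_).trans (cost_anti hST hS0)
  rw [hP, Finset.mem_filter, Finset.mem_powerset]
  exact ⟨hTF, hTc⟩

/-- the slack `s`: the largest `s` with `OPT_{k-s} ≤ (1+e) OPT_k` -/
theorem exists_slack {I : Instance} (hI : I.Valid) {e : ℚ} (he : 0 ≤ e) {O : Finset (Fin I.N)}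
    (hO : O ⊆ I.facilities) (hO0 : O.Nonempty) (hOk : O.card = I.k) (hcost : 0 ≤ I.cost O) :
    ∃ s : ℕ, s < I.k ∧
      (∃ Q : Finset (Fin I.N), Q ⊆ I.facilities ∧ Q.Nonempty ∧ Q.card + s ≤ I.k ∧
        I.cost Q ≤ (1 + e) * I.cost O) ∧
      ∀ S' : Finset (Fin I.N), S' ⊆ I.facilities → S'.Nonempty → S'.card + (s + 1) ≤ I.k →
        (1 + e) * I.cost O < I.cost S' := by
  classical
  have hk : 1 ≤ I.k := hI.2.2.2.2.1
  let p : ℕ → Prop := fun s => ∃ Q : Finset (Fin I.N), Q ⊆ I.facilities ∧ Q.Nonempty ∧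
    Q.card + s ≤ I.k ∧ I.cost Q ≤ (1 + e) * I.cost O
  have hp0 : p 0 := ⟨O, hO, hO0, by omega, by nlinarith⟩
  have hfin : ∀ s, p s → s < I.k := by
    rintro s ⟨Q, _, hQ0, hQk, _⟩
    have := Finset.card_pos.2 hQ0
    omega
  obtain ⟨s, hs, hmax⟩ : ∃ s, p s ∧ ∀ t, p t → t ≤ s := by
    have hex : ∃ n, ∀ t, p t → t ≤ n := ⟨I.k, fun t ht => (hfin t ht).le⟩
    refine ⟨Nat.find hex, ?_, Nat.find_spec hex⟩
    by_contra hcon
    have h1 := Nat.find_spec hex
    rcases Nat.eq_zero_or_pos (Nat.find hex) with h0 | h0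
    · rw [h0] at hcon; exact hcon hp0
    · refine Nat.find_min hex (m := Nat.find hex - 1) (by omega) (fun t ht => ?_)
      have h2 := h1 t ht
      rcases Nat.lt_or_ge t (Nat.find hex) with h3 | h3
      · omega
      · have : t = Nat.find hex := le_antisymm h2 h3
        rw [this] at ht; exact absurd ht hcon
  refine ⟨s, hfin s hs, hs, fun S' hS' hS0 hSk => ?_⟩
  by_contra hcon
  push Not at hcon
  have := hmax (s + 1) ⟨S', hS', hS0, hSk, hcon⟩
  omega

/-- the generator with guesses -/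
def guessGen (q : ℕ) (G : RI × ℚ × ℕ → List (List ℕ)) (r : RI) : List (List ℕ) :=
  localS r :: (gridL q r).flatMap (fun A => (List.range (riN r)).flatMap (fun s => G (r, A, s)))

theorem ptf_guessGen (q : ℕ) {G : RI × ℚ × ℕ → List (List ℕ)} (hG : PTF G) :
    PTF (guessGen q G) := by
  unfold guessGen
  refine PTF.listCons (ptf_localS PTF.id) ?_
  refine PTF.flatMap (l := fun r => gridL q r)
    (f := fun r A => (List.range (riN r)).flatMap (fun s => G (r, A, s))) (ptf_gridL q PTF.id) ?_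
  refine PTF.flatMap (γ := RI × ℚ) (l := fun p => List.range (riN p.1))
    (f := fun p s => G (p.1, p.2, s)) (PTF.range (ptu_riN PTF.fst)) ?_
  exact PTF.comp (g := G) (f := fun x : (RI × ℚ) × ℕ => (x.1.1, x.1.2, x.2)) hG (by fun_prop)

/-- **Final assembly.**  `G (raw I, A, s)` must contain a good candidate whenever `A` is a guess of
the optimal cost (up to the factor `1 + 1/q`) and `s` is the slack. -/
theorem kmedian_of_guess (γ : ℝ) (hγ : 0 ≤ γ) (q : ℕ) (hq : 0 < q) (e : ℚ) (he : 0 ≤ e)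
    (G : RI × ℚ × ℕ → List (List ℕ)) (hG : PTF G)
    (hgood : ∀ I : Instance, I.Valid → ∀ O Q : Finset (Fin I.N), ∀ (A : ℚ) (s : ℕ),
      O ⊆ I.facilities → O.card = I.k → O.Nonempty →
      (∀ S : Finset (Fin I.N), S ⊆ I.facilities → S.Nonempty → S.card ≤ I.k →
        I.cost O ≤ I.cost S) →
      0 < I.cost O → I.cost O ≤ A → A ≤ (1 + 1 / (q : ℚ)) * I.cost O →
      s < I.k → Q ⊆ I.facilities → Q.Nonempty → Q.card + s ≤ I.k →
      I.cost Q ≤ (1 + e) * I.cost O →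
      (∀ S' : Finset (Fin I.N), S' ⊆ I.facilities → S'.Nonempty → S'.card + (s + 1) ≤ I.k →
        (1 + e) * I.cost O < I.cost S') →
      ∃ c ∈ G (raw I, A, s), c ≠ [] ∧ c.length ≤ I.k ∧
        (∀ i ∈ c, ∃ hi : i < I.N, (⟨i, hi⟩ : Fin I.N) ∈ I.facilities) ∧
        (I.cost (setOf I c) : ℝ) ≤ γ * (I.cost O : ℝ)) :
    ∃ f : List Bool → List Bool, Crest.Complexity.PolyTime f ∧
      ∀ I : Instance, I.Valid →
        I.opened f ⊆ I.facilities ∧ (I.opened f).Nonempty ∧ (I.opened f).card ≤ I.k ∧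
        ∀ S : Finset (Fin I.N), S ⊆ I.facilities → S.Nonempty → S.card ≤ I.k →
          (I.cost (I.opened f) : ℝ) ≤ γ * (I.cost S : ℝ) := by
  refine kmedian_of_candidates γ (guessGen q G) (ptf_guessGen q hG) (fun I hI => ?_)
  obtain ⟨O, hO, hOk, hO0, hopt⟩ := exists_opt hI
  have hk : 1 ≤ I.k := hI.2.2.2.2.1
  rcases (cost_nonneg hI O).eq_or_lt with hz | hpos
  · obtain ⟨l1, l2, l3⟩ := localS_spec hI
    refine ⟨localS (raw I), by simp [guessGen], ?_, l1.le, l2, fun S hS hS0 hSk => ?_⟩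
    · intro h; rw [h] at l1; simp at l1; omega
    · have h1 := l3 O hO hO0 hOk.le
      rw [← hz, mul_zero] at h1
      have h2 : (0 : ℝ) ≤ γ * (I.cost S : ℝ) :=
        mul_nonneg hγ (by exact_mod_cast cost_nonneg hI S)
      have h3 : ((I.cost (setOf I (localS (raw I))) : ℚ) : ℝ) ≤ 0 := by exact_mod_cast h1
      linarith
  · obtain ⟨A, hA, hA1, hA2⟩ := exists_guess hq hI hO hO0 hOk.le hopt hpos
    obtain ⟨s, hs, ⟨Q, hQ, hQ0, hQk, hQc⟩, hstab⟩ := exists_slack hI he hO hO0 hOk hpos.le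
    obtain ⟨c, hc, hc0, hck, hcF, hcost⟩ := hgood I hI O Q A s hO hOk hO0 hopt hpos hA1 hA2 hs hQ
      hQ0 hQk hQc hstab
    refine ⟨c, ?_, hc0, hck, hcF, fun S hS hS0 hSk => ?_⟩
    · unfold guessGen
      refine List.mem_cons_of_mem _ (List.mem_flatMap.2 ⟨A, hA, List.mem_flatMap.2 ⟨s, ?_, hc⟩⟩)
      rw [List.mem_range, riN_raw]
      have h1 : I.facilities.card ≤ I.N := by
        have := Finset.card_le_univ I.facilities
        simpa using this
      have h2 : I.k ≤ I.facilities.card := hI.2.2.2.2.2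
      omega
    · refine hcost.trans (mul_le_mul_of_nonneg_left ?_ hγ)
      exact_mod_cast hopt S hS hS0 hSk

end Crest.Agent.R310
end

-- ▼ part R310/Assembly

/-!
# R310, block B8: final assembly (helper167)

The statement S0482 from the blocks STRUCT (restricted instance and tight list), FRAC, GRAN, RES.
-/

set_option linter.dupNamespace false
set_option autoImplicit false

namespace Crest.Agent.R310

open Crest.Agent.Lib.PT Crest.Agent.Lib.PT.Arith Crest.LogicCS.KMedian Finset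

/-- cost of the fractional solution with copies `Y`, mass `1/m` (times `m`) -/
def fsum (r : RI) (Y : List ℕ) (m : ℕ) : ℚ :=
  ∑ j ∈ cliS r, ∑ e ∈ (range Y.length).filter (fun e => near r Y m j e = true),
    riD r (Y.getD e 0) j

/-- number of committed locations -/
def nFull (r : RI) (Y : List ℕ) (M : ℕ) : ℕ :=
  ((range (riN r)).filter (fun v => M ≤ Y.count v)).card

/-- the hypotheses on a guess: `A` is a guess of the optimum, `s` is the slack -/
structure Guess (I : Instance) (x : ℚ) (O Q : Finset (Fin I.N)) (A : ℚ) (s : ℕ) : Prop where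
  hI : I.Valid
  hO : O ⊆ I.facilities
  hOk : O.card = I.k
  hO0 : O.Nonempty
  opt : ∀ S : Finset (Fin I.N), S ⊆ I.facilities → S.Nonempty → S.card ≤ I.k → I.cost O ≤ I.cost S
  pos : 0 < I.cost O
  le : I.cost O ≤ A
  ge : A ≤ (1 + x) * I.cost O
  hs : s < I.k
  hQ : Q ⊆ I.facilities
  hQ0 : Q.Nonempty
  hQk : Q.card + s ≤ I.k
  hQc : I.cost Q ≤ (1 + x) * I.cost O
  stab : ∀ S' : Finset (Fin I.N), S' ⊆ I.facilities → S'.Nonempty → S'.card + (s + 1) ≤ I.k →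
        (1 + x) * I.cost O < I.cost S'

/-- block STRUCT + NUMBERS: restricted instance `rr r A s`, tight list `tt r A s` -/
def StructOK (x : ℚ) (tt : RI → ℚ → ℕ → List ℕ) (rr : RI → ℚ → ℕ → RI) (C1 C2 : ℕ) : Prop :=
  ∀ (I : Instance) (O Q : Finset (Fin I.N)) (A : ℚ) (s : ℕ), Guess I x O Q A s → 1 ≤ s →
    ∃ (F' : Finset (Fin I.N)) (k' : ℕ), F' ⊆ I.facilities ∧ 1 ≤ k' ∧ k' ≤ F'.card ∧
      rr (raw I) A s = raw { I with facilities := F', k := k' } ∧
      (∃ Q' : Finset (Fin I.N), Q' ⊆ F' ∧ Q'.Nonempty ∧ Q'.card + s ≤ I.k ∧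
        I.cost Q' ≤ (1 + 5 * x) * A) ∧
      (tt (raw I) A s).Nodup ∧ (∀ g ∈ tt (raw I) A s, g < I.N) ∧
      I.k ≤ (tt (raw I) A s).length + C1 * s ∧
      ∀ (m : ℕ) (Y : List ℕ), 0 < m → m ≤ Y.length →
        (∀ y ∈ Y, ∃ hy : y < I.N, (⟨y, hy⟩ : Fin I.N) ∈ F') →
        fsum (raw I) Y m ≤ m * (2 * A) →
        ((tt (raw I) A s).map (fun g => m - min m (Y.count g))).sum ≤ C2 * s * m

/-- block GRAN -/
def GranOK (x : ℚ) (C1 C2 : ℕ) (gran : RI → List ℕ → ℕ → List ℕ → ℕ → List (List ℕ))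
    (M s0 C3 : ℕ) : Prop :=
  ∀ (I : Instance) (Y : List ℕ) (m : ℕ) (Gt : List ℕ) (s : ℕ) (A : ℚ), I.Valid →
    (∀ y ∈ Y, y < I.N) → 0 < m → m ≤ Y.length → Gt.Nodup → (∀ g ∈ Gt, g < I.N) → s0 ≤ s → 0 < A →
    fsum (raw I) Y m ≤ m * A →
    (Gt.map (fun g => m - min m (Y.count g))).sum ≤ C2 * s * m →
    Y.length ≤ m * (Gt.length + C1 * s) →
    ∃ Yc ∈ gran (raw I) Y m Gt s, (∀ y ∈ Yc, y ∈ Y) ∧ M ≤ Yc.length ∧
      fsum (raw I) Yc M ≤ M * ((1 + x) * A) ∧
      (Yc.length : ℚ) * m ≤ M * (Y.length + x * s * m) ∧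
      Gt.length ≤ (Gt.filter (fun g => decide (M ≤ Yc.count g))).length + C3 * s

/-- block RES -/
def ResOK (x : ℚ) (M C3 : ℕ) (res : RI → List ℕ → ℚ → List (List ℕ)) (s0 : ℕ) : Prop :=
  ∀ (I : Instance) (Y : List ℕ) (s : ℕ) (G : ℚ), I.Valid → I.clients.Nonempty → M ≤ Y.length →
    (∀ y ∈ Y, ∃ hy : y < I.N, (⟨y, hy⟩ : Fin I.N) ∈ I.facilities) →
    0 < G → s0 ≤ s → s < I.k →
    ((Y.length : ℚ) ≤ M * (I.k - s + 2 * x * s)) →
    I.k ≤ nFull (raw I) Y M + C3 * s →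
    (1 + 2 / Real.exp 1) * (fsum (raw I) Y M : ℝ) ≤ M * (G : ℝ) →
    ∃ c ∈ res (raw I) Y G, c ≠ [] ∧ c.length ≤ I.k ∧
      (∀ i ∈ c, ∃ hi : i < I.N, (⟨i, hi⟩ : Fin I.N) ∈ I.facilities) ∧
      (I.cost (setOf I c) : ℝ) ≤ (1 + 10 * x) * G

/-! ### the generator -/

section gen

variable (x : ℚ) (q1 B0 S0 : ℕ) (g : ℚ) (tt : RI → ℚ → ℕ → List ℕ) (rr : RI → ℚ → ℕ → RI)
  (gran : RI → List ℕ → ℕ → List ℕ → ℕ → List (List ℕ)) (res : RI → List ℕ → ℚ → List (List ℕ))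

/-- number of centres of the comparator -/
def kk (r : RI) (s : ℕ) : ℕ := min (riK r) (riN r) - s

/-- accuracy of the fractional solution -/
def qq (r : RI) : ℕ := q1 * (riN r + 1)

/-- fine fractional solution -/
def fineY (r : RI) (A : ℚ) (s : ℕ) : List ℕ :=
  fracY (rr r A s) (kk r s) (qq q1 r) ((1 + 5 * x) * A)

/-- granularity of the fine solution -/
def fineM (r : RI) (s : ℕ) : ℕ := fracM r (kk r s) (qq q1 r)

/-- the generator for large slack -/
def big (r : RI) (A : ℚ) (s : ℕ) : List (List ℕ) :=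
  (gran r (fineY x q1 rr r A s) (fineM q1 r s) (tt r A s) s).flatMap
    (fun Yc => res r Yc (g * (1 + 9 * x) * A))

/-- the whole generator -/
def gen (p : RI × ℚ × ℕ) : List (List ℕ) :=
  if p.2.2 < S0 then Gsmall B0 p.1 else big x q1 g tt rr gran res p.1 p.2.1 p.2.2

end gen

/-! ### correctness for large slack -/

theorem fsum_nonneg {I : Instance} (hI : I.Valid) (Y : List ℕ) (m : ℕ) : 0 ≤ fsum (raw I) Y m :=
  Finset.sum_nonneg fun _ _ => Finset.sum_nonneg fun _ _ => riD_nonneg hI _ _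

theorem k_le_N {I : Instance} (hI : I.Valid) : I.k ≤ I.N := by
  have h1 : I.facilities.card ≤ I.N := by
    have := Finset.card_le_univ I.facilities
    simpa using this
  exact hI.2.2.2.2.2.trans h1

theorem kk_raw {I : Instance} (hI : I.Valid) (s : ℕ) : kk (raw I) s = I.k - s := by
  unfold kk
  rw [riK_raw, riN_raw, min_eq_left (k_le_N hI)]

theorem clients_nonempty {I : Instance} {O : Finset (Fin I.N)} (h : 0 < I.cost O) :
    I.clients.Nonempty := by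
  rw [Finset.nonempty_iff_ne_empty]
  intro h0
  unfold Instance.cost at h
  rw [h0] at h
  split_ifs at h <;> simp at h

theorem filter_le_nFull {I : Instance} {Gt : List ℕ} (hnd : Gt.Nodup) (hlt : ∀ g ∈ Gt, g < I.N)
    (Y : List ℕ) (M : ℕ) :
    (Gt.filter (fun g => decide (M ≤ Y.count g))).length ≤ nFull (raw I) Y M := by
  unfold nFull
  rw [riN_raw, ← List.toFinset_card_of_nodup (hnd.filter _)]
  apply Finset.card_le_card
  intro g hg
  rw [List.mem_toFinset, List.mem_filter] at hg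
  rw [Finset.mem_filter, Finset.mem_range]
  exact ⟨hlt g hg.1, by simpa using hg.2⟩

theorem arith_len {Ycl m M Yl k s x : ℚ} (hm : 0 < m) (hM : 0 < M)
    (h1 : Yl ≤ m * (k - s + 1)) (h2 : Ycl * m ≤ M * (Yl + x * s * m)) (hxs : 1 ≤ x * s) :
    Ycl ≤ M * (k - s + 2 * x * s) := by
  have h4 : Yl + x * s * m ≤ (k - s + 2 * x * s) * m := by nlinarith
  have h3 : Ycl * m ≤ (M * (k - s + 2 * x * s)) * m := by
    refine h2.trans ?_
    calc M * (Yl + x * s * m) ≤ M * ((k - s + 2 * x * s) * m) :=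
          mul_le_mul_of_nonneg_left h4 hM.le
      _ = _ := by ring
  exact le_of_mul_le_mul_right h3 hm

theorem arith_frac {kc n q x B : ℚ} (hkc : 0 ≤ kc) (hq : 0 ≤ q) (hB : 0 ≤ B)
    (hq3 : 3 ≤ q * x) (hx : 0 < x) (hx1 : x ≤ 1 / 2) :
    2 * kc * n ^ 2 * q * (q + 1) * B ≤ 2 * kc * n ^ 2 * q * (q - 1) * ((1 + x) * B) := by
  have h4 : q + 1 ≤ (q - 1) * (1 + x) := by nlinarith
  have h5 : (0 : ℚ) ≤ 2 * kc * n ^ 2 * q := by positivity
  calc 2 * kc * n ^ 2 * q * (q + 1) * B ≤ (2 * kc * n ^ 2 * q) * ((q - 1) * (1 + x)) * B :=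
        mul_le_mul_of_nonneg_right (mul_le_mul_of_nonneg_left h4 h5) hB
    _ = _ := by ring

theorem arith_c1 {x A : ℚ} (hx : 0 < x) (hx1 : 1000 * x ≤ 1) (hA : 0 ≤ A) :
    (1 + x) * ((1 + 5 * x) * A) ≤ 2 * A := by
  have : (1 + x) * ((1 + 5 * x) * A) = ((1 + x) * (1 + 5 * x)) * A := by ring
  rw [this]
  exact mul_le_mul_of_nonneg_right (by nlinarith) hA

theorem arith_c2 {x A : ℚ} (hx : 0 < x) (hx1 : 1000 * x ≤ 1) (hA : 0 ≤ A) :
    (1 + x) * ((1 + x) * ((1 + 5 * x) * A)) ≤ (1 + 9 * x) * A := by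
  have h1 : (1 + x) * ((1 + x) * ((1 + 5 * x) * A)) = ((1 + x) * ((1 + x) * (1 + 5 * x))) * A := by
    ring
  rw [h1]
  refine mul_le_mul_of_nonneg_right ?_ hA
  have h2 : x * x ≤ x * (1 / 1000) := mul_le_mul_of_nonneg_left (by linarith) hx.le
  have h3 : x * x * x ≤ x * x := by nlinarith [mul_pos hx hx]
  nlinarith

theorem arith_len1 {kc n q : ℕ} (h : kc + 1 ≤ q) :
    2 * kc ^ 2 * n ^ 2 * q ^ 2 ≤ 2 * kc * n ^ 2 * q * (q - 1) * (kc + 1) := by
  have h1 : kc * q ≤ (q - 1) * (kc + 1) := by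
    obtain ⟨p, hp⟩ : ∃ p, q = p + 1 := ⟨q - 1, by omega⟩
    rw [hp]
    simp only [Nat.add_sub_cancel]
    have : kc ≤ p := by omega
    nlinarith
  calc 2 * kc ^ 2 * n ^ 2 * q ^ 2 = 2 * kc * n ^ 2 * q * (kc * q) := by ring
    _ ≤ 2 * kc * n ^ 2 * q * ((q - 1) * (kc + 1)) := Nat.mul_le_mul_left _ h1
    _ = _ := by ring

theorem big_good {x : ℚ} {q1 : ℕ} {g : ℚ} {tt : RI → ℚ → ℕ → List ℕ} {rr : RI → ℚ → ℕ → RI}
    {gran : RI → List ℕ → ℕ → List ℕ → ℕ → List (List ℕ)} {res : RI → List ℕ → ℚ → List (List ℕ)}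
    {C1 C2 C3 M s0 s1 : ℕ} (hx : 0 < x) (hx1 : 1000 * x ≤ 1) (hq1 : 3 ≤ q1 * x)
    (hg : 1 + 2 / Real.exp 1 ≤ (g : ℝ))
    (hS : StructOK x tt rr C1 C2) (hM : 0 < M) (hG : GranOK x C1 C2 gran M s0 C3)
    (hR : ResOK x M (C1 + C3) res s1)
    {I : Instance} {O Q : Finset (Fin I.N)} {A : ℚ} {s : ℕ} (h : Guess I x O Q A s)
    (hs0 : s0 ≤ s) (hs1 : s1 ≤ s) (hs : 1 ≤ s) (hxs : 1 ≤ x * s) :
    ∃ c ∈ big x q1 g tt rr gran res (raw I) A s, c ≠ [] ∧ c.length ≤ I.k ∧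
      (∀ i ∈ c, ∃ hi : i < I.N, (⟨i, hi⟩ : Fin I.N) ∈ I.facilities) ∧
      (I.cost (setOf I c) : ℝ) ≤ (1 + 10 * x) * ((g * (1 + 9 * x) * A : ℚ) : ℝ) := by
  obtain ⟨F', k', hF', hk1, hkF, hrr, ⟨Q', hQF, hQ0, hQk, hQc⟩, hnd, hlt, hcount, hnum⟩ :=
    hS I O Q A s h hs
  have hI := h.hI
  have hA : 0 < A := h.pos.trans_le h.le
  set I' : Instance := { I with facilities := F', k := k' } with hI'
  have hI'v : I'.Valid :=
    ⟨hI.1, hI.2.1, hI.2.2.1, hI.2.2.2.1, hk1, hkF⟩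
  set kc := I.k - s with hkc
  have hkc1 : 1 ≤ kc := by have := h.hs; omega
  have hNk : I.k ≤ I.N := k_le_N hI
  set q := qq q1 (raw I) with hq
  have hqdef : q = q1 * (I.N + 1) := by rw [hq]; unfold qq; rw [riN_raw]
  have hq1' : 3000 ≤ q1 := by
    have h1 : (3000 : ℚ) ≤ q1 := by nlinarith
    exact_mod_cast h1
  have hqN : I.N + 1 ≤ q := by rw [hqdef]; nlinarith
  have hq3 : (3 : ℚ) ≤ q * x := by
    rw [hqdef]; push_cast
    have : (1 : ℚ) ≤ I.N + 1 := by linarith [(Nat.cast_nonneg I.N : (0 : ℚ) ≤ (I.N : ℚ))]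
    nlinarith
  set Y := fineY x q1 rr (raw I) A s with hY
  have hYdef : Y = fracY (raw I') kc q ((1 + 5 * x) * A) := by
    rw [hY]; unfold fineY; rw [hrr, kk_raw hI]
  set m := fineM q1 (raw I) s with hm
  have hmdef : m = 2 * kc * I.N ^ 2 * q * (q - 1) := by
    rw [hm]; unfold fineM fracM; rw [kk_raw hI, riN_raw]
  have hN1 : 1 ≤ I.N := by have := h.hs; omega
  have hmpos : 0 < m := by
    rw [hmdef]
    have h1 : 0 < q - 1 := by omega
    have h2 : 0 < q := by omega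
    positivity
  have hYlen : Y.length = 2 * kc ^ 2 * I.N ^ 2 * q ^ 2 := by
    rw [hYdef, length_fracY]; unfold fracT
    rw [show riN (raw I') = I.N from riN_raw I']
  have hqc : ((q - 1 : ℕ) : ℚ) = (q : ℚ) - 1 := by
    rw [Nat.cast_sub (by omega)]; norm_num
  have hmq : (m : ℚ) = 2 * kc * I.N ^ 2 * q * ((q : ℚ) - 1) := by
    rw [hmdef]; push_cast; rw [hqc]
  have hlen1 : Y.length ≤ m * (kc + 1) := by
    rw [hYlen, hmdef]
    exact arith_len1 (by omega)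
  have hmlen : m ≤ Y.length := by
    have h1 : fracM (raw I') kc q ≤ Y.length := by rw [hYdef]; exact fracM_le_length hkc1
    have h2 : m = fracM (raw I') kc q := by
      rw [hmdef]; unfold fracM; rw [show riN (raw I') = I.N from riN_raw I']
    omega
  -- entries
  have hYF : ∀ y ∈ Y, ∃ hy : y < I.N, (⟨y, hy⟩ : Fin I.N) ∈ F' := by
    intro y hy
    have hne : facL (raw I') ≠ [] := by
      obtain ⟨o, ho⟩ := hQ0
      intro h0
      have h1 : (o : ℕ) ∈ facL (raw I') := mem_facL.2 ⟨o.2, hQF ho⟩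
      rw [h0] at h1; simp at h1
    rw [hYdef] at hy
    obtain ⟨hy1, hy2⟩ := mem_facL.1 (fracY_mem (raw I') hne kc q _ y hy)
    exact ⟨hy1, hy2⟩
  -- cost
  have hA' : 0 < (1 + 5 * x) * A := by positivity
  have hfs : fsum (raw I) Y m ≤ m * ((1 + x) * ((1 + 5 * x) * A)) := by
    have h1 := fracY_spec hI'v (k := kc) (q := q) hkc1 hA' (O := Q') hQF hQ0
      (by rw [hkc]; omega) (show I'.cost Q' ≤ _ from hQc)
    have h2 : fsum (raw I) Y m = ∑ j ∈ cliS (raw I'), ∑ e ∈ (range (fracY (raw I') kc q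
        ((1 + 5 * x) * A)).length).filter (fun e => near (raw I') (fracY (raw I') kc q
        ((1 + 5 * x) * A)) (fracM (raw I') kc q) j e = true),
        riD (raw I') ((fracY (raw I') kc q ((1 + 5 * x) * A)).getD e 0) j := by
      have h3 : m = fracM (raw I') kc q := by
        rw [hmdef]; unfold fracM; rw [show riN (raw I') = I.N from riN_raw I']
      rw [← hYdef, ← h3]
      rfl
    rw [h2]
    refine h1.trans ?_
    rw [show riN (raw I') = I.N from riN_raw I', hmq]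
    push_cast
    exact arith_frac (Nat.cast_nonneg _) (Nat.cast_nonneg _) hA'.le hq3 hx (by linarith)
  have hmq0 : (0 : ℚ) < m := by exact_mod_cast hmpos
  have hfs2 : fsum (raw I) Y m ≤ m * (2 * A) := by
    refine hfs.trans (mul_le_mul_of_nonneg_left ?_ hmq0.le)
    exact arith_c1 hx hx1 hA.le
  have hnum' := hnum m Y hmpos hmlen hYF hfs2
  -- GRAN
  obtain ⟨Yc, hYc, hYcY, hYcM, hYcf, hYcl, hYcG⟩ := hG I Y m (tt (raw I) A s) s
    ((1 + x) * ((1 + 5 * x) * A)) hI (fun y hy => (hYF y hy).1) hmpos hmlen hnd hlt hs0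
    (by positivity) hfs hnum'
    (hlen1.trans (Nat.mul_le_mul_left _ (by have := h.hs; omega)))
  have hMq : (0 : ℚ) < M := by exact_mod_cast hM
  -- RES
  have hYcl2 : (Yc.length : ℚ) ≤ M * (I.k - s + 2 * x * s) := by
    have h1 : (Y.length : ℚ) ≤ m * ((kc : ℚ) + 1) := by exact_mod_cast hlen1
    have h2 : (kc : ℚ) = I.k - s := by rw [hkc, Nat.cast_sub h.hs.le]
    rw [h2] at h1
    exact arith_len hmq0 hMq h1 hYcl hxs
  have hGpos : 0 < g * (1 + 9 * x) * A := by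
    have hg0 : (0 : ℝ) < g := lt_of_lt_of_le (by positivity) hg
    have hg1 : (0 : ℚ) < g := by exact_mod_cast hg0
    positivity
  have hYc2 : fsum (raw I) Yc M ≤ M * ((1 + 9 * x) * A) := by
    refine hYcf.trans (mul_le_mul_of_nonneg_left ?_ hMq.le)
    exact arith_c2 hx hx1 hA.le
  obtain ⟨c, hc, hc0, hck, hcF, hcc⟩ := hR I Yc s (g * (1 + 9 * x) * A) hI
    (clients_nonempty h.pos) hYcM
    (fun y hy => by
      obtain ⟨h1, h2⟩ := hYF y (hYcY y hy)
      exact ⟨h1, hF' h2⟩) hGpos hs1 h.hs hYcl2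
    (by
      have := filter_le_nFull (I := I) hnd hlt Yc M
      have e : (C1 + C3) * s = C1 * s + C3 * s := by ring
      omega)
    (by
      have h1 : (fsum (raw I) Yc M : ℝ) ≤ M * ((1 + 9 * x) * A) := by exact_mod_cast hYc2
      have h2 : (0 : ℝ) ≤ (fsum (raw I) Yc M : ℝ) := by exact_mod_cast fsum_nonneg hI Yc M
      have hg0 : (0 : ℝ) < g := lt_of_lt_of_le (by positivity) hg
      calc (1 + 2 / Real.exp 1) * (fsum (raw I) Yc M : ℝ) ≤ g * (fsum (raw I) Yc M : ℝ) :=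
            mul_le_mul_of_nonneg_right hg h2
        _ ≤ g * (M * ((1 + 9 * x) * A)) := mul_le_mul_of_nonneg_left h1 hg0.le
        _ = M * ((g * (1 + 9 * x) * A : ℚ) : ℝ) := by push_cast; ring)
  refine ⟨c, ?_, hc0, hck, hcF, hcc⟩
  unfold big
  exact List.mem_flatMap.2 ⟨Yc, hYc, hc⟩

/-! ### poly-time -/

section ptf

variable {x : ℚ} {q1 B0 S0 : ℕ} {g : ℚ} {tt : RI → ℚ → ℕ → List ℕ} {rr : RI → ℚ → ℕ → RI}
  {gran : RI → List ℕ → ℕ → List ℕ → ℕ → List (List ℕ)} {res : RI → List ℕ → ℚ → List (List ℕ)}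

/-- poly-time of the block STRUCT -/
def StructPT (tt : RI → ℚ → ℕ → List ℕ) (rr : RI → ℚ → ℕ → RI) : Prop :=
  PTF (fun p : RI × ℚ × ℕ => tt p.1 p.2.1 p.2.2) ∧ PTF (fun p : RI × ℚ × ℕ => rr p.1 p.2.1 p.2.2)

/-- poly-time of the block GRAN -/
def GranPT (gran : RI → List ℕ → ℕ → List ℕ → ℕ → List (List ℕ)) : Prop :=
  ∀ (r : RI × ℚ × ℕ → RI) (Y : RI × ℚ × ℕ → List ℕ) (m : RI × ℚ × ℕ → ℕ)
    (Gt : RI × ℚ × ℕ → List ℕ) (s : RI × ℚ × ℕ → ℕ), PTF r → PTF Y → PTU m → PTF Gt → PTF s →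
    PTF (fun c => gran (r c) (Y c) (m c) (Gt c) (s c))

/-- poly-time of the block RES -/
def ResPT (res : RI → List ℕ → ℚ → List (List ℕ)) : Prop :=
  ∀ (r : (RI × ℚ × ℕ) × List ℕ → RI) (Y : (RI × ℚ × ℕ) × List ℕ → List ℕ)
    (G : (RI × ℚ × ℕ) × List ℕ → ℚ), PTF r → PTF Y → PTF G → PTF (fun c => res (r c) (Y c) (G c))

theorem ptu_kk : PTU (fun p : RI × ℚ × ℕ => kk p.1 p.2.2) := by
  have h1 : PTU (fun p : RI × ℚ × ℕ => min (riK p.1) (riN p.1)) :=
    PTF.natMinUn (ptf_riK PTF.fst) (ptu_riN PTF.fst)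
  have h2 : PTU (fun p : RI × ℚ × ℕ => min p.2.2 (riN p.1)) :=
    PTF.natMinUn (PTF.comp PTF.snd PTF.snd) (ptu_riN PTF.fst)
  refine PTU.of_eq (PTU.sub h1 h2) (fun p => ?_)
  unfold kk
  omega

theorem ptu_qq (q1 : ℕ) : PTU (fun p : RI × ℚ × ℕ => qq q1 p.1) :=
  PTU.mul (PTU.const q1) (PTU.succ (ptu_riN PTF.fst))

theorem ptf_fineY (x : ℚ) (q1 : ℕ) (hrr : PTF (fun p : RI × ℚ × ℕ => rr p.1 p.2.1 p.2.2)) :
    PTF (fun p : RI × ℚ × ℕ => fineY x q1 rr p.1 p.2.1 p.2.2) := by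
  unfold fineY
  exact ptf_fracY hrr ptu_kk (ptu_qq q1)
    (PTF.ratMul (PTF.const (1 + 5 * x)) (PTF.comp PTF.fst PTF.snd))

theorem ptu_fineM (q1 : ℕ) : PTU (fun p : RI × ℚ × ℕ => fineM q1 p.1 p.2.2) :=
  ptu_fracM PTF.fst ptu_kk (ptu_qq q1)

theorem ptf_big (hS : StructPT tt rr) (hG : GranPT gran) (hR : ResPT res) :
    PTF (fun p : RI × ℚ × ℕ => big x q1 g tt rr gran res p.1 p.2.1 p.2.2) := by
  unfold big
  refine PTF.flatMap (l := fun p : RI × ℚ × ℕ => gran p.1 (fineY x q1 rr p.1 p.2.1 p.2.2)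
    (fineM q1 p.1 p.2.2) (tt p.1 p.2.1 p.2.2) p.2.2)
    (f := fun p Yc => res p.1 Yc (g * (1 + 9 * x) * p.2.1)) ?_ ?_
  · exact hG (fun p => p.1) (fun p => fineY x q1 rr p.1 p.2.1 p.2.2) (fun p => fineM q1 p.1 p.2.2)
      (fun p => tt p.1 p.2.1 p.2.2) (fun p => p.2.2) PTF.fst (ptf_fineY x q1 hS.2) (ptu_fineM q1)
      hS.1 (PTF.comp PTF.snd PTF.snd)
  · exact hR (fun p => p.1.1) (fun p => p.2) (fun p => g * (1 + 9 * x) * p.1.2.1)
      (PTF.comp PTF.fst PTF.fst) PTF.snd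
      (PTF.ratMul (PTF.const (g * (1 + 9 * x))) (PTF.comp PTF.fst (PTF.comp PTF.snd PTF.fst)))

theorem ptf_gen (hS : StructPT tt rr) (hG : GranPT gran) (hR : ResPT res) :
    PTF (gen x q1 B0 S0 g tt rr gran res) := by
  unfold gen
  exact PTF.ite (PTPred.natLt (PTF.comp PTF.snd PTF.snd) (PTF.const S0)) (ptf_Gsmall B0 PTF.fst)
    (ptf_big hS hG hR)

end ptf

/-! ### the final theorem -/

theorem arith_final {x g ε γ OPT A : ℝ} (hx : 0 < x) (hx1 : 1000 * x ≤ 1) (hε : 50 * x ≤ ε)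
    (hγ1 : 1 ≤ γ) (hγ2 : γ ≤ 2) (hg : g ≤ γ + x) (hg0 : 0 ≤ g) (hO : 0 ≤ OPT)
    (hA : A ≤ (1 + x) * OPT) :
    (1 + 10 * x) * (g * (1 + 9 * x) * A) ≤ (γ + ε) * OPT := by
  have hx2 : x * x ≤ x / 1000 := by nlinarith
  have h1 : (1 + 10 * x) * (g * (1 + 9 * x) * A) ≤
      (1 + 10 * x) * (g * (1 + 9 * x) * ((1 + x) * OPT)) := by
    gcongr
  refine h1.trans ?_
  have h2 : (1 + 10 * x) * (g * (1 + 9 * x) * ((1 + x) * OPT)) =
      (g * ((1 + 10 * x) * (1 + 9 * x) * (1 + x))) * OPT := by ring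
  rw [h2]
  refine mul_le_mul_of_nonneg_right ?_ hO
  have h3 : (1 + 10 * x) * (1 + 9 * x) * (1 + x) ≤ 1 + 21 * x := by
    have h4 : x * x * x ≤ x * x := by nlinarith [mul_pos hx hx]
    nlinarith
  calc g * ((1 + 10 * x) * (1 + 9 * x) * (1 + x)) ≤ (γ + x) * (1 + 21 * x) :=
        mul_le_mul hg h3 (by positivity) (by linarith)
    _ ≤ γ + ε := by nlinarith

/-- **S0482 from the blocks.** -/
theorem s0482_of_blocks
    (hS : ∀ x : ℚ, 0 < x → 1000 * x ≤ 1 → ∃ tt rr C1 C2, StructOK x tt rr C1 C2 ∧ StructPT tt rr)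
    (hG : ∀ (x : ℚ) (C1 C2 : ℕ), 0 < x → 1000 * x ≤ 1 →
      ∃ gran M s0 C3, 0 < M ∧ GranOK x C1 C2 gran M s0 C3 ∧ GranPT gran)
    (hR : ∀ (x : ℚ) (M C : ℕ), 0 < x → 1000 * x ≤ 1 → 0 < M →
      ∃ res s1, ResOK x M C res s1 ∧ ResPT res)
    (ε : ℝ) (hε : 0 < ε) :
    ∃ f : List Bool → List Bool, Crest.Complexity.PolyTime f ∧
      ∀ I : Instance, I.Valid →
        I.opened f ⊆ I.facilities ∧ (I.opened f).Nonempty ∧ (I.opened f).card ≤ I.k ∧
        ∀ S : Finset (Fin I.N), S ⊆ I.facilities → S.Nonempty → S.card ≤ I.k →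
          (I.cost (I.opened f) : ℝ) ≤ (1 + 2 / Real.exp 1 + ε) * (I.cost S : ℝ) := by
  -- constants
  obtain ⟨x, hx, hx1, hxε⟩ : ∃ x : ℚ, 0 < x ∧ 1000 * x ≤ 1 ∧ 50 * (x : ℝ) ≤ ε := by
    obtain ⟨y, hy0, hy1⟩ := exists_rat_btwn (show (0 : ℝ) < min (1 / 1000) (ε / 50) by positivity)
    have h1 := hy1.trans_le (min_le_left _ _)
    have h2 := hy1.trans_le (min_le_right _ _)
    refine ⟨y, by exact_mod_cast hy0, ?_, by linarith⟩
    have h3 : (1000 : ℝ) * (y : ℝ) ≤ 1 := by linarith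
    exact_mod_cast h3
  have hxr : (0 : ℝ) < x := by exact_mod_cast hx
  have hx1r : 1000 * (x : ℝ) ≤ 1 := by exact_mod_cast hx1
  have he : (0 : ℝ) < Real.exp 1 := Real.exp_pos 1
  obtain ⟨g, hg1, hg2⟩ := exists_rat_btwn
    (show 1 + 2 / Real.exp 1 < 1 + 2 / Real.exp 1 + (x : ℝ) by linarith)
  obtain ⟨tt, rr, C1, C2, hS1, hS2⟩ := hS x hx hx1
  obtain ⟨gran, M, s0, C3, hM, hG1, hG2⟩ := hG x C1 C2 hx hx1
  obtain ⟨res, s1, hR1, hR2⟩ := hR x M (C1 + C3) hx hx1 hM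
  obtain ⟨q1, hq1⟩ := exists_nat_ge (3 / x)
  obtain ⟨s2, hs2⟩ := exists_nat_ge (1 / x)
  obtain ⟨q0, hq0⟩ := exists_nat_ge (1 / x)
  set S0 := max (max s0 s1) (max s2 1) with hS0
  obtain ⟨B0, hB0⟩ := exists_nat_ge ((3 + 1 / (x * (x / 32)) + 24 * 6 / x) * (S0 + 1))
  have hq0pos : 0 < q0 := by
    have h1 : (0 : ℚ) < q0 := lt_of_lt_of_le (by positivity) hq0
    exact_mod_cast h1
  have hq0x : 1 / (q0 : ℚ) ≤ x := by
    rw [div_le_iff₀ (by exact_mod_cast hq0pos)]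
    rw [div_le_iff₀ hx] at hq0
    linarith
  have hγ0 : (0 : ℝ) < 2 / Real.exp 1 := by positivity
  have hγ2 : 1 + 2 / Real.exp 1 ≤ 2 := by
    have h1 : (2 : ℝ) ≤ Real.exp 1 := by
      have := Real.add_one_le_exp (1 : ℝ)
      linarith
    have : 2 / Real.exp 1 ≤ 1 := (div_le_one he).2 h1
    linarith
  refine kmedian_of_guess (1 + 2 / Real.exp 1 + ε) (by positivity) q0 hq0pos x hx.le
    (gen x q1 B0 S0 g tt rr gran res) (ptf_gen hS2 hG2 hR2) ?_
  intro I hI O Q A s hO hOk hO0 hopt hpos hA1 hA2 hs hQ hQ0 hQk hQc hstab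
  have hA2' : A ≤ (1 + x) * I.cost O := by
    refine hA2.trans (mul_le_mul_of_nonneg_right (by linarith) hpos.le)
  have hposr : (0 : ℝ) ≤ I.cost O := by exact_mod_cast hpos.le
  by_cases hsS : s < S0
  · -- small slack
    obtain ⟨c, hc, hc0, hck, hcF, hcc⟩ := Gsmall_spec x (x / 32) hx (by positivity) (by linarith) s B0
      (by
        refine le_trans ?_ hB0
        have h1 : (s : ℚ) + 1 ≤ (S0 : ℚ) + 1 := by
          have : (s : ℚ) ≤ S0 := by exact_mod_cast hsS.le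
          linarith
        exact mul_le_mul_of_nonneg_left h1 (by positivity)) hI hO hOk hpos
      (fun S' h1 h2 h3 => hstab S' h1 h2 h3)
    refine ⟨c, ?_, hc0, hck, hcF, ?_⟩
    · unfold gen
      rw [if_pos hsS]; exact hc
    · have h1 : (I.cost (setOf I c) : ℝ) ≤ (1 + 32 * (x / 32)) * (I.cost O : ℝ) := by
        exact_mod_cast hcc
      refine h1.trans (mul_le_mul_of_nonneg_right ?_ hposr)
      have : (1 : ℝ) + 32 * (x / 32) = 1 + x := by ring
      rw [this]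
      linarith
  · -- large slack
    push Not at hsS
    have hh : Guess I x O Q A s :=
      ⟨hI, hO, hOk, hO0, hopt, hpos, hA1, hA2', hs, hQ, hQ0, hQk, hQc, hstab⟩
    have e1 : s0 ≤ s := le_trans (le_trans (le_max_left _ _) (le_max_left _ _)) hsS
    have e2 : s1 ≤ s := le_trans (le_trans (le_max_right _ _) (le_max_left _ _)) hsS
    have e3 : s2 ≤ s := le_trans (le_trans (le_max_left _ _) (le_max_right _ _)) hsS
    have e4 : 1 ≤ s := le_trans (le_trans (le_max_right _ _) (le_max_right _ _)) hsS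
    have hxs : 1 ≤ x * s := by
      have h1 : (s2 : ℚ) ≤ s := by exact_mod_cast e3
      have h2 : 1 / x ≤ (s : ℚ) := hs2.trans h1
      rw [div_le_iff₀ hx] at h2
      linarith
    have hq1x : 3 ≤ (q1 : ℚ) * x := by
      rw [div_le_iff₀ hx] at hq1
      exact hq1
    obtain ⟨c, hc, hc0, hck, hcF, hcc⟩ := big_good (g := g) hx hx1 hq1x hg1.le hS1 hM hG1 hR1 hh
      e1 e2 e4 hxs
    refine ⟨c, ?_, hc0, hck, hcF, hcc.trans ?_⟩
    · unfold gen
      rw [if_neg (not_lt.2 hsS)]; exact hc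
    · push_cast
      exact arith_final hxr hx1r hxε (by linarith) hγ2 hg2.le
        (le_trans (by positivity) hg1.le) hposr (by exact_mod_cast hA2')

end Crest.Agent.R310
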