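import Crest.Agent.R310.GranInst
import Crest.Agent.R310.GranDef
import Crest.Agent.R310.Assembly

-- ▼ part R310/GranGeo
section

/-!
# R310, block GRAN, part 7: geometry of the nearest copies
-/

set_option linter.dupNamespace false
set_option linter.unusedSectionVars false
set_option autoImplicit false

namespace Crest.Agent.R310.Gran

open Finset

namespace Par

variable {c : Par}

theorem key_lt {j e' e : ℕ} : copyKey c.r c.Y j e' < copyKey c.r c.Y j e ↔
    (riD c.r (c.loc e') j < riD c.r (c.loc e) j ∨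
        (riD c.r (c.loc e') j = riD c.r (c.loc e) j ∧
          (c.loc e' < c.loc e ∨ (c.loc e' = c.loc e ∧ e' < e)))) := copyKey_lt _ _ _ _ _

theorem card_NF (h : c.Ok) (j : ℕ) : (c.NF j).card = c.m := near_card c.r c.Y h.m_le j

theorem NF_lt {j e : ℕ} (he : e ∈ c.NF j) : e < c.L := (mem_NF.1 he).1

theorem NF_before {j e e' : ℕ} (he : e ∈ c.NF j) (he' : e' < c.L)
    (h : copyKey c.r c.Y j e' < copyKey c.r c.Y j e) : e' ∈ c.NF j := by
  rw [mem_NF] at he ⊢
  refine ⟨he', ?_⟩
  rw [near_iff] at he ⊢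
  exact (rk_lt_rk (copyKey c.r c.Y j) c.Y.length (show e' < c.Y.length from he') h).trans he.2

theorem own_near (h : c.Ok) {g e : ℕ} (hg : g < c.n) (he : e ∈ c.own g) : e ∈ c.NF g := by
  rw [mem_own, mem_liveF] at he
  obtain ⟨⟨he1, he2⟩, he3⟩ := he
  rw [mem_NF, near_iff]
  refine ⟨he1, ?_⟩
  unfold live at he2
  rw [decide_eq_true_eq, len_filter_range] at he2
  refine lt_of_le_of_lt (card_le_card ?_) he2
  intro e' he'
  rw [mem_filter, mem_range] at he'
  obtain ⟨hlt, hk⟩ := he'
  rw [key_lt, he3, h.d_self g hg] at hk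
  rw [mem_filter, mem_range, decide_eq_true_eq]
  rcases hk with hk | ⟨hk1, hk2⟩
  · exact absurd hk (not_lt.2 (h.d_nonneg _ _))
  · have hl : c.loc e' = g := by
      by_contra hne
      have := h.d_pos (c.loc e') (h.loc_lt e' hlt) g hg hne
      linarith
    rw [hl] at hk2
    rcases hk2 with hk2 | ⟨_, hk2⟩
    · exact absurd hk2 (lt_irrefl _)
    · exact ⟨hk2, by rw [hl, he3]⟩

theorem NF_filter_own (h : c.Ok) {g : ℕ} (hg : g < c.n) :
    (c.NF g).filter (fun e => c.loc e = g) = c.own g := by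
  ext e
  rw [mem_filter]
  constructor
  · rintro ⟨h1, h2⟩; exact mem_own.2 ⟨NF_live h1, h2⟩
  · intro h1; exact ⟨own_near h hg h1, (mem_own.1 h1).2⟩


theorem ZF_eq (g : ℕ) : c.ZF g = (c.NF g).filter (fun e => ¬ c.loc e = g) := by
  ext e; rw [mem_ZF, mem_filter]

theorem card_ZF_own (h : c.Ok) {g : ℕ} (hg : g < c.n) : (c.ZF g).card + (c.own g).card = c.m := by
  rw [← NF_filter_own h hg, ZF_eq, ← card_NF h g, add_comm]
  exact card_filter_add_card_filter_not _

theorem card_ZF_le (h : c.Ok) {g : ℕ} (hg : g < c.n) : (c.ZF g).card ≤ c.m - c.cntL g := by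
  rcases (c.ZF g).eq_empty_or_nonempty with h0 | ⟨e0, he0⟩
  · rw [h0]; simp
  · have h1 : (range c.L).filter (fun e => c.loc e = g) ⊆ c.own g := by
      intro e he
      rw [mem_filter, mem_range] at he
      rw [← NF_filter_own h hg, mem_filter]
      refine ⟨NF_before (mem_ZF.1 he0).1 he.1 ?_, he.2⟩
      rw [key_lt]
      left
      rw [he.2, h.d_self g hg]
      exact h.d_pos _ (h.loc_lt _ (NF_lt (mem_ZF.1 he0).1)) g hg (mem_ZF.1 he0).2
    have h2 := card_le_card h1
    rw [← cntL_eq] at h2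
    have h3 := card_ZF_own h hg
    omega

theorem nc_eq (j : ℕ) : c.nc j = ∑ e ∈ c.NF j, riD c.r (c.loc e) j := by
  unfold nc NF
  rw [sum_filter]

theorem nc_nonneg (h : c.Ok) (j : ℕ) : 0 ≤ c.nc j := by
  rw [nc_eq]; exact sum_nonneg fun _ _ => h.d_nonneg _ _

/-- number of near copies of `j` at `g` -/
def aa (c : Par) (j g : ℕ) : ℕ := ((c.NF j).filter (fun e => c.loc e = g)).card

theorem aa_add (h : c.Ok) (j g : ℕ) :
    c.aa j g + ((c.NF j).filter (fun e => ¬ c.loc e = g)).card = c.m := by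
  unfold aa
  rw [card_filter_add_card_filter_not, card_NF h]

theorem aa_le_own (j g : ℕ) : c.aa j g ≤ (c.own g).card := by
  unfold aa
  apply card_le_card
  intro e he
  rw [mem_filter] at he
  exact mem_own.2 ⟨NF_live he.1, he.2⟩

theorem sum_own_j (j g : ℕ) : ∑ e ∈ (c.NF j).filter (fun e => c.loc e = g), riD c.r (c.loc e) j
    = c.aa j g * riD c.r g j := by
  rw [sum_congr rfl (g := fun _ => riD c.r g j) (fun e he => by rw [(mem_filter.1 he).2]),
    sum_const, nsmul_eq_mul]
  rfl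

theorem nc_split (j g : ℕ) : c.nc j = c.aa j g * riD c.r g j
    + ∑ e ∈ (c.NF j).filter (fun e => ¬ c.loc e = g), riD c.r (c.loc e) j := by
  rw [nc_eq, ← sum_own_j, sum_filter_add_sum_filter_not]

theorem aa_mul_le (h : c.Ok) (j g : ℕ) : c.aa j g * riD c.r g j ≤ c.nc j := by
  rw [nc_split j g]
  have : 0 ≤ ∑ e ∈ (c.NF j).filter (fun e => ¬ c.loc e = g), riD c.r (c.loc e) j :=
    sum_nonneg fun _ _ => h.d_nonneg _ _
  linarith

/-- the key inequality for attached clients -/
theorem att_ineq (h : c.Ok) {j g : ℕ} (hj : j < c.n) (hg : g < c.n) :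
    ∑ x ∈ c.ZF g, riD c.r (c.loc x) j + c.aa j g * riD c.r g j
      ≤ 2 * (c.ZF g).card * riD c.r g j + c.nc j := by
  classical
  have h1 := aa_add h j g
  have h2 := aa_le_own (c := c) j g
  have h3 := card_ZF_own h hg
  obtain ⟨W, hW, hWc⟩ := exists_subset_card_eq
    (s := (c.NF j).filter (fun e => ¬ c.loc e = g)) (n := (c.ZF g).card) (by omega)
  have hWL : ∀ e ∈ W, e < c.L := fun e he => NF_lt (mem_filter.1 (hW he)).1
  have hdis : Disjoint (c.own g) W := by
    rw [disjoint_left]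
    intro e he he'
    exact (mem_filter.1 (hW he')).2 (mem_own.1 he).2
  have hX : c.own g ∪ W ⊆ range c.Y.length := by
    intro e he
    rcases mem_union.1 he with he | he
    · exact mem_range.2 (mem_liveF.1 (mem_own.1 he).1).1
    · exact mem_range.2 (hWL e he)
  have hXc : c.m ≤ (c.own g ∪ W).card := by
    rw [card_union_of_disjoint hdis, hWc]; omega
  have hmin := near_min c.r c.Y h.m_le g hX hXc (fun e _ => h.d_nonneg _ _)
  have e1 : ∑ e ∈ (range c.Y.length).filter (fun e => near c.r c.Y c.m g e = true),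
      riD c.r (c.Y.getD e 0) g = ∑ e ∈ c.ZF g, riD c.r (c.loc e) g := by
    have : ∑ e ∈ c.NF g, riD c.r (c.loc e) g = ∑ e ∈ c.ZF g, riD c.r (c.loc e) g := by
      rw [ZF_eq, ← sum_filter_add_sum_filter_not (c.NF g) (fun e => c.loc e = g)]
      have : ∑ e ∈ (c.NF g).filter (fun e => c.loc e = g), riD c.r (c.loc e) g = 0 :=
        sum_eq_zero fun e he => by rw [(mem_filter.1 he).2, h.d_self g hg]
      rw [this, zero_add]
    exact this
  have e2 : ∑ e ∈ c.own g ∪ W, riD c.r (c.Y.getD e 0) g = ∑ e ∈ W, riD c.r (c.loc e) g := by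
    rw [sum_union hdis]
    have : ∑ e ∈ c.own g, riD c.r (c.Y.getD e 0) g = 0 :=
      sum_eq_zero fun e he => by
        have : c.Y.getD e 0 = g := (mem_own.1 he).2
        rw [this, h.d_self g hg]
    rw [this, zero_add]
    rfl
  rw [e1, e2] at hmin
  have hjg : riD c.r j g = riD c.r g j := h.d_symm j hj g hg
  have s1 : ∑ x ∈ c.ZF g, riD c.r (c.loc x) j
      ≤ ∑ x ∈ c.ZF g, riD c.r (c.loc x) g + (c.ZF g).card * riD c.r g j := by
    rw [← nsmul_eq_mul, ← sum_const, ← sum_add_distrib]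
    exact sum_le_sum fun x hx =>
      h.d_tri _ (h.loc_lt _ (NF_lt (mem_ZF.1 hx).1)) _ hg _ hj
  have s2 : ∑ e ∈ W, riD c.r (c.loc e) g
      ≤ ∑ e ∈ W, riD c.r (c.loc e) j + (c.ZF g).card * riD c.r g j := by
    rw [← hWc, ← nsmul_eq_mul, ← sum_const, ← sum_add_distrib]
    refine sum_le_sum fun x hx => ?_
    rw [← hjg]
    exact h.d_tri _ (h.loc_lt _ (hWL x hx)) _ hj _ hg
  have s3 : ∑ e ∈ W, riD c.r (c.loc e) j
      ≤ ∑ e ∈ (c.NF j).filter (fun e => ¬ c.loc e = g), riD c.r (c.loc e) j :=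
    sum_le_sum_of_subset_of_nonneg hW fun _ _ _ => h.d_nonneg _ _
  rw [nc_split j g]
  linarith

/-! ### ordinary clients -/

/-- at most one nearly full location meets the near copies of an ordinary client -/
theorem ord_unique (h : c.Ok) {j : ℕ} (hna : ∀ g ∈ c.Gf, c.T * c.aa j g + c.m < c.T * c.m)
    {e1 e2 : ℕ} (h1 : e1 ∈ c.NF j) (h2 : e2 ∈ c.NF j) (g1 : c.loc e1 ∈ c.Gf)
    (g2 : c.loc e2 ∈ c.Gf) : c.loc e1 = c.loc e2 := by
  have aux : ∀ a b : ℕ, a ∈ c.NF j → b ∈ c.NF j → c.loc a ∈ c.Gf → c.loc b ∈ c.Gf →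
      c.loc a ≠ c.loc b → copyKey c.r c.Y j a < copyKey c.r c.Y j b → False := by
    intro a b ha hb ga gb hne hk
    have hsub : (range c.L).filter (fun e => c.loc e = c.loc a)
        ⊆ (c.NF j).filter (fun e => c.loc e = c.loc a) := by
      intro e he
      rw [mem_filter, mem_range] at he
      rw [mem_filter]
      refine ⟨NF_before hb he.1 ?_, he.2⟩
      rw [key_lt] at hk ⊢
      rw [he.2]
      rcases hk with hk | ⟨hk1, hk2⟩
      · exact Or.inl hk
      · refine Or.inr ⟨hk1, ?_⟩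
        rcases hk2 with hk2 | ⟨hk2, _⟩
        · exact Or.inl hk2
        · exact absurd hk2 hne
    have h3 := card_le_card hsub
    rw [← cntL_eq] at h3
    have h4 : c.cntL (c.loc a) ≤ c.aa j (c.loc a) := h3
    have h5 := hna _ ga
    have h6 := (isF_iff.1 (mem_Gf.1 ga)).2
    have h7 := h.m_pos
    have h8 : c.aa j (c.loc a) ≤ c.m := by have := aa_add h j (c.loc a); omega
    have h9 : c.T * c.cntL (c.loc a) ≤ c.T * c.aa j (c.loc a) := Nat.mul_le_mul_left _ h4
    have h10 : c.T * (c.m - c.cntL (c.loc a)) = c.T * c.m - c.T * c.cntL (c.loc a) :=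
      Nat.mul_sub _ _ _
    have h11 : 2 * c.T * (c.m - c.cntL (c.loc a)) = 2 * (c.T * (c.m - c.cntL (c.loc a))) := by
      ring
    omega
  by_contra hne
  rcases lt_trichotomy (copyKey c.r c.Y j e1) (copyKey c.r c.Y j e2) with hk | hk | hk
  · exact aux e1 e2 h1 h2 g1 g2 hne hk
  · have := copyKey_inj hk
    exact hne (by rw [this])
  · exact aux e2 e1 h2 h1 g2 g1 (Ne.symm hne) hk

/-- the own copies of a nearly full location -/
theorem own_large (h : c.Ok) {g : ℕ} (hg : g ∈ c.Gf) : 2 * c.T * (c.ZF g).card ≤ c.m :=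
  (Nat.mul_le_mul_left _ (card_ZF_le h (Gf_lt h hg))).trans (isF_iff.1 (mem_Gf.1 hg)).2

/-- near copies of an ordinary client are not farther than the tight location they miss -/
theorem ord_near_le (h : c.Ok) {j g : ℕ} (hg : g ∈ c.Gf)
    (hna : c.T * c.aa j g + c.m < c.T * c.m) {e : ℕ} (he : e ∈ c.NF j) :
    riD c.r (c.loc e) j ≤ riD c.r g j := by
  have h1 := own_large h hg
  have h2 := card_ZF_own h (Gf_lt h hg)
  have h3 : c.aa j g < (c.own g).card := by
    by_contra hcon
    push Not at hcon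
    have h4 : c.T * (c.own g).card ≤ c.T * c.aa j g := Nat.mul_le_mul_left _ hcon
    have h5 : c.T * ((c.ZF g).card + (c.own g).card) = c.T * c.m := by rw [h2]
    have h6 : 2 * c.T * (c.ZF g).card = 2 * (c.T * (c.ZF g).card) := by ring
    rw [mul_add] at h5
    omega
  obtain ⟨e1, he1, he1'⟩ : ∃ e1 ∈ c.own g, e1 ∉ (c.NF j).filter (fun e => c.loc e = g) := by
    by_contra hcon
    push Not at hcon
    have := card_le_card (show c.own g ⊆ (c.NF j).filter (fun e => c.loc e = g) from hcon)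
    unfold aa at h3
    omega
  have hloc : c.loc e1 = g := (mem_own.1 he1).2
  have hn : e1 ∉ c.NF j := fun hcon => he1' (mem_filter.2 ⟨hcon, hloc⟩)
  by_contra hlt
  push Not at hlt
  refine hn (NF_before he (mem_liveF.1 (mem_own.1 he1).1).1 ?_)
  rw [key_lt, hloc]
  exact Or.inl hlt

/-- the foreign copies of `g` are near an ordinary client of `g` -/
theorem ord_Z_le (h : c.Ok) {j g : ℕ} (hj : j < c.n) (hg : g ∈ c.Gf)
    (hna : c.T * c.aa j g + c.m < c.T * c.m) {x : ℕ} (hx : x ∈ c.ZF g) :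
    riD c.r (c.loc x) j ≤ 3 * riD c.r g j := by
  have hgn := Gf_lt h hg
  have hjg : riD c.r j g = riD c.r g j := h.d_symm j hj g hgn
  have hxn := h.loc_lt _ (NF_lt (mem_ZF.1 hx).1)
  have h0 : riD c.r (c.loc x) g ≤ 2 * riD c.r g j := by
    by_contra hlt
    push Not at hlt
    have hsub : (c.NF j).filter (fun e => ¬ c.loc e = g) ⊆ (c.ZF g).erase x := by
      intro e he
      rw [mem_filter] at he
      have hen := h.loc_lt _ (NF_lt he.1)
      have h1 : riD c.r (c.loc e) g ≤ 2 * riD c.r g j := by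
        have h2 := h.d_tri (c.loc e) hen j hj g hgn
        have h3 := ord_near_le h hg hna he.1
        linarith
      have h4 : riD c.r (c.loc e) g < riD c.r (c.loc x) g := lt_of_le_of_lt h1 hlt
      rw [mem_erase, mem_ZF]
      refine ⟨?_, NF_before (mem_ZF.1 hx).1 (NF_lt he.1) (key_lt.2 (Or.inl h4)), he.2⟩
      intro hex
      rw [hex] at h4
      exact lt_irrefl _ h4
    have h5 := card_le_card hsub
    rw [card_erase_of_mem hx] at h5
    have h6 := aa_add h j g
    have h7 := card_ZF_own h hgn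
    have h8 := aa_le_own (c := c) j g
    have h9 : 0 < (c.ZF g).card := card_pos.2 ⟨x, hx⟩
    omega
  have := h.d_tri (c.loc x) hxn g hgn j hj
  linarith

/-- Markov: few near copies are farther than `E` times the average -/
theorem far_card (h : c.Ok) (j : ℕ) :
    c.E * ((c.NF j).filter (fun e => ¬ (c.m * riD c.r (c.loc e) j ≤ c.E * c.nc j))).card
      ≤ c.m := by
  set F := (c.NF j).filter (fun e => ¬ (c.m * riD c.r (c.loc e) j ≤ c.E * c.nc j)) with hF
  rcases F.eq_empty_or_nonempty with h0 | h0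
  · rw [h0]; simp
  · have hmq : (0 : ℚ) < c.m := by exact_mod_cast h.m_pos
    have h1 : F.card • (c.E * c.nc j) ≤ ∑ e ∈ F, c.m * riD c.r (c.loc e) j :=
      card_nsmul_le_sum _ _ _ fun e he => (not_le.1 (mem_filter.1 he).2).le
    have h2 : ∑ e ∈ F, c.m * riD c.r (c.loc e) j ≤ c.m * c.nc j := by
      rw [← mul_sum, nc_eq]
      exact mul_le_mul_of_nonneg_left
        (sum_le_sum_of_subset_of_nonneg (filter_subset _ _) fun _ _ _ => h.d_nonneg _ _) hmq.le
    have h3 : 0 < c.nc j := by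
      rcases (nc_nonneg h j).eq_or_lt with h4 | h4
      · exfalso
        obtain ⟨e, he⟩ := h0
        have h5 := not_le.1 (mem_filter.1 he).2
        rw [← h4, mul_zero] at h5
        have h6 : riD c.r (c.loc e) j ≤ c.nc j := by
          rw [nc_eq]
          exact single_le_sum (f := fun e => riD c.r (c.loc e) j) (fun _ _ => h.d_nonneg _ _)
            (mem_filter.1 he).1
        rw [← h4] at h6
        have := mul_le_mul_of_nonneg_left h6 hmq.le
        rw [mul_zero] at this
        linarith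
      · exact h4
    rw [nsmul_eq_mul] at h1
    have h4 : ((c.E : ℚ) * F.card) * c.nc j ≤ c.m * c.nc j := by
      calc ((c.E : ℚ) * F.card) * c.nc j = F.card * (c.E * c.nc j) := by ring
        _ ≤ _ := h1.trans h2
    have h5 := le_of_mul_le_mul_right h4 h3
    exact_mod_cast h5

/-- hub copies of an ordinary client with few tight copies -/
theorem ord_isB (h : c.Ok) {j : ℕ} {a : ℕ}
    (ha : ((c.NF j).filter (fun e => c.loc e ∈ c.Gf)).card ≤ a) (haE : c.E * a ≤ c.m) :
    c.isB j = true := by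
  classical
  unfold isB
  rw [decide_eq_true_eq, length_PL]
  have h1 : c.NF j ⊆ c.PF j ∪ ((c.NF j).filter (fun e => c.loc e ∈ c.Gf)
      ∪ (c.NF j).filter (fun e => ¬ (c.m * riD c.r (c.loc e) j ≤ c.E * c.nc j))) := by
    intro e he
    rw [mem_union, mem_union, mem_PF, mem_filter, mem_filter]
    tauto
  have h2 := card_le_card h1
  have h3 := card_union_le (c.PF j) ((c.NF j).filter (fun e => c.loc e ∈ c.Gf)
      ∪ (c.NF j).filter (fun e => ¬ (c.m * riD c.r (c.loc e) j ≤ c.E * c.nc j)))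
  have h4 := card_union_le ((c.NF j).filter (fun e => c.loc e ∈ c.Gf))
    ((c.NF j).filter (fun e => ¬ (c.m * riD c.r (c.loc e) j ≤ c.E * c.nc j)))
  have h5 := far_card h j
  rw [card_NF h] at h2
  set f := ((c.NF j).filter (fun e => ¬ (c.m * riD c.r (c.loc e) j ≤ c.E * c.nc j))).card
  have h6 : c.m ≤ (c.PF j).card + (a + f) := by omega
  have h7 := Nat.mul_le_mul_left c.E h6
  rw [mul_add, mul_add] at h7
  omega

/-- radius of the ball of an ordinary client -/
def U0 (c : Par) (j : ℕ) : ℚ := 3 * (c.E * c.nc j / c.m)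

/-- ball of an ordinary client -/
def ball (c : Par) (j : ℕ) : Finset ℕ := (range c.n).filter (fun v => riD c.r v j ≤ c.U0 j)

theorem U0_nonneg (h : c.Ok) (j : ℕ) : 0 ≤ c.U0 j := by
  unfold U0
  have := nc_nonneg h j
  positivity

/-- the ball of an ordinary client is rich -/
theorem ord_cap (h : c.Ok)
    (hcov : ∀ j, j < c.n → c.isB j = true → ∃ j0 ∈ c.reps, c.nc j0 ≤ c.nc j ∧
      ∃ e ∈ c.PF j, e ∈ c.PF j0)
    {j : ℕ} (hj : j < c.n) (hna : ∀ g ∈ c.Gf, c.T * c.aa j g + c.m < c.T * c.m)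
    (P : ℕ) (s : ℕ × ℕ) : c.M ≤ ∑ v ∈ c.ball j, (core h).mu (c.hitI P) s v := by
  classical
  have hmq : (0 : ℚ) < c.m := by exact_mod_cast h.m_pos
  by_cases hA : ∃ g ∈ c.Gf, c.m ≤ c.E * c.aa j g
  · obtain ⟨g, hg, hga⟩ := hA
    have hgn := Gf_lt h hg
    have h1 : 3 * riD c.r g j ≤ c.U0 j := by
      unfold U0
      have h2 := aa_mul_le h j g
      have h3 : (c.m : ℚ) ≤ c.E * c.aa j g := by exact_mod_cast hga
      have h4 : riD c.r g j ≤ c.E * c.nc j / c.m := by
        rw [le_div_iff₀ hmq]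
        have h5 := mul_le_mul_of_nonneg_right h3 (h.d_nonneg g j)
        have h6 := mul_le_mul_of_nonneg_left h2 (show (0 : ℚ) ≤ c.E by positivity)
        nlinarith
      linarith
    have h0 := h.d_nonneg g j
    have hgb : g ∈ c.ball j := by
      unfold ball
      rw [mem_filter, mem_range]
      exact ⟨hgn, by linarith⟩
    refine (core h).cap_tight hg hgb (fun q hq => ?_)
    have hq' : q.1 ∈ c.ZF g := (mem_ZI.1 hq).1
    have h5 := ord_Z_le h hj hg (hna g hg) hq'
    change c.loc q.1 ∈ c.ball j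
    unfold ball
    rw [mem_filter, mem_range]
    exact ⟨h.loc_lt _ (NF_lt (mem_ZF.1 hq').1), h5.trans h1⟩
  · push Not at hA
    have hB : c.isB j = true := by
      rcases ((c.NF j).filter (fun e => c.loc e ∈ c.Gf)).eq_empty_or_nonempty with h0 | ⟨e0, he0⟩
      · refine ord_isB h (a := 0) (by rw [h0]; simp) (by simp)
      · rw [mem_filter] at he0
        refine ord_isB h (a := c.aa j (c.loc e0)) ?_ (hA _ he0.2).le
        unfold aa
        apply card_le_card
        intro e he
        rw [mem_filter] at he ⊢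
        exact ⟨he.1, ord_unique h hna he.1 he0.1 he.2 he0.2⟩
    obtain ⟨j0, hj0, hnc, e, he1, he2⟩ := hcov j hj hB
    have hj0n := (reps_prop hj0).1
    have hdj : ∀ x ∈ c.PF j0, riD c.r (c.loc x) j ≤ c.U0 j := by
      intro x hx
      have hxn := h.loc_lt _ (NF_lt (mem_PF.1 hx).1)
      have hen := h.loc_lt _ (NF_lt (mem_PF.1 he1).1)
      have k1 := (mem_PF.1 hx).2.2
      have k2 := (mem_PF.1 he2).2.2
      have k3 := (mem_PF.1 he1).2.2
      have k4 := h.d_tri (c.loc x) hxn j0 hj0n j hj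
      have k5 := h.d_tri j0 hj0n (c.loc e) hen j hj
      have k6 := h.d_symm j0 hj0n (c.loc e) hen
      have k7 := mul_le_mul_of_nonneg_left hnc (show (0 : ℚ) ≤ c.E by positivity)
      unfold U0
      rw [← mul_div_assoc, le_div_iff₀ hmq]
      have k8 : riD c.r (c.loc x) j ≤ riD c.r (c.loc x) j0 + riD c.r (c.loc e) j0
          + riD c.r (c.loc e) j := by rw [k6] at k5; linarith
      have k9 := mul_le_mul_of_nonneg_right k8 hmq.le
      nlinarith
    have hmem : ∀ x ∈ c.PF j0, c.loc x ∈ c.ball j := by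
      intro x hx
      unfold ball
      rw [mem_filter, mem_range]
      exact ⟨h.loc_lt _ (NF_lt (mem_PF.1 hx).1), hdj x hx⟩
    refine (core h).cap_rep (List.mem_toFinset.2 hj0) (fun q hq => hmem _ (mem_PI.1 hq).1) ?_
    obtain ⟨e', he', hpt⟩ := pt_spec h (reps_prop hj0).2
    change c.pt j0 ∈ c.ball j
    rw [hpt]
    exact hmem e' he'

end Par

end Crest.Agent.R310.Gran
end

-- ▼ part R310/GranCli
section

/-!
# R310, block GRAN, part 8: expected costs of the clients
-/

set_option linter.dupNamespace false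
set_option linter.unusedSectionVars false
set_option autoImplicit false

namespace Crest.Agent.R310.Gran

open Finset

namespace Par

variable {c : Par}

/-- a random plan with expected cost at most `B` -/
def HasPlan (h : c.Ok) (P : ℕ) (j : ℕ) (B : ℚ) : Prop :=
  ∃ bd : ℕ × ℕ → ℚ, (∀ ω, ∃ n : ℕ → ℕ, (∀ v ∈ range c.n, n v ≤ (core h).mu (c.hitI P) ω v) ∧
    ∑ v ∈ range c.n, n v = c.M ∧ ∑ v ∈ range c.n, (n v : ℚ) * riD c.r v j ≤ bd ω) ∧
    avg (seeds P) bd ≤ B

theorem att_bd (h : c.Ok) {P : ℕ} {p : ℚ} (hPW : PW (seeds P) (c.hitI P) p c.UF)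
    (hpm : p * c.m ≤ c.M) (hpm1 : (c.M : ℚ) - 1 ≤ p * c.m) {j g : ℕ} (hj : j < c.n)
    (hg : g ∈ c.Gf) (ha : c.T * c.m ≤ c.T * c.aa j g + c.m) :
    HasPlan h P j (c.M / c.m * c.nc j * (1 + 4 / c.T + 4 / c.M)) := by
  refine ⟨(core h).attB (c.hitI P) (fun v => riD c.r v j) g, fun ω => ?_, ?_⟩
  · exact (core h).plan_att (R := c.hitI P) (ω := ω) hg (fun v => riD c.r v j)
      (fun v _ => h.d_nonneg v j)
  · refine (core h).avg_att hPW h.m_pos hpm hpm1 h.T2 hg ?_ (h.d_nonneg g j) ha
      (aa_mul_le h j g) ?_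
    · change 2 * c.T * (c.ZI g).card ≤ c.m
      rw [card_ZI]
      exact own_large h hg
    · change ∑ q ∈ c.ZI g, riD c.r (c.loc q.1) j + c.aa j g * riD c.r g j
        ≤ 2 * ((c.ZI g).card : ℚ) * riD c.r g j + c.nc j
      rw [card_ZI, sum_ZI g (fun x => riD c.r (c.loc x) j)]
      exact att_ineq h hj (Gf_lt h hg)

/-- hub items of a client -/
def NI (c : Par) (j : ℕ) : Finset (ℕ × ℕ) :=
  ((c.NF j).filter (fun e => c.loc e ∉ c.Gf)).image (fun x => (x, 0))

theorem mem_NI {j : ℕ} {q : ℕ × ℕ} :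
    q ∈ c.NI j ↔ (q.1 ∈ c.NF j ∧ c.loc q.1 ∉ c.Gf) ∧ q.2 = 0 := by
  unfold NI
  rw [mem_image]
  constructor
  · rintro ⟨x, hx, rfl⟩; exact ⟨mem_filter.1 hx, rfl⟩
  · rintro ⟨h1, h2⟩; exact ⟨q.1, mem_filter.2 h1, by rw [← h2]⟩

theorem card_NI (j : ℕ) :
    (c.NI j).card = ((c.NF j).filter (fun e => c.loc e ∉ c.Gf)).card :=
  card_image_of_injective _ fun _ _ h => (Prod.mk.inj h).1

theorem sum_NI (j : ℕ) (f : ℕ → ℚ) :
    ∑ q ∈ c.NI j, f q.1 = ∑ x ∈ (c.NF j).filter (fun e => c.loc e ∉ c.Gf), f x := by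
  unfold NI
  rw [sum_image (fun _ _ _ _ h => (Prod.mk.inj h).1)]

theorem NI_sub (j : ℕ) : c.NI j ⊆ c.UF := by
  intro q hq
  rw [mem_NI] at hq
  rw [mem_UF, hq.2]
  exact ⟨NF_live hq.1.1, Nat.zero_le _, Nat.zero_le _⟩

theorem ord_bd (h : c.Ok)
    (hcov : ∀ j, j < c.n → c.isB j = true → ∃ j0 ∈ c.reps, c.nc j0 ≤ c.nc j ∧
      ∃ e ∈ c.PF j, e ∈ c.PF j0)
    {P : ℕ} {p : ℚ} (hPW : PW (seeds P) (c.hitI P) p c.UF)
    (hpm : p * c.m ≤ c.M) (hpm1 : (c.M : ℚ) - 1 ≤ p * c.m) {j : ℕ} (hj : j < c.n)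
    (hna : ∀ g ∈ c.Gf, c.T * c.aa j g + c.m < c.T * c.m) {cc : ℚ} (hcc : 0 < cc) :
    HasPlan h P j (c.M / c.m * c.nc j + (2 + c.M / cc + cc) * c.U0 j) := by
  classical
  have hmq : (0 : ℚ) < c.m := by exact_mod_cast h.m_pos
  have hMq : (0 : ℚ) < c.M := by exact_mod_cast h.M_pos
  have hTq : (2 : ℚ) ≤ c.T := by exact_mod_cast h.T2
  have hp0 := hPW.p_nonneg
  have hcap := ord_cap h hcov hj hna P
  have hBL : c.ball j ⊆ (core h).Lam := filter_subset _ _
  have hdg : ∀ v, 0 ≤ riD c.r v j := fun v => h.d_nonneg v j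
  have hU0 := U0_nonneg h j
  have hU : ∀ v ∈ c.ball j, riD c.r v j ≤ c.U0 j := fun v hv => (mem_filter.1 hv).2
  have hNH : ∀ x ∈ c.NI j, (core h).loc x ∉ (core h).Gf := fun x hx => (mem_NI.1 hx).1.2
  have hNm : (c.NI j).card ≤ c.m := by
    rw [card_NI, ← card_NF h j]; exact card_filter_le _ _
  by_cases hex : ∃ e0 ∈ c.NF j, c.loc e0 ∈ c.Gf
  · obtain ⟨e0, he0, hg⟩ := hex
    set g := c.loc e0 with hgdef
    have hgn := Gf_lt h hg
    have hfe : (c.NF j).filter (fun e => c.loc e ∉ c.Gf)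
        = (c.NF j).filter (fun e => ¬ c.loc e = g) := by
      apply filter_congr
      intro e he
      constructor
      · intro h1 h2; exact h1 (h2 ▸ hg)
      · intro h1 h2; exact h1 (ord_unique h hna he he0 h2 hg)
    have hadd := aa_add h j g
    have hcard : c.aa j g + (c.NI j).card = c.m := by rw [card_NI, hfe]; exact hadd
    set b : ℕ := c.M * c.aa j g / c.m with hb
    have hbm : b * c.m ≤ c.M * c.aa j g := Nat.div_mul_le_self _ _
    have hbm2 : c.M * c.aa j g < (b + 1) * c.m := by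
      have := Nat.lt_div_mul_add (a := c.M * c.aa j g) h.m_pos
      rw [add_mul, one_mul]; exact this
    have hζ := own_large h hg
    have hna' := hna g hg
    have hb1 : ((core h).M : ℚ) - 2 ≤ p * (c.NI j).card + b := by
      change (c.M : ℚ) - 2 ≤ p * (c.NI j).card + b
      have h1 : (c.aa j g : ℚ) + (c.NI j).card = c.m := by exact_mod_cast hcard
      have h2 : (c.M : ℚ) * c.aa j g < (b + 1) * c.m := by exact_mod_cast hbm2
      have h3 : p * c.aa j g ≤ b + 1 := by
        have h4 : p * c.m * c.aa j g ≤ c.M * c.aa j g :=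
          mul_le_mul_of_nonneg_right hpm (by positivity)
        have h5 : (p * c.aa j g) * c.m ≤ (b + 1) * c.m := by nlinarith
        exact le_of_mul_le_mul_right h5 hmq
      have h6 : ((c.NI j).card : ℚ) = c.m - c.aa j g := by linarith
      rw [h6]
      nlinarith
    have hb2 : (b : ℚ) + p * (c.ZI g).card ≤ (core h).M := by
      change (b : ℚ) + p * (c.ZI g).card ≤ c.M
      rw [card_ZI]
      have h1 : (b : ℚ) * c.m ≤ c.M * c.aa j g := by exact_mod_cast hbm
      have h2 : 2 * (c.T : ℚ) * (c.ZF g).card ≤ c.m := by exact_mod_cast hζ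
      have h3 : (c.T : ℚ) * c.aa j g + c.m ≤ c.T * c.m := by exact_mod_cast hna'.le
      have h4 : p * (c.ZF g).card * c.m ≤ c.M * (c.ZF g).card := by
        have := mul_le_mul_of_nonneg_right hpm (show (0 : ℚ) ≤ (c.ZF g).card by positivity)
        nlinarith
      have h5 : (c.aa j g : ℚ) + (c.ZF g).card ≤ c.m := by
        have hT0 : (0 : ℚ) < c.T := by linarith
        have : (c.T : ℚ) * (c.aa j g + (c.ZF g).card) ≤ c.T * c.m := by
          have : (0 : ℚ) ≤ c.T * (c.ZF g).card := by positivity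
          nlinarith
        exact le_of_mul_le_mul_left this hT0
      have h6 : (b + p * (c.ZF g).card) * c.m ≤ c.M * c.m := by
        have := mul_le_mul_of_nonneg_left h5 hMq.le
        nlinarith
      exact le_of_mul_le_mul_right h6 hmq
    have hZm : (c.ZI g).card ≤ c.m := by
      rw [card_ZI]
      have := card_ZF_own h hgn
      omega
    have hS : c.aa j g * riD c.r g j + ∑ x ∈ c.NI j, riD c.r (c.loc x.1) j ≤ c.nc j := by
      rw [sum_NI j (fun x => riD c.r (c.loc x) j), hfe, nc_split j g]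
    refine ⟨(core h).ordB (c.hitI P) p (fun v => riD c.r v j) g b (c.NI j) (c.ZI g) (c.U0 j),
      fun ω => ?_, ?_⟩
    · exact (core h).plan_ord (R := c.hitI P) (ω := ω) (N := c.NI j) (Zs := c.ZI g) (g := g)
        (b := b) (Bl := c.ball j) (NI_sub j) hNH (Or.inl ⟨hg, rfl⟩) hBL (hcap ω)
        (d := fun v => riD c.r v j) (fun v _ => hdg v) (hdg g) hU0 hU hb1 hb2
    · exact (core h).avg_ord hPW h.m_pos hpm (d := fun v => riD c.r v j) (g := g) (b := b)
        (NI_sub j) (ZI_sub h hg) hNm hZm (hdg g) (fun x _ => hdg (c.loc x.1)) hbm hS hcc hU0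
  · push Not at hex
    have hfe : (c.NF j).filter (fun e => c.loc e ∉ c.Gf) = c.NF j :=
      filter_true_of_mem fun e he => hex e he
    have hcard : (c.NI j).card = c.m := by rw [card_NI, hfe, card_NF h]
    refine ⟨(core h).ordB (c.hitI P) p (fun v => riD c.r v j) 0 0 (c.NI j) ∅ (c.U0 j),
      fun ω => ?_, ?_⟩
    · refine (core h).plan_ord (R := c.hitI P) (ω := ω) (N := c.NI j) (Zs := ∅) (g := 0)
        (b := 0) (Bl := c.ball j) (NI_sub j) hNH (Or.inr ⟨rfl, rfl⟩) hBL (hcap ω)
        (d := fun v => riD c.r v j) (fun v _ => hdg v) (hdg 0) hU0 hU ?_ ?_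
      · change (c.M : ℚ) - 2 ≤ p * (c.NI j).card + (0 : ℕ)
        rw [hcard]; push_cast; linarith
      · rw [card_empty]; push_cast
        change (0 : ℚ) + p * 0 ≤ c.M
        rw [mul_zero, add_zero]; exact hMq.le
    · have hS : ((0 : ℕ) : ℚ) * riD c.r 0 j + ∑ x ∈ c.NI j, riD c.r (c.loc x.1) j ≤ c.nc j := by
        rw [sum_NI j (fun x => riD c.r (c.loc x) j), hfe, nc_eq]
        simp
      exact (core h).avg_ord hPW h.m_pos hpm (d := fun v => riD c.r v j) (g := 0) (b := 0)
        (NI_sub j) (empty_subset _) hNm (by simp) (hdg 0) (fun x _ => hdg (c.loc x.1)) (a := 0)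
        (by simp) hS hcc hU0

theorem HasPlan.mono {h : c.Ok} {P j : ℕ} {B B' : ℚ} (hB : HasPlan h P j B) (hle : B ≤ B') :
    HasPlan h P j B' := by
  obtain ⟨bd, h1, h2⟩ := hB
  exact ⟨bd, h1, h2.trans hle⟩

/-- **every point has a cheap random plan** -/
theorem all_bd (h : c.Ok)
    (hcov : ∀ j, j < c.n → c.isB j = true → ∃ j0 ∈ c.reps, c.nc j0 ≤ c.nc j ∧
      ∃ e ∈ c.PF j, e ∈ c.PF j0)
    {P : ℕ} {p : ℚ} (hPW : PW (seeds P) (c.hitI P) p c.UF)
    (hpm : p * c.m ≤ c.M) (hpm1 : (c.M : ℚ) - 1 ≤ p * c.m) {y : ℚ} (hy : 0 < y)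
    (h1 : 8 ≤ y * c.T) (h2 : 8 ≤ y * c.M) (h3 : 81 * (c.E : ℚ) ^ 2 ≤ y ^ 2 * c.M)
    (h4 : 18 * (c.E : ℚ) ≤ y * c.M) {j : ℕ} (hj : j < c.n) :
    HasPlan h P j (c.M / c.m * c.nc j * (1 + y)) := by
  have hmq : (0 : ℚ) < c.m := by exact_mod_cast h.m_pos
  have hMq : (0 : ℚ) < c.M := by exact_mod_cast h.M_pos
  have hTq : (2 : ℚ) ≤ c.T := by exact_mod_cast h.T2
  have hT0 : (0 : ℚ) < c.T := by linarith
  have hEq : (4 : ℚ) ≤ c.E := by exact_mod_cast h.E4
  have hE0 : (0 : ℚ) < c.E := by linarith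
  have hnc := nc_nonneg h j
  by_cases hatt : ∃ g ∈ c.Gf, c.T * c.m ≤ c.T * c.aa j g + c.m
  · obtain ⟨g, hg, ha⟩ := hatt
    refine (att_bd h hPW hpm hpm1 hj hg ha).mono ?_
    refine mul_le_mul_of_nonneg_left ?_ (by positivity)
    have a1 : 4 / (c.T : ℚ) ≤ y / 2 := by
      rw [div_le_div_iff₀ hT0 (by norm_num)]; linarith
    have a2 : 4 / (c.M : ℚ) ≤ y / 2 := by
      rw [div_le_div_iff₀ hMq (by norm_num)]; linarith
    linarith
  · push Not at hatt
    have hcc : (0 : ℚ) < y * c.M / (9 * c.E) := by positivity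
    refine (ord_bd h hcov hPW hpm hpm1 hj hatt hcc).mono ?_
    have e1 : (c.M : ℚ) / (y * c.M / (9 * c.E)) = 9 * c.E / y := by field_simp
    have e2 : c.U0 j = c.M / c.m * c.nc j * (3 * c.E / c.M) := by
      unfold U0; field_simp
    have e3 : (2 + c.M / (y * c.M / (9 * c.E)) + y * c.M / (9 * c.E)) * (3 * c.E / c.M) ≤ y := by
      rw [e1]
      have b1 : 2 * (3 * (c.E : ℚ) / c.M) ≤ y / 3 := by
        rw [← mul_div_assoc, div_le_div_iff₀ hMq (by norm_num)]; linarith
      have b2 : 9 * (c.E : ℚ) / y * (3 * c.E / c.M) ≤ y / 3 := by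
        rw [div_mul_div_comm, div_le_div_iff₀ (by positivity) (by norm_num)]
        nlinarith
      have b3 : y * c.M / (9 * c.E) * (3 * c.E / c.M) = y / 3 := by field_simp; norm_num
      rw [add_mul, add_mul, b3]
      linarith
    have e4 : (c.M : ℚ) / c.m * c.nc j + (2 + c.M / (y * c.M / (9 * c.E)) + y * c.M / (9 * c.E))
        * c.U0 j = c.M / c.m * c.nc j * (1 + (2 + c.M / (y * c.M / (9 * c.E))
          + y * c.M / (9 * c.E)) * (3 * c.E / c.M)) := by
      rw [e2]; ring
    rw [e4]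
    refine mul_le_mul_of_nonneg_left ?_ (by positivity)
    linarith

end Par

end Crest.Agent.R310.Gran
end

-- ▼ part R310/GranBridge
section

/-!
# R310, block GRAN, bridge (helper929): multiplicities of the coarse list `granY`
-/

set_option linter.dupNamespace false
set_option linter.unusedSectionVars false
set_option autoImplicit false

namespace Crest.Agent.R310.Gran

open Finset

/-! ### generic list lemmas -/

theorem sum_ite_list {l : List ℕ} (hl : l.Nodup) (f : ℕ → ℕ) (v : ℕ) :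
    (l.map (fun g => if g = v then f g else 0)).sum = if v ∈ l then f v else 0 := by
  rw [← List.sum_toFinset _ hl]
  have : ∀ g ∈ l.toFinset, (if g = v then f g else 0) = if v = g then f v else 0 := by
    intro g _
    by_cases h : g = v
    · rw [if_pos h, if_pos h.symm, h]
    · rw [if_neg h, if_neg (fun h' => h h'.symm)]
  rw [Finset.sum_congr rfl this, Finset.sum_ite_eq]
  simp only [List.mem_toFinset]

theorem count_map_const (l : List ℕ) (a v : ℕ) :
    (l.map (fun _ => a)).count v = if a = v then l.length else 0 := by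
  rw [List.map_const', List.count_replicate]
  simp only [beq_iff_eq]

theorem length_filter_range (L : ℕ) (p : ℕ → Bool) :
    ((List.range L).filter p).length = ((range L).filter (fun x => p x = true)).card := by
  rw [← List.toFinset_card_of_nodup (List.Nodup.filter _ List.nodup_range)]
  congr 1
  ext x
  simp only [List.mem_toFinset, List.mem_filter, List.mem_range, Finset.mem_filter,
    Finset.mem_range]

theorem sum_map_filter_range (L : ℕ) (p : ℕ → Bool) (f : ℕ → ℕ) :
    (((List.range L).filter p).map f).sum = ∑ x ∈ (range L).filter (fun x => p x = true), f x := by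
  rw [← List.sum_toFinset _ (List.Nodup.filter _ List.nodup_range)]
  refine Finset.sum_congr ?_ fun _ _ => rfl
  ext x
  simp only [List.mem_toFinset, List.mem_filter, List.mem_range, Finset.mem_filter,
    Finset.mem_range]

/-- number of pairs -/
theorem card_pairs (A : Finset ℕ) (b : ℕ → ℕ) (p : ℕ → ℕ → Bool) (W : Finset (ℕ × ℕ))
    (hW : ∀ q : ℕ × ℕ, q ∈ W ↔ q.1 ∈ A ∧ q.2 < b q.1 ∧ p q.1 q.2 = true) :
    W.card = ∑ x ∈ A, ((range (b x)).filter (fun i => p x i = true)).card := by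
  classical
  rw [Finset.card_eq_sum_card_fiberwise (f := Prod.fst) (t := A)
    (fun q hq => ((hW q).1 hq).1)]
  refine Finset.sum_congr rfl fun x hx => ?_
  have : W.filter (fun q => q.1 = x) = ((range (b x)).filter (fun i => p x i = true)).image
      (fun i => (x, i)) := by
    ext q
    rw [Finset.mem_filter, Finset.mem_image, hW]
    constructor
    · rintro ⟨⟨_, h2, h3⟩, rfl⟩
      exact ⟨q.2, Finset.mem_filter.2 ⟨Finset.mem_range.2 h2, h3⟩, rfl⟩
    · rintro ⟨i, hi, rfl⟩
      rw [Finset.mem_filter, Finset.mem_range] at hi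
      exact ⟨⟨hx, hi.1, hi.2⟩, rfl⟩
  rw [this, Finset.card_image_of_injective]
  intro i i' h
  exact (Prod.mk.injEq _ _ _ _ ▸ h).2

/-- items with one index per copy -/
theorem card_image_pairs (A : Finset ℕ) (k : ℕ → ℕ) (p : ℕ → ℕ → Bool) (W : Finset (ℕ × ℕ))
    (hW : ∀ q : ℕ × ℕ, q ∈ W ↔ q.1 ∈ A ∧ q.2 = k q.1) :
    (W.filter (fun q => p q.1 q.2 = true)).card = (A.filter (fun x => p x (k x) = true)).card := by
  classical
  have : W.filter (fun q => p q.1 q.2 = true) =
      (A.filter (fun x => p x (k x) = true)).image (fun x => (x, k x)) := by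
    ext q
    rw [Finset.mem_filter, Finset.mem_image, hW]
    constructor
    · rintro ⟨⟨h1, h2⟩, h3⟩
      refine ⟨q.1, Finset.mem_filter.2 ⟨h1, by rw [← h2]; exact h3⟩, ?_⟩
      rw [← h2]
    · rintro ⟨x, hx, rfl⟩
      rw [Finset.mem_filter] at hx
      exact ⟨⟨hx.1, rfl⟩, hx.2⟩
  rw [this, Finset.card_image_of_injective]
  intro i i' h
  exact (Prod.mk.injEq _ _ _ _ ▸ h).1

/-- length = sum of the multiplicities -/
theorem length_eq_sum_count {l : List ℕ} {n : ℕ} (hl : ∀ v ∈ l, v < n) :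
    l.length = ∑ v ∈ range n, l.count v := by
  induction l with
  | nil => simp
  | cons a l ih =>
    have ha : a < n := hl a List.mem_cons_self
    rw [List.length_cons, ih (fun v hv => hl v (List.mem_cons_of_mem _ hv))]
    have : ∀ v ∈ range n, (a :: l).count v = l.count v + if a = v then 1 else 0 := by
      intro v _
      rw [List.count_cons]
      simp only [beq_iff_eq]
    rw [Finset.sum_congr rfl this, Finset.sum_add_distrib, Finset.sum_ite_eq,
      if_pos (Finset.mem_range.2 ha)]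

namespace Par

variable (c : Par)

theorem mem_GfL {v : ℕ} : v ∈ c.GfL ↔ c.isF v = true := by
  unfold GfL
  rw [List.mem_filter]
  constructor
  · exact fun h => h.2
  · intro h
    refine ⟨?_, h⟩
    unfold isF at h
    rw [Bool.and_eq_true, decide_eq_true_eq] at h
    exact h.1

theorem nodup_GfL (h : c.Gt.Nodup) : c.GfL.Nodup := h.filter _

/-- number of copies at `v` -/
theorem cntL_count (v : ℕ) : c.cntL v = c.Y.count v := by
  unfold cntL
  rw [length_filter_range]
  have hc : ∀ Y : List ℕ, ((range Y.length).filter (fun e => Y.getD e 0 = v)).card = Y.count v := by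
    intro Y
    rw [Finset.card_filter]
    induction Y with
    | nil => simp
    | cons a Y ih =>
      rw [List.length_cons, Finset.sum_range_succ']
      simp only [List.getD_cons_succ, List.getD_cons_zero]
      rw [ih, List.count_cons]
      simp only [beq_iff_eq]
  rw [← hc c.Y]
  congr 1
  ext e
  rw [Finset.mem_filter, Finset.mem_filter, decide_eq_true_eq]
  rfl

/-! ### the three parts -/

theorem count_partF (h : c.Gt.Nodup) (P : ℕ) (s : ℕ × ℕ) (v : ℕ) :
    (c.partF P s).count v = if c.isF v = true then c.M - min (c.M / 2) (c.zc P s v) else 0 := by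
  unfold partF
  rw [List.count_flatMap]
  have : (List.count v ∘ fun g => List.replicate (c.M - min (c.M / 2) (c.zc P s g)) g) =
      fun g => if g = v then (c.M - min (c.M / 2) (c.zc P s g)) else 0 := by
    funext g
    simp only [Function.comp]
    rw [List.count_replicate]
    simp only [beq_iff_eq]
  rw [this, sum_ite_list (c.nodup_GfL h)]
  simp only [c.mem_GfL]

theorem count_partH (P : ℕ) (s : ℕ × ℕ) (v : ℕ) :
    (c.partH P s).count v = if c.isF v = true then 0 else
      ∑ x ∈ (range c.L).filter (fun x => c.live x = true ∧ c.loc x = v),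
        ((range (c.load x / c.K + 1)).filter (fun i => c.hit P s x i = true)).card := by
  unfold partH
  rw [List.count_flatMap]
  have h1 : (List.count v ∘ fun x =>
      ((List.range (c.load x / c.K + 1)).filter (fun i => c.hit P s x i)).map
      (fun _ => c.loc x)) = fun x => if c.loc x = v then
        ((range (c.load x / c.K + 1)).filter (fun i => c.hit P s x i = true)).card else 0 := by
    funext x
    simp only [Function.comp]
    rw [count_map_const, length_filter_range]
  rw [h1, sum_map_filter_range]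
  split_ifs with hv
  · refine Finset.sum_eq_zero fun x hx => ?_
    rw [Finset.mem_filter, Bool.and_eq_true, Bool.not_eq_true'] at hx
    rw [if_neg]
    intro h
    rw [h, hv] at hx
    exact absurd hx.2.2 (by simp)
  · rw [← Finset.sum_filter, Finset.filter_filter]
    refine Finset.sum_congr ?_ fun _ _ => rfl
    ext x
    rw [Finset.mem_filter, Finset.mem_filter, Bool.and_eq_true, Bool.not_eq_true']
    constructor
    · rintro ⟨a, ⟨b, _⟩, d⟩; exact ⟨a, b, d⟩
    · rintro ⟨a, b, d⟩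
      refine ⟨a, ⟨b, ?_⟩, d⟩
      rw [d]
      simpa using hv

theorem count_partA (hr : c.reps.Nodup) (P : ℕ) (s : ℕ × ℕ) (v : ℕ) :
    (c.partA P s).count v = ∑ j ∈ c.reps.toFinset.filter (fun j => c.pt j = v),
      (c.M - c.pc P s j) := by
  unfold partA
  rw [List.count_flatMap]
  have h1 : (List.count v ∘ fun j => List.replicate (c.M - c.pc P s j) (c.pt j)) =
      fun j => if c.pt j = v then c.M - c.pc P s j else 0 := by
    funext j
    simp only [Function.comp]
    rw [List.count_replicate]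
    simp only [beq_iff_eq]
  rw [h1, ← List.sum_toFinset _ hr, Finset.sum_filter]

theorem count_granY_list (h : c.Gt.Nodup) (hr : c.reps.Nodup) (P : ℕ) (s : ℕ × ℕ) (v : ℕ) :
    (c.granY P s).count v = (if c.isF v = true then c.M - min (c.M / 2) (c.zc P s v) else
      ∑ x ∈ (range c.L).filter (fun x => c.live x = true ∧ c.loc x = v),
        ((range (c.load x / c.K + 1)).filter (fun i => c.hit P s x i = true)).card) +
      ∑ j ∈ c.reps.toFinset.filter (fun j => c.pt j = v), (c.M - c.pc P s j) := by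
  unfold granY
  rw [List.count_append, List.count_append, c.count_partF h, c.count_partH, c.count_partA hr]
  split_ifs <;> ring

theorem nodup_PL (j : ℕ) : (c.PL j).Nodup := List.Nodup.filter _ List.nodup_range

/-- `pc` as a number of items -/
theorem pc_eq (P : ℕ) (s : ℕ × ℕ) (j : ℕ) (W : Finset (ℕ × ℕ))
    (hW : ∀ q : ℕ × ℕ, q ∈ W ↔ (q.1 < c.L ∧ c.Pb j q.1 = true) ∧ q.2 = 0) :
    cnt (fun (s : ℕ × ℕ) (q : ℕ × ℕ) => c.hit P s q.1 q.2) s W = c.pc P s j := by
  classical
  unfold cnt pc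
  rw [card_image_pairs ((c.PL j).toFinset) (fun _ => 0) (fun x i => c.hit P s x i) W
    (fun q => by rw [hW, List.mem_toFinset, mem_PL, mem_PF_iff])]
  rw [← List.toFinset_card_of_nodup ((c.nodup_PL j).filter _)]
  congr 1
  ext x
  simp only [Finset.mem_filter, List.mem_toFinset, List.mem_filter]

/-- `zc` as a number of items -/
theorem zc_eq (P : ℕ) (s : ℕ × ℕ) (g : ℕ) (W : Finset (ℕ × ℕ))
    (hW : ∀ q : ℕ × ℕ, q ∈ W ↔ (q.1 < c.L ∧ c.Zb g q.1 = true) ∧ q.2 = c.rank g q.1 / c.K) :
    cnt (fun (s : ℕ × ℕ) (q : ℕ × ℕ) => c.hit P s q.1 q.2) s W = c.zc P s g := by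
  classical
  unfold cnt zc
  rw [card_image_pairs ((range c.L).filter (fun x => c.Zb g x = true))
    (fun x => c.rank g x / c.K) (fun x i => c.hit P s x i) W
    (fun q => by rw [hW, Finset.mem_filter, Finset.mem_range])]
  rw [length_filter_range, Finset.filter_filter]
  congr 1
  ext x
  simp only [Finset.mem_filter, Finset.mem_range, Bool.and_eq_true]

/-- hub items at `v` -/
theorem hub_eq (P : ℕ) (s : ℕ × ℕ) (v : ℕ) (W : Finset (ℕ × ℕ))
    (hW : ∀ q : ℕ × ℕ, q ∈ W ↔ q.1 < c.L ∧ c.live q.1 = true ∧ c.loc q.1 = v ∧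
      q.2 < c.load q.1 / c.K + 1) :
    cnt (fun (s : ℕ × ℕ) (q : ℕ × ℕ) => c.hit P s q.1 q.2) s W =
      ∑ x ∈ (range c.L).filter (fun x => c.live x = true ∧ c.loc x = v),
        ((range (c.load x / c.K + 1)).filter (fun i => c.hit P s x i = true)).card := by
  classical
  unfold cnt
  refine card_pairs ((range c.L).filter (fun x => c.live x = true ∧ c.loc x = v))
    (fun x => c.load x / c.K + 1) (fun x i => c.hit P s x i) _ (fun q => ?_)
  rw [Finset.mem_filter, hW, Finset.mem_filter, Finset.mem_range]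
  constructor
  · rintro ⟨⟨a, b, d, e⟩, f⟩; exact ⟨⟨a, b, d⟩, e, f⟩
  · rintro ⟨⟨a, b, d⟩, e, f⟩; exact ⟨⟨a, b, d, e⟩, f⟩

variable {c}

/-- **Multiplicities of the coarse list.** -/
theorem count_granY (h : c.Ok) (hn : c.reps.Nodup) (P : ℕ) (s : ℕ × ℕ) {v : ℕ} (hv : v < c.n) :
    (c.granY P s).count v = (core h).mu (c.hitI P) s v := by
  rw [c.count_granY_list h.Gt_nodup hn]
  unfold Core.mu
  have hZ : cnt (c.hitI P) s (c.ZI v) = c.zc P s v :=
    c.zc_eq P s v (c.ZI v) (fun q => by rw [mem_ZI, mem_ZF_iff])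
  have hP : ∀ j, cnt (c.hitI P) s (c.PI j) = c.pc P s j := fun j =>
    c.pc_eq P s j (c.PI j) (fun q => by rw [mem_PI, mem_PF_iff])
  by_cases hF : c.isF v = true
  · have hG : v ∈ (core h).Gf := mem_Gf.2 hF
    rw [if_pos hF, if_pos hG]
    have h0 : c.reps.toFinset.filter (fun j => c.pt j = v) = ∅ := by
      rw [Finset.filter_eq_empty_iff]
      intro j hj hpt
      have h1 := (core h).pt_hub j hj
      change c.pt j ∉ c.Gf at h1
      rw [hpt] at h1
      exact h1 hG
    rw [h0, Finset.sum_empty, add_zero]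
    change _ = c.M - min (c.M / 2) (cnt (c.hitI P) s (c.ZI v))
    rw [hZ]
  · have hG : v ∉ (core h).Gf := fun h' => hF (mem_Gf.1 h')
    rw [if_neg hF, if_neg hG]
    congr 1
    · refine (c.hub_eq P s v _ (fun q => ?_)).symm
      change q ∈ c.UF.filter (fun x => c.loc x.1 = v) ↔ _
      rw [Finset.mem_filter, mem_UF, mem_liveF]
      have h1 := load_le h q.1
      have h2 : c.load q.1 / c.K ≤ c.load q.1 := Nat.div_le_self _ _
      constructor
      · rintro ⟨⟨⟨a, b⟩, _, e⟩, f⟩
        exact ⟨a, b, f, by omega⟩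
      · rintro ⟨a, b, f, e⟩
        exact ⟨⟨⟨a, b⟩, by omega, by omega⟩, f⟩
    · refine Finset.sum_congr rfl fun j _ => ?_
      change _ = c.M - cnt (c.hitI P) s (c.PI j)
      rw [hP]

/-- every entry of the coarse list is an entry of the fine list -/
theorem granY_mem (h : c.Ok) (P : ℕ) (s : ℕ × ℕ) : ∀ y ∈ c.granY P s, y ∈ c.Y := by
  have hloc : ∀ e < c.L, c.loc e ∈ c.Y := by
    intro e he
    unfold loc
    have he' : e < c.Y.length := he
    rw [List.getD_eq_getElem _ _ he']
    exact List.getElem_mem he'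
  intro y hy
  unfold granY at hy
  rw [List.mem_append, List.mem_append] at hy
  rcases hy with hy | hy | hy
  · unfold partF at hy
    obtain ⟨g, hg, hy⟩ := List.mem_flatMap.1 hy
    rw [List.mem_replicate] at hy
    rw [hy.2]
    have h1 := (isF_iff.1 ((c.mem_GfL).1 hg)).2
    rw [c.cntL_count] at h1
    have hpos : 0 < c.Y.count g := by
      by_contra h0
      have h2 : c.Y.count g = 0 := by omega
      rw [h2] at h1
      have h3 := h.m_pos
      have h4 := h.T2
      simp only [Nat.sub_zero] at h1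
      nlinarith
    exact List.count_pos_iff.1 hpos
  · unfold partH at hy
    obtain ⟨x, hx, hy⟩ := List.mem_flatMap.1 hy
    obtain ⟨i, _, rfl⟩ := List.mem_map.1 hy
    exact hloc x (List.mem_range.1 (List.mem_filter.1 hx).1)
  · unfold partA at hy
    obtain ⟨j, hj, hy⟩ := List.mem_flatMap.1 hy
    rw [List.mem_replicate] at hy
    rw [hy.2]
    obtain ⟨e, he, hpt⟩ := pt_spec h (reps_prop hj).2
    rw [hpt]
    exact hloc e (mem_PF_iff.1 he).1

/-- entries of the fine list are points -/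
theorem Y_lt (h : c.Ok) : ∀ y ∈ c.Y, y < c.n := by
  intro y hy
  obtain ⟨e, he, rfl⟩ := List.getElem_of_mem hy
  have := h.loc_lt e he
  unfold loc at this
  rw [List.getD_eq_getElem _ _ he] at this
  exact this

/-- **Length of the coarse list.** -/
theorem length_granY (h : c.Ok) (hn : c.reps.Nodup) (P : ℕ) (s : ℕ × ℕ) :
    (c.granY P s).length = ∑ v ∈ range c.n, (core h).mu (c.hitI P) s v := by
  rw [length_eq_sum_count (fun y hy => Y_lt h y (granY_mem h P s y hy))]
  exact Finset.sum_congr rfl fun v hv => count_granY h hn P s (Finset.mem_range.1 hv)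

end Par

end Crest.Agent.R310.Gran
end

-- ▼ part R310/GranReps
section

/-!
# R310, block GRAN: the representatives `Par.reps`
-/

set_option linter.dupNamespace false
set_option autoImplicit false

namespace Crest.Agent.R310.Gran

namespace Par

variable (c : Par)

theorem mem_PL' {j e : ℕ} : e ∈ c.PL j ↔ e < c.L ∧ c.Pb j e = true := by
  simp [PL, List.mem_filter, List.mem_range]

theorem mem_PF' {j e : ℕ} : e ∈ c.PF j ↔ e < c.L ∧ c.Pb j e = true := by
  unfold PF; rw [Finset.mem_filter, Finset.mem_range]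

theorem meets_iff {j j' : ℕ} :
    c.meets j j' = true ↔ ∃ e, e < c.L ∧ c.Pb j e = true ∧ c.Pb j' e = true := by
  unfold meets
  rw [List.any_eq_true]
  constructor
  · rintro ⟨e, he, h⟩
    obtain ⟨h1, h2⟩ := (c.mem_PL').1 he
    exact ⟨e, h1, h2, h⟩
  · rintro ⟨e, h1, h2, h3⟩
    exact ⟨e, (c.mem_PL').2 ⟨h1, h2⟩, h3⟩

theorem meets_comm {j j' : ℕ} : c.meets j j' = true ↔ c.meets j' j = true := by
  rw [meets_iff, meets_iff]
  constructor
  · rintro ⟨e, h1, h2, h3⟩; exact ⟨e, h1, h3, h2⟩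
  · rintro ⟨e, h1, h2, h3⟩; exact ⟨e, h1, h3, h2⟩

theorem meets_self {j : ℕ} (hm : 0 < c.m) (hE : 3 ≤ c.E) (hj : c.isB j = true) :
    c.meets j j = true := by
  have h := of_decide_eq_true hj
  have hne : c.PL j ≠ [] := by
    intro h0
    rw [h0] at h
    simp only [List.length_nil, mul_zero, zero_add] at h
    have h3 : 3 * c.m ≤ c.E * c.m := Nat.mul_le_mul_right _ hE
    omega
  obtain ⟨e, he⟩ := List.exists_mem_of_ne_nil _ hne
  obtain ⟨h1, h2⟩ := (c.mem_PL').1 he
  exact (c.meets_iff).2 ⟨e, h1, h2, h2⟩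

theorem before_iff {j' j : ℕ} :
    c.before j' j = true ↔ c.nc j' < c.nc j ∨ (c.nc j' = c.nc j ∧ j' < j) := by
  simp [before]

theorem before_irrefl (j : ℕ) : ¬ c.before j j = true := by
  rw [before_iff]
  rintro (h | h)
  · exact lt_irrefl _ h
  · exact lt_irrefl _ h.2

theorem before_trans {a b d : ℕ} (h1 : c.before a b = true) (h2 : c.before b d = true) :
    c.before a d = true := by
  rw [before_iff] at *
  rcases h1 with h1 | ⟨h1, h1'⟩
  · rcases h2 with h2 | ⟨h2, h2'⟩
    · exact Or.inl (h1.trans h2)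
    · exact Or.inl (h2 ▸ h1)
  · rcases h2 with h2 | ⟨h2, h2'⟩
    · exact Or.inl (h1 ▸ h2)
    · exact Or.inr ⟨h1.trans h2, h1'.trans h2'⟩

theorem before_total {a b : ℕ} (h : a ≠ b) : c.before a b = true ∨ c.before b a = true := by
  rw [before_iff, before_iff]
  rcases lt_trichotomy (c.nc a) (c.nc b) with h1 | h1 | h1
  · exact Or.inl (Or.inl h1)
  · rcases lt_or_gt_of_ne h with h2 | h2
    · exact Or.inl (Or.inr ⟨h1, h2⟩)
    · exact Or.inr (Or.inr ⟨h1.symm, h2⟩)
  · exact Or.inr (Or.inl h1)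

theorem pos_eq_card (j : ℕ) :
    c.pos j = ((Finset.range c.n).filter (fun j' => c.before j' j = true)).card := by
  unfold pos
  rw [← List.toFinset_card_of_nodup (List.nodup_range.filter _)]
  congr 1
  ext x
  simp

theorem pos_lt_of_before {a b : ℕ} (ha : a < c.n) (h : c.before a b = true) :
    c.pos a < c.pos b := by
  rw [pos_eq_card, pos_eq_card]
  refine Finset.card_lt_card ?_
  rw [Finset.ssubset_iff_of_subset]
  · refine ⟨a, by simp [ha, h], ?_⟩
    intro h'
    exact c.before_irrefl a (Finset.mem_filter.1 h').2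
  · intro x hx
    rw [Finset.mem_filter] at hx ⊢
    exact ⟨hx.1, c.before_trans hx.2 h⟩

theorem pos_lt (j : ℕ) (hj : j < c.n) : c.pos j < c.n := by
  rw [pos_eq_card]
  calc _ < (Finset.range c.n).card := by
        refine Finset.card_lt_card ?_
        rw [Finset.ssubset_iff_of_subset (Finset.filter_subset _ _)]
        exact ⟨j, by simp [hj], fun h => c.before_irrefl j (Finset.mem_filter.1 h).2⟩
    _ = c.n := Finset.card_range _

theorem pos_inj {a b : ℕ} (ha : a < c.n) (hb : b < c.n) (h : c.pos a = c.pos b) : a = b := by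
  by_contra hne
  rcases c.before_total hne with h1 | h1
  · exact absurd h (c.pos_lt_of_before ha h1).ne
  · exact absurd h (c.pos_lt_of_before hb h1).ne'

theorem nc_le_of_pos_le {a b : ℕ} (hb : b < c.n) (h : c.pos a ≤ c.pos b) :
    c.nc a ≤ c.nc b := by
  by_contra hlt
  push Not at hlt
  have := c.pos_lt_of_before hb ((c.before_iff).2 (Or.inl hlt) : c.before b a = true)
  omega

/-- the representatives after `t` steps -/
def repsUpTo (t : ℕ) : List ℕ := (List.range t).foldl c.repStep []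

theorem repsUpTo_succ (t : ℕ) :
    c.repsUpTo (t + 1) = c.repStep (c.repsUpTo t) t := by
  unfold repsUpTo
  rw [List.range_succ, List.foldl_append]
  rfl


theorem mem_repStep {J : List ℕ} {t j : ℕ} :
    j ∈ c.repStep J t ↔ j ∈ J ∨
      (j < c.n ∧ c.isB j = true ∧ c.pos j = t ∧ ∀ j' ∈ J, ¬ c.meets j j' = true) := by
  unfold repStep
  rw [List.mem_append, List.mem_filter, List.mem_range]
  simp only [Bool.and_eq_true, decide_eq_true_eq, List.all_eq_true, Bool.not_eq_true',
    Bool.not_eq_true]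

theorem repsUpTo_mem (t : ℕ) : ∀ j ∈ c.repsUpTo t, j < c.n ∧ c.isB j = true ∧ c.pos j < t := by
  induction t with
  | zero => intro j hj; simp [repsUpTo] at hj
  | succ t ih =>
    intro j hj
    rw [repsUpTo_succ, mem_repStep] at hj
    rcases hj with hj | ⟨h1, h2, h3, _⟩
    · obtain ⟨h1, h2, h3⟩ := ih j hj
      exact ⟨h1, h2, by omega⟩
    · exact ⟨h1, h2, by omega⟩

theorem repsUpTo_nodup (t : ℕ) : (c.repsUpTo t).Nodup := by
  induction t with
  | zero => simp [repsUpTo]
  | succ t ih =>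
    rw [repsUpTo_succ]
    unfold repStep
    rw [List.nodup_append']
    refine ⟨ih, List.nodup_range.filter _, ?_⟩
    intro j hj hj'
    have h1 := c.repsUpTo_mem t j hj
    rw [List.mem_filter] at hj'
    have h2 := hj'.2
    simp only [Bool.and_eq_true, decide_eq_true_eq] at h2
    omega

theorem repsUpTo_disj (t : ℕ) :
    ∀ j ∈ c.repsUpTo t, ∀ j' ∈ c.repsUpTo t, j ≠ j' → ¬ c.meets j j' = true := by
  induction t with
  | zero => intro j hj; simp [repsUpTo] at hj
  | succ t ih =>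
    intro j hj j' hj' hne
    rw [repsUpTo_succ, mem_repStep] at hj hj'
    rcases hj with hj | ⟨h1, _, h3, h4⟩
    · rcases hj' with hj' | ⟨_, _, _, h4'⟩
      · exact ih j hj j' hj' hne
      · intro h
        exact h4' j hj ((c.meets_comm).1 h)
    · rcases hj' with hj' | ⟨h1', _, h3', _⟩
      · exact h4 j' hj'
      · exact absurd (c.pos_inj h1 h1' (h3.trans h3'.symm)) hne

theorem repsUpTo_cover (hm : 0 < c.m) (hE : 3 ≤ c.E) (t : ℕ) :
    ∀ j, j < c.n → c.isB j = true → c.pos j < t →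
      ∃ j0 ∈ c.repsUpTo t, c.pos j0 ≤ c.pos j ∧ c.meets j j0 = true := by
  induction t with
  | zero => intro j _ _ h; omega
  | succ t ih =>
    intro j hj hB hpos
    rw [repsUpTo_succ]
    rcases Nat.lt_succ_iff_lt_or_eq.1 hpos with h | h
    · obtain ⟨j0, h0, h1, h2⟩ := ih j hj hB h
      exact ⟨j0, (c.mem_repStep).2 (Or.inl h0), h1, h2⟩
    · by_cases hall : ∀ j' ∈ c.repsUpTo t, ¬ c.meets j j' = true
      · exact ⟨j, (c.mem_repStep).2 (Or.inr ⟨hj, hB, h, hall⟩), le_refl _,
          c.meets_self hm hE hB⟩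
      · push Not at hall
        obtain ⟨j', hj', hmt⟩ := hall
        have := c.repsUpTo_mem t j' hj'
        exact ⟨j', (c.mem_repStep).2 (Or.inl hj'), by omega, hmt⟩

/-- (i) the representatives are distinct -/
theorem reps_nodup : c.reps.Nodup := c.repsUpTo_nodup c.n


/-- (ii) distinct representatives have disjoint sets of hub copies -/
theorem reps_disj' {j j' : ℕ} (hj : j ∈ c.reps) (hj' : j' ∈ c.reps) (hne : j ≠ j') :
    ¬ ∃ e, e < c.L ∧ c.Pb j e = true ∧ c.Pb j' e = true := by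
  rw [← meets_iff]
  exact c.repsUpTo_disj c.n j hj j' hj' hne

/-- (ii) distinct representatives have disjoint sets of hub copies -/
theorem reps_disj {j j' : ℕ} (hj : j ∈ c.reps) (hj' : j' ∈ c.reps) (hne : j ≠ j') :
    Disjoint (c.PF j) (c.PF j') := by
  rw [Finset.disjoint_left]
  intro e he he'
  exact c.reps_disj' hj hj' hne
    ⟨e, ((c.mem_PF').1 he).1, ((c.mem_PF').1 he).2, ((c.mem_PF').1 he').2⟩


/-- (iii) every candidate client shares a hub copy with a cheaper representative -/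
theorem reps_cover' (hm : 0 < c.m) (hE : 3 ≤ c.E) {j : ℕ} (hj : j < c.n)
    (hB : c.isB j = true) :
    ∃ j0 ∈ c.reps, c.nc j0 ≤ c.nc j ∧
      ∃ e, e < c.L ∧ c.Pb j e = true ∧ c.Pb j0 e = true := by
  obtain ⟨j0, h0, h1, h2⟩ := c.repsUpTo_cover hm hE c.n j hj hB (c.pos_lt j hj)
  exact ⟨j0, h0, c.nc_le_of_pos_le hj h1, (c.meets_iff).1 h2⟩

/-- (iii) every candidate client shares a hub copy with a cheaper representative -/
theorem reps_cover {c : Par} (h : c.Ok) {j : ℕ} (hj : j < c.n) (hB : c.isB j = true) :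
    ∃ j0 ∈ c.reps, c.nc j0 ≤ c.nc j ∧ ∃ e ∈ c.PF j, e ∈ c.PF j0 := by
  obtain ⟨j0, h0, h1, e, he, he1, he2⟩ :=
    c.reps_cover' h.m_pos (by have := h.E4; omega) hj hB
  exact ⟨j0, h0, h1, e, (c.mem_PF').2 ⟨he, he1⟩, (c.mem_PF').2 ⟨he, he2⟩⟩




end Par

end Crest.Agent.R310.Gran
end

-- ▼ part R310/GranPTF

/-!
# R310, block GRAN, part 5: poly-time (helper670)

`PTFam P` = a family of parameters `Par` whose data are poly-time; `PTFam.granL`: the list of all coarse
lists is poly-time.  `granPT_of`: the form needed by `Assembly`.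
-/

set_option linter.dupNamespace false
set_option autoImplicit false

namespace Crest.Agent.R310.Gran

open Crest.Agent.Lib.PT Crest.Agent.Lib.PT.Arith Crest.LogicCS.KMedian

/-- a poly-time family of parameters -/
structure PTFam {γ : Type} [PTCode γ] (P : γ → Par) : Prop where
  r : PTF (fun c => (P c).r)
  Y : PTF (fun c => (P c).Y)
  m : PTU (fun c => (P c).m)
  Gt : PTF (fun c => (P c).Gt)
  T : PTF (fun c => (P c).T)
  E : PTF (fun c => (P c).E)
  M : PTU (fun c => (P c).M)
  K : PTF (fun c => (P c).K)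

section

variable {γ δ : Type} [PTCode γ] [PTCode δ]

theorem flatMap_congr_mem {α β : Type} {l : List α} {f g : α → List β} (h : ∀ a ∈ l, f a = g a) :
    l.flatMap f = l.flatMap g := by
  induction l with
  | nil => rfl
  | cons a l ih =>
    rw [List.flatMap_cons, List.flatMap_cons, h a (by simp), ih fun b hb => h b (by simp [hb])]

theorem ptf_headD {l : γ → List ℕ} (hl : PTF l) : PTF (fun c => (l c).headD 0) := by
  refine PTF.of_eq (PTF.optionGetD (s := fun c => (l c).head?) (d := fun _ => (0 : ℕ))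
    (PTF.head? hl) (PTF.const _)) (fun c => ?_)
  cases l c <;> rfl

namespace PTFam

variable {P : γ → Par} (H : PTFam P) {e v g x i j j' t : γ → ℕ}

theorem comp (H : PTFam P) {f : δ → γ} (hf : PTF f) : PTFam (fun a => P (f a)) :=
  ⟨PTF.comp (g := fun c => (P c).r) H.r hf, PTF.comp (g := fun c => (P c).Y) H.Y hf,
    PTU.comp (n := fun c => (P c).m) H.m hf, PTF.comp (g := fun c => (P c).Gt) H.Gt hf,
    PTF.comp (g := fun c => (P c).T) H.T hf, PTF.comp (g := fun c => (P c).E) H.E hf,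
    PTU.comp (n := fun c => (P c).M) H.M hf, PTF.comp (g := fun c => (P c).K) H.K hf⟩

include H

theorem ptu_L : PTU (fun c => (P c).L) := PTU.length H.Y

theorem ptu_n : PTU (fun c => (P c).n) := ptu_riN H.r

theorem loc (he : PTF e) : PTF (fun c => (P c).loc (e c)) := ptf_getDN he H.Y (PTF.const _)

theorem ptu_cntL (hv : PTF v) : PTU (fun c => (P c).cntL (v c)) := by
  refine PTU.length (PTF.filter (l := fun c => List.range (P c).L)
    (p := fun c e => decide ((P c).loc e = v c)) (PTF.range H.ptu_L) ?_)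
  exact PTPred.toPTF (PTPred.natEq ((H.comp PTF.fst).loc PTF.snd) (PTF.comp hv PTF.fst))

theorem isF (hv : PTF v) : PTF (fun c => (P c).isF (v c)) := by
  refine PTF.and (PTPred.toPTF (PTPred.mem hv H.Gt)) (PTPred.toPTF (PTPred.natLe ?_ ?_))
  · exact PTF.natMul (PTF.natMul (PTF.const 2) H.T)
      (PTF.natSub (PTU.toPTF H.m) (PTU.toPTF (H.ptu_cntL hv)))
  · exact PTU.toPTF H.m

theorem GfL : PTF (fun c => (P c).GfL) :=
  PTF.filter (l := fun c => (P c).Gt) (p := fun c v => (P c).isF v) H.Gt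
    ((H.comp PTF.fst).isF PTF.snd)

theorem Zb (hg : PTF g) (he : PTF e) : PTF (fun c => (P c).Zb (g c) (e c)) :=
  PTF.and (ptf_near H.r H.Y (PTU.toPTF H.m) hg he)
    (PTF.not (PTPred.toPTF (PTPred.natEq (H.loc he) hg)))

theorem ptu_load (hx : PTF x) : PTU (fun c => (P c).load (x c)) := by
  refine PTU.length (PTF.filter (l := fun c => (P c).GfL) (p := fun c g => (P c).Zb g (x c))
    H.GfL ?_)
  exact (H.comp PTF.fst).Zb PTF.snd (PTF.comp hx PTF.fst)

theorem ptu_rank (hg : PTF g) (hx : PTF x) : PTU (fun c => (P c).rank (g c) (x c)) := by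
  refine PTU.length (PTF.filter (l := fun c => (P c).GfL)
    (p := fun c g' => decide (g' < g c) && (P c).Zb g' (x c)) H.GfL ?_)
  exact PTF.and (PTPred.toPTF (PTPred.natLt PTF.snd (PTF.comp hg PTF.fst)))
    ((H.comp PTF.fst).Zb PTF.snd (PTF.comp hx PTF.fst))

theorem code (hx : PTF x) (hi : PTF i) : PTF (fun c => (P c).code (x c) (i c)) :=
  PTF.natAdd (PTF.natMul hx (PTF.natAdd (PTU.toPTF H.ptu_n) (PTF.const 1))) hi

theorem nc (hj : PTF j) : PTF (fun c => (P c).nc (j c)) := by
  refine PTF.ratSumRange H.ptu_L (f := fun c e => if near (P c).r (P c).Y (P c).m (j c) e = true then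
    riD (P c).r ((P c).loc e) (j c) else 0) ?_
  have H1 : PTFam (fun p : γ × ℕ => P p.1) := H.comp PTF.fst
  have hj1 : PTF (fun p : γ × ℕ => j p.1) := PTF.comp hj PTF.fst
  exact PTF.ite (PTF.toPTPred (ptf_near H1.r H1.Y (PTU.toPTF H1.m) hj1 PTF.snd))
    (ptf_riD H1.r (H1.loc PTF.snd) hj1) (PTF.const _)

theorem Pb (hj : PTF j) (he : PTF e) : PTF (fun c => (P c).Pb (j c) (e c)) := by
  refine PTF.and (PTF.and (ptf_near H.r H.Y (PTU.toPTF H.m) hj he) (PTF.not (H.isF (H.loc he))))
    (PTPred.toPTF (PTPred.ratLe ?_ ?_))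
  · exact PTF.ratMul (PTF.ratNatCast (PTU.toPTF H.m)) (ptf_riD H.r (H.loc he) hj)
  · exact PTF.ratMul (PTF.ratNatCast H.E) (H.nc hj)

theorem PL (hj : PTF j) : PTF (fun c => (P c).PL (j c)) :=
  PTF.filter (l := fun c => List.range (P c).L) (p := fun c e => (P c).Pb (j c) e)
    (PTF.range H.ptu_L) ((H.comp PTF.fst).Pb (PTF.comp hj PTF.fst) PTF.snd)

theorem isB (hj : PTF j) : PTF (fun c => (P c).isB (j c)) := by
  have h : PTF (fun c => decide ((P c).E * (P c).m ≤
      (P c).E * ((P c).PL (j c)).length + 2 * (P c).m)) := by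
    refine PTPred.toPTF (PTPred.natLe ?_ ?_)
    · exact PTF.natMul H.E (PTU.toPTF H.m)
    · exact PTF.natAdd (PTF.natMul H.E (PTU.toPTF (PTU.length (H.PL hj))))
        (PTF.natMul (PTF.const 2) (PTU.toPTF H.m))
  first
    | exact h
    | exact PTF.and (ptf_riC H.r hj) h

theorem before (hj' : PTF j') (hj : PTF j) : PTF (fun c => (P c).before (j' c) (j c)) :=
  PTF.or (PTPred.toPTF (PTPred.ratLt (H.nc hj') (H.nc hj)))
    (PTF.and (PTPred.toPTF (PTPred.ratEq (H.nc hj') (H.nc hj))) (PTPred.toPTF (PTPred.natLt hj' hj)))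

theorem ptu_pos (hj : PTF j) : PTU (fun c => (P c).pos (j c)) := by
  refine PTU.length (PTF.filter (l := fun c => List.range (P c).n)
    (p := fun c j' => (P c).before j' (j c)) (PTF.range H.ptu_n) ?_)
  exact (H.comp PTF.fst).before PTF.snd (PTF.comp hj PTF.fst)

theorem meets (hj : PTF j) (hj' : PTF j') : PTF (fun c => (P c).meets (j c) (j' c)) :=
  PTF.any (l := fun c => (P c).PL (j c)) (p := fun c e => (P c).Pb (j' c) e) (H.PL hj)
    ((H.comp PTF.fst).Pb (PTF.comp hj' PTF.fst) PTF.snd)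

theorem repNew {J : γ → List ℕ} (hJ : PTF J) (ht : PTF t) :
    PTF (fun c => (List.range (P c).n).filter (fun j => (P c).isB j && (decide ((P c).pos j = t c)
      && (J c).all (fun j' => !(P c).meets j j')))) := by
  refine PTF.filter (l := fun c => List.range (P c).n) (p := fun c j => (P c).isB j &&
    (decide ((P c).pos j = t c) && (J c).all (fun j' => !(P c).meets j j'))) (PTF.range H.ptu_n) ?_
  have H1 : PTFam (fun p : γ × ℕ => P p.1) := H.comp PTF.fst
  refine PTF.and (H1.isB PTF.snd) (PTF.and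
    (PTPred.toPTF (PTPred.natEq (PTU.toPTF (H1.ptu_pos PTF.snd)) (PTF.comp ht PTF.fst))) ?_)
  refine PTF.all (l := fun p : γ × ℕ => J p.1) (p := fun p j' => !(P p.1).meets p.2 j')
    (PTF.comp hJ PTF.fst) (PTF.not ?_)
  exact (H1.comp PTF.fst).meets (PTF.comp PTF.snd PTF.fst) PTF.snd

theorem repStep {J : γ → List ℕ} (hJ : PTF J) (ht : PTF t) :
    PTF (fun c => (P c).repStep (J c) (t c)) :=
  PTF.append hJ (H.repNew hJ ht)

theorem reps : PTF (fun c => (P c).reps) := by
  refine PTF.foldl_add (l := fun c => List.range (P c).n)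
    (f := fun c J t => (P c).repStep J t) (b := fun _ => []) (PTF.range H.ptu_n) ?_ (PTF.const _)
    (G := fun c => sz (List.range (P c).n)) (PTF.range H.ptu_n).sz ?_
  · exact (H.comp (PTF.fst (α := γ) (β := List ℕ × ℕ))).repStep
      (PTF.comp PTF.fst PTF.snd) (PTF.comp PTF.snd PTF.snd)
  · intro c J t _
    change sz (J ++ _) ≤ _
    rw [sz_append]
    refine Nat.add_le_add_left ?_ _
    have key : ∀ (l : List ℕ) (p : ℕ → Bool), sz (l.filter p) ≤ sz l := by
      intro l p
      induction l with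
      | nil => simp
      | cons a l ih =>
        rw [sz_list, sz_list] at *
        by_cases h : p a = true
        · rw [List.filter_cons_of_pos h]
          simp only [List.map_cons, List.sum_cons]
          omega
        · rw [List.filter_cons_of_neg h]
          simp only [List.map_cons, List.sum_cons]
          omega
    exact key _ _

theorem pt (hj : PTF j) : PTF (fun c => (P c).pt (j c)) := H.loc (ptf_headD (H.PL hj))

theorem hit {Q : γ → ℕ} {s : γ → ℕ × ℕ} (hQ : PTF Q) (hs : PTF s) (hx : PTF x) (hi : PTF i) :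
    PTF (fun c => (P c).hit (Q c) (s c) (x c) (i c)) := by
  refine PTPred.toPTF (PTPred.natLt (PTF.natMod ?_ hQ) ?_)
  · exact PTF.natAdd (PTF.natMul (PTF.comp PTF.fst hs) (H.code hx hi)) (PTF.comp PTF.snd hs)
  · exact PTF.natDiv (PTF.natMul (PTU.toPTF H.M) hQ) (PTU.toPTF H.m)

theorem ptu_zc {Q : γ → ℕ} {s : γ → ℕ × ℕ} (hQ : PTF Q) (hs : PTF s) (hg : PTF g) :
    PTU (fun c => (P c).zc (Q c) (s c) (g c)) := by
  refine PTU.length (PTF.filter (l := fun c => List.range (P c).L)
    (p := fun c x => (P c).Zb (g c) x && (P c).hit (Q c) (s c) x ((P c).rank (g c) x / (P c).K))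
    (PTF.range H.ptu_L) ?_)
  have H1 : PTFam (fun p : γ × ℕ => P p.1) := H.comp PTF.fst
  have hg1 : PTF (fun p : γ × ℕ => g p.1) := PTF.comp hg PTF.fst
  exact PTF.and (H1.Zb hg1 PTF.snd) (H1.hit (PTF.comp hQ PTF.fst) (PTF.comp hs PTF.fst) PTF.snd
    (PTF.natDiv (PTU.toPTF (H1.ptu_rank hg1 PTF.snd)) H1.K))

theorem ptu_pc {Q : γ → ℕ} {s : γ → ℕ × ℕ} (hQ : PTF Q) (hs : PTF s) (hj : PTF j) :
    PTU (fun c => (P c).pc (Q c) (s c) (j c)) := by
  refine PTU.length (PTF.filter (l := fun c => (P c).PL (j c))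
    (p := fun c x => (P c).hit (Q c) (s c) x 0) (H.PL hj) ?_)
  exact (H.comp PTF.fst).hit (PTF.comp hQ PTF.fst) (PTF.comp hs PTF.fst) PTF.snd (PTF.const _)

theorem partF {Q : γ → ℕ} {s : γ → ℕ × ℕ} (hQ : PTF Q) (hs : PTF s) :
    PTF (fun c => (P c).partF (Q c) (s c)) := by
  refine PTF.flatMap (l := fun c => (P c).GfL)
    (f := fun c g => List.replicate ((P c).M - min ((P c).M / 2) ((P c).zc (Q c) (s c) g)) g)
    H.GfL ?_
  have H1 : PTFam (fun p : γ × ℕ => P p.1) := H.comp PTF.fst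
  refine PTF.replicate (PTU.sub H1.M (PTF.natMinUn (PTF.natDiv (PTU.toPTF H1.M) (PTF.const 2)) ?_))
    PTF.snd
  exact H1.ptu_zc (PTF.comp hQ PTF.fst) (PTF.comp hs PTF.fst) PTF.snd

theorem partA {Q : γ → ℕ} {s : γ → ℕ × ℕ} (hQ : PTF Q) (hs : PTF s) :
    PTF (fun c => (P c).partA (Q c) (s c)) := by
  refine PTF.flatMap (l := fun c => (P c).reps)
    (f := fun c j => List.replicate ((P c).M - (P c).pc (Q c) (s c) j) ((P c).pt j)) H.reps ?_
  have H1 : PTFam (fun p : γ × ℕ => P p.1) := H.comp PTF.fst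
  exact PTF.replicate (PTU.sub H1.M (H1.ptu_pc (PTF.comp hQ PTF.fst) (PTF.comp hs PTF.fst) PTF.snd))
    (H1.pt PTF.snd)

/-- `live` with a bounded range -/
theorem liveL (he : PTF e) :
    PTF (fun c => decide (((List.range (min (e c) (P c).L)).filter
      (fun e' => decide ((P c).loc e' = (P c).loc (e c)))).length < (P c).m)) := by
  refine PTPred.toPTF (PTPred.natLt (PTU.toPTF (PTU.length (PTF.filter
    (l := fun c => List.range (min (e c) (P c).L))
    (p := fun c e' => decide ((P c).loc e' = (P c).loc (e c)))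
    (PTF.range (PTF.natMinUn he H.ptu_L)) ?_))) (PTU.toPTF H.m))
  have H1 : PTFam (fun p : γ × ℕ => P p.1) := H.comp PTF.fst
  exact PTPred.toPTF (PTPred.natEq (H1.loc PTF.snd) (H1.loc (PTF.comp he PTF.fst)))

theorem liveList : PTF (fun c => (List.range (P c).L).filter
    (fun x => (P c).live x && !(P c).isF ((P c).loc x))) := by
  refine PTF.of_eq (PTF.filter (l := fun c => List.range (P c).L)
    (p := fun c x => decide (((List.range (min x (P c).L)).filter
      (fun e' => decide ((P c).loc e' = (P c).loc x))).length < (P c).m)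
        && !(P c).isF ((P c).loc x)) (PTF.range H.ptu_L) ?_) (fun c => ?_)
  · have H1 : PTFam (fun p : γ × ℕ => P p.1) := H.comp PTF.fst
    exact PTF.and (H1.liveL PTF.snd) (PTF.not (H1.isF (H1.loc PTF.snd)))
  · refine List.filter_congr fun x hx => ?_
    have hx' : x < (P c).L := List.mem_range.1 hx
    rw [min_eq_left hx'.le]
    rfl

theorem partH {Q : γ → ℕ} {s : γ → ℕ × ℕ} (hQ : PTF Q) (hs : PTF s) :
    PTF (fun c => (P c).partH (Q c) (s c)) := by
  refine PTF.flatMap (l := fun c => (List.range (P c).L).filter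
      (fun x => (P c).live x && !(P c).isF ((P c).loc x)))
    (f := fun c x => ((List.range ((P c).load x / (P c).K + 1)).filter
      (fun i => (P c).hit (Q c) (s c) x i)).map (fun _ => (P c).loc x)) H.liveList ?_
  have H1 : PTFam (fun p : γ × ℕ => P p.1) := H.comp PTF.fst
  have hu : PTU (fun p : γ × ℕ => (P p.1).load p.2 / (P p.1).K + 1) := by
    refine PTU.succ ?_
    have h1 : PTU (fun p : γ × ℕ => (P p.1).load p.2) := H1.ptu_load PTF.snd
    refine PTU.of_eq (PTF.natMinUn (PTF.natDiv (PTU.toPTF h1) H1.K) h1) (fun p => ?_)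
    exact min_eq_left (Nat.div_le_self _ _)
  refine PTF.map (l := fun p : γ × ℕ => (List.range ((P p.1).load p.2 / (P p.1).K + 1)).filter
      (fun i => (P p.1).hit (Q p.1) (s p.1) p.2 i)) (f := fun p _ => (P p.1).loc p.2) ?_ ?_
  · refine PTF.filter (l := fun p : γ × ℕ => List.range ((P p.1).load p.2 / (P p.1).K + 1))
      (p := fun p i => (P p.1).hit (Q p.1) (s p.1) p.2 i) (PTF.range hu) ?_
    have h0 : PTF (fun z : (γ × ℕ) × ℕ => z.1.1) := PTF.comp PTF.fst PTF.fst
    exact (H1.comp PTF.fst).hit (PTF.comp hQ h0) (PTF.comp hs h0) (PTF.comp PTF.snd PTF.fst)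
      PTF.snd
  · exact (H1.comp PTF.fst).loc (PTF.comp PTF.snd PTF.fst)

theorem granY {Q : γ → ℕ} {s : γ → ℕ × ℕ} (hQ : PTF Q) (hs : PTF s) :
    PTF (fun c => (P c).granY (Q c) (s c)) :=
  PTF.append (H.partF hQ hs) (PTF.append (H.partH hQ hs) (H.partA hQ hs))

theorem ptu_X : PTU (fun c => (P c).X) := PTU.mul H.ptu_L (PTU.succ H.ptu_n)

/-- **the list of all coarse lists is poly-time** -/
theorem granL : PTF (fun c => (P c).granL) := by
  have hn : PTU (fun c => 2 * (P c).X + 1) := PTU.succ (PTU.mul (PTU.const 2) H.ptu_X)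
  refine PTF.of_eq (f := fun c => (List.range (2 * (P c).X + 1)).flatMap (fun Q =>
    (List.range (min Q (2 * (P c).X + 1))).flatMap (fun a =>
      (List.range (min Q (2 * (P c).X + 1))).map (fun b => (P c).granY Q (a, b))))) ?_
      (fun c => ?_)
  · refine PTF.flatMap (l := fun c => List.range (2 * (P c).X + 1)) (f := fun c Q =>
      (List.range (min Q (2 * (P c).X + 1))).flatMap (fun a =>
      (List.range (min Q (2 * (P c).X + 1))).map (fun b => (P c).granY Q (a, b))))
      (PTF.range hn) ?_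
    have hu : PTU (fun p : γ × ℕ => min p.2 (2 * (P p.1).X + 1)) :=
      PTF.natMinUn PTF.snd (PTU.comp (n := fun c => 2 * (P c).X + 1) hn PTF.fst)
    refine PTF.flatMap (l := fun p : γ × ℕ => List.range (min p.2 (2 * (P p.1).X + 1)))
      (f := fun p a => (List.range (min p.2 (2 * (P p.1).X + 1))).map
        (fun b => (P p.1).granY p.2 (a, b))) (PTF.range hu) ?_
    refine PTF.map (l := fun q : (γ × ℕ) × ℕ => List.range (min q.1.2 (2 * (P q.1.1).X + 1)))
      (f := fun q b => (P q.1.1).granY q.1.2 (q.2, b)) (PTF.range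
        (PTU.comp (n := fun p : γ × ℕ => min p.2 (2 * (P p.1).X + 1)) hu PTF.fst)) ?_
    have h1 : PTF (fun z : ((γ × ℕ) × ℕ) × ℕ => z.1.1.1) :=
      PTF.comp PTF.fst (PTF.comp PTF.fst PTF.fst)
    have h2 : PTF (fun z : ((γ × ℕ) × ℕ) × ℕ => z.1.1.2) :=
      PTF.comp PTF.snd (PTF.comp PTF.fst PTF.fst)
    have h3 : PTF (fun z : ((γ × ℕ) × ℕ) × ℕ => z.1.2) := PTF.comp PTF.snd PTF.fst
    exact (H.comp h1).granY h2 (PTF.prodMk h3 PTF.snd)
  · unfold Par.granL
    refine flatMap_congr_mem fun Q hQ => ?_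
    have hQ' : Q < 2 * (P c).X + 1 := List.mem_range.1 hQ
    rw [min_eq_left hQ'.le]

end PTFam

/-- the form needed by `Assembly`: constants `T E M`, load bound `K = κ s` -/
theorem granPT_of (T E M κ : ℕ) :
    GranPT (fun r Y m Gt s => (⟨r, Y, m, Gt, T, E, M, κ * s⟩ : Par).granL) := by
  intro r Y m Gt s hr hY hm hGt hs
  exact PTFam.granL (P := fun c => ⟨r c, Y c, m c, Gt c, T, E, M, κ * s c⟩)
    ⟨hr, hY, hm, hGt, PTF.const _, PTF.const _, PTU.const _, PTF.natMul (PTF.const _) hs⟩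

end

end Crest.Agent.R310.Gran
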