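import Crest.Agent.R310.GranSeed
import Crest.Agent.R310.GranPTF_Mg
import Crest.Agent.R310.Res
import Crest.Agent.R310.Assembly
import Crest.Agent.R310.TightSmall
import Crest.Agent.R310.TightSmallCode
import Crest.Agent.R310.FracSpec

-- ▼ part R310/GranLoad
section

/-!
# R310, block GRAN: loads of the items (helper670)
-/

set_option linter.dupNamespace false
set_option autoImplicit false

namespace Crest.Agent.R310.Gran.Par

open Finset

variable {c : Par}

theorem rank_lt_rank (h : c.Ok) {x g g' : ℕ} (hg : g ∈ c.Gf) (hx : c.Zb g x = true) (hlt : g < g') :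
    c.rank g x < c.rank g' x := by
  rw [rank_eq h, rank_eq h]
  apply card_lt_card
  rw [ssubset_iff_of_subset]
  · exact ⟨g, mem_filter.2 ⟨hg, hlt, hx⟩, by simp⟩
  · intro g₁ hg₁
    rw [mem_filter] at hg₁ ⊢
    exact ⟨hg₁.1, hg₁.2.1.trans hlt, hg₁.2.2⟩

/-- every item is used by at most `K` tight locations -/
theorem load_bound (h : c.Ok) (q : ℕ × ℕ) (_hq : q ∈ c.UF) :
    (c.Gf.filter (fun g => q ∈ c.ZI g)).card ≤ c.K := by
  have h1 : (c.Gf.filter (fun g => q ∈ c.ZI g)).card ≤ (Finset.Ico (q.2 * c.K) (q.2 * c.K + c.K)).card := by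
    refine card_le_card_of_injOn (fun g => c.rank g q.1) ?_ ?_
    · intro g hg
      rw [mem_coe, mem_filter, mem_ZI] at hg
      rw [mem_coe, mem_Ico]
      have h2 : q.2 = c.rank g q.1 / c.K := hg.2.2
      have h3 : c.K * (c.rank g q.1 / c.K) ≤ c.rank g q.1 := Nat.mul_div_le _ _
      have h4 : c.rank g q.1 < c.rank g q.1 / c.K * c.K + c.K :=
        Nat.lt_div_mul_add h.K_pos
      rw [h2]
      constructor
      · rw [mul_comm]; exact h3
      · exact h4
    · intro g hg g' hg' he
      rw [mem_coe, mem_filter, mem_ZI] at hg hg'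
      by_contra hne
      rcases lt_or_gt_of_ne hne with hlt | hlt
      · have := rank_lt_rank h hg.1 (mem_ZF_iff.1 hg.2.1).2 hlt
        have he' : c.rank g q.1 = c.rank g' q.1 := he
        omega
      · have := rank_lt_rank h hg'.1 (mem_ZF_iff.1 hg'.2.1).2 hlt
        have he' : c.rank g q.1 = c.rank g' q.1 := he
        omega
  simpa using h1

theorem sum_load (h : c.Ok) : ∑ x ∈ range c.L, c.load x = ∑ g ∈ c.Gf, (c.ZF g).card := by
  have h1 : ∀ x ∈ range c.L, c.load x = ∑ g ∈ c.Gf, if c.Zb g x = true then 1 else 0 := by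
    intro x _
    rw [load_eq h, card_filter]
  rw [sum_congr rfl h1, sum_comm]
  refine sum_congr rfl fun g _ => ?_
  unfold ZF
  rw [card_filter]

/-- number of hub items -/
theorem hub_items (h : c.Ok) : c.K * ((core h).H.card) ≤
    c.K * ((c.liveF.filter (fun e => c.loc e ∉ c.Gf)).card) + ∑ g ∈ c.Gf, (c.ZF g).card := by
  classical
  set B := c.liveF.filter (fun e => c.loc e ∉ c.Gf) with hB
  have hH : ∀ q ∈ (core h).H, q.1 ∈ B ∧ q.2 ≤ c.load q.1 / c.K := by
    intro q hq
    have hq1 : q ∈ c.UF ∧ c.loc q.1 ∉ c.Gf := by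
      have := (mem_filter.1 hq)
      exact this
    obtain ⟨h2, _, h3⟩ := mem_UF.1 hq1.1
    exact ⟨mem_filter.2 ⟨h2, hq1.2⟩, h3⟩
  have h1 : (core h).H.card = ∑ x ∈ B, ((core h).H.filter (fun q => q.1 = x)).card :=
    card_eq_sum_card_fiberwise fun q hq => (hH q hq).1
  have h2 : ∀ x ∈ B, ((core h).H.filter (fun q => q.1 = x)).card ≤ c.load x / c.K + 1 := by
    intro x _
    have h3 : ((core h).H.filter (fun q => q.1 = x)).card ≤ (range (c.load x / c.K + 1)).card := by
      refine card_le_card_of_injOn (fun q => q.2) ?_ ?_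
      · intro q hq
        rw [mem_coe, mem_filter] at hq
        rw [mem_coe, mem_range]
        have h4 := (hH q hq.1).2
        rw [hq.2] at h4
        exact Nat.lt_succ_of_le h4
      · intro q hq q' hq' he
        rw [mem_coe, mem_filter] at hq hq'
        exact Prod.ext (hq.2.trans hq'.2.symm) he
    simpa using h3
  have h3 : (core h).H.card ≤ ∑ x ∈ B, (c.load x / c.K + 1) := by
    rw [h1]; exact sum_le_sum h2
  have h4 : c.K * (core h).H.card ≤ ∑ x ∈ B, (c.load x + c.K) := by
    refine (Nat.mul_le_mul_left _ h3).trans ?_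
    rw [mul_sum]
    refine sum_le_sum fun x _ => ?_
    have := Nat.mul_div_le (c.load x) c.K
    calc c.K * (c.load x / c.K + 1) = c.K * (c.load x / c.K) + c.K := by ring
      _ ≤ _ := by omega
  have h5 : ∑ x ∈ B, c.load x ≤ ∑ g ∈ c.Gf, (c.ZF g).card := by
    rw [← sum_load h]
    refine sum_le_sum_of_subset ?_
    intro x hx
    exact mem_range.2 (mem_liveF.1 (mem_filter.1 hx).1).1
  rw [sum_add_distrib, sum_const, smul_eq_mul] at h4
  calc c.K * (core h).H.card ≤ ∑ x ∈ B, c.load x + B.card * c.K := h4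
    _ ≤ ∑ g ∈ c.Gf, (c.ZF g).card + B.card * c.K := by omega
    _ = _ := by ring

end Crest.Agent.R310.Gran.Par
end

-- ▼ part R310/GranFin
section

/-!
# R310, block GRAN, part 9: the block theorem
-/

set_option linter.dupNamespace false
set_option linter.unusedSectionVars false
set_option autoImplicit false

namespace Crest.Agent.R310.Gran

open Finset

/-- numeric conditions on the constants -/
structure Num (e : ℚ) (C1 C2 T E M : ℕ) : Prop where
  he : 0 < e
  he1 : 8 * e ≤ 1
  C2_pos : 0 < C2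
  T2 : 2 ≤ T
  E4 : 4 ≤ E
  M_pos : 0 < M
  M_even : 2 ∣ M
  T1 : 3 * (C2 : ℚ) ≤ e ^ 2 * T
  T8 : 8 ≤ e * T
  E72 : 72 * ((2 * T * C2 + C1 + C2 + 1 : ℕ) : ℚ) ≤ e ^ 2 * E
  ME : 2 * E + E ^ 2 ≤ M
  M1 : 4 * (((2 * T * C2 + C1 + C2 + 1 : ℕ) : ℚ) + C2 ^ 2) ≤ e ^ 3 * M
  M3 : 6 * (C2 : ℚ) ≤ e ^ 2 * M
  M8 : 8 ≤ e * M
  M81 : 81 * (E : ℚ) ^ 2 ≤ e ^ 2 * M
  M18 : 18 * (E : ℚ) ≤ e * M

theorem exists_num {e : ℚ} (he : 0 < e) (he1 : 8 * e ≤ 1) (C1 C2 : ℕ) (hC2 : 0 < C2) :
    ∃ T E M : ℕ, Num e C1 C2 T E M := by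
  obtain ⟨T, hT⟩ := exists_nat_ge (3 * (C2 : ℚ) / e ^ 2 + 8 / e + 2)
  have hT' : 3 * (C2 : ℚ) / e ^ 2 ≤ T ∧ 8 / e ≤ T ∧ (2 : ℚ) ≤ T := by
    have h1 : 0 ≤ 3 * (C2 : ℚ) / e ^ 2 := by positivity
    have h2 : 0 ≤ 8 / e := by positivity
    refine ⟨?_, ?_, ?_⟩ <;> linarith
  set CH : ℕ := 2 * T * C2 + C1 + C2 + 1 with hCH
  obtain ⟨E, hE⟩ := exists_nat_ge (72 * (CH : ℚ) / e ^ 2 + 4)
  have hE' : 72 * (CH : ℚ) / e ^ 2 ≤ E ∧ (4 : ℚ) ≤ E := by
    have h1 : 0 ≤ 72 * (CH : ℚ) / e ^ 2 := by positivity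
    refine ⟨?_, ?_⟩ <;> linarith
  obtain ⟨M', hM⟩ := exists_nat_ge ((2 * (E : ℚ) + E ^ 2) + 4 * ((CH : ℚ) + C2 ^ 2) / e ^ 3
    + 6 * (C2 : ℚ) / e ^ 2 + 8 / e + 81 * (E : ℚ) ^ 2 / e ^ 2 + 18 * (E : ℚ) / e + 1)
  have a1 : 0 ≤ 2 * (E : ℚ) + E ^ 2 := by positivity
  have a2 : 0 ≤ 4 * ((CH : ℚ) + C2 ^ 2) / e ^ 3 := by positivity
  have a3 : 0 ≤ 6 * (C2 : ℚ) / e ^ 2 := by positivity
  have a4 : 0 ≤ 8 / e := by positivity
  have a5 : 0 ≤ 81 * (E : ℚ) ^ 2 / e ^ 2 := by positivity
  have a6 : 0 ≤ 18 * (E : ℚ) / e := by positivity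
  have hM0 : (0 : ℚ) ≤ M' := by positivity
  have h2M : (M' : ℚ) ≤ ((2 * M' : ℕ) : ℚ) := by push_cast; linarith
  have hMpos : (1 : ℚ) ≤ M' := by linarith
  refine ⟨T, E, 2 * M', he, he1, hC2, by exact_mod_cast hT'.2.2, by exact_mod_cast hE'.2, ?_,
    Dvd.intro _ rfl, ?_, ?_, ?_, ?_, ?_, ?_, ?_, ?_, ?_⟩
  · have : 1 ≤ M' := by exact_mod_cast hMpos
    omega
  · have := hT'.1
    rw [div_le_iff₀ (by positivity)] at this; linarith
  · have := hT'.2.1
    rw [div_le_iff₀ he] at this; linarith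
  · have := hE'.1
    rw [div_le_iff₀ (by positivity)] at this; linarith
  · have : (2 * (E : ℚ) + E ^ 2) ≤ ((2 * M' : ℕ) : ℚ) := by linarith
    exact_mod_cast this
  · have : 4 * ((CH : ℚ) + C2 ^ 2) / e ^ 3 ≤ ((2 * M' : ℕ) : ℚ) := by linarith
    rw [div_le_iff₀ (by positivity)] at this; linarith
  · have : 6 * (C2 : ℚ) / e ^ 2 ≤ ((2 * M' : ℕ) : ℚ) := by linarith
    rw [div_le_iff₀ (by positivity)] at this; linarith
  · have : 8 / e ≤ ((2 * M' : ℕ) : ℚ) := by linarith
    rw [div_le_iff₀ he] at this; linarith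
  · have : 81 * (E : ℚ) ^ 2 / e ^ 2 ≤ ((2 * M' : ℕ) : ℚ) := by linarith
    rw [div_le_iff₀ (by positivity)] at this; linarith
  · have : 18 * (E : ℚ) / e ≤ ((2 * M' : ℕ) : ℚ) := by linarith
    rw [div_le_iff₀ he] at this; linarith

namespace Par

variable {c : Par}

theorem own_sum (h : c.Ok) : (c.liveF.filter (fun e => c.loc e ∉ c.Gf)).card + c.m * c.Gf.card
    ≤ c.L + ∑ g ∈ c.Gf, (c.ZF g).card := by
  have h1 : (c.liveF.filter (fun e => c.loc e ∈ c.Gf)).card = ∑ g ∈ c.Gf, (c.own g).card := by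
    have hm : ∀ e ∈ c.liveF.filter (fun e => c.loc e ∈ c.Gf), c.loc e ∈ c.Gf :=
      fun e he => (mem_filter.1 he).2
    rw [card_eq_sum_card_fiberwise hm]
    refine sum_congr rfl fun g hg => ?_
    congr 1
    ext e
    rw [mem_own, mem_filter, mem_filter]
    constructor
    · rintro ⟨⟨a, _⟩, b⟩; exact ⟨a, b⟩
    · rintro ⟨a, b⟩; exact ⟨⟨a, b ▸ hg⟩, b⟩
  have h2 : (c.liveF.filter (fun e => c.loc e ∈ c.Gf)).card
      + (c.liveF.filter (fun e => c.loc e ∉ c.Gf)).card = c.liveF.card :=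
    card_filter_add_card_filter_not _
  have h3 : c.liveF.card ≤ c.L := by
    have := card_le_card (filter_subset (fun e => c.live e = true) (range c.L))
    rw [card_range] at this
    exact this
  have h4 : ∑ g ∈ c.Gf, (c.ZF g).card + ∑ g ∈ c.Gf, (c.own g).card = c.m * c.Gf.card := by
    rw [← sum_add_distrib, sum_congr rfl fun g hg => card_ZF_own h (Gf_lt h hg), sum_const,
      smul_eq_mul, mul_comm]
  omega

theorem sum_ZF_le (h : c.Ok) {D : ℕ} (hD : ∑ g ∈ c.Gt.toFinset, (c.m - c.cntL g) ≤ D) :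
    ∑ g ∈ c.Gf, (c.ZF g).card ≤ D := by
  refine le_trans ?_ hD
  have hsub : c.Gf ⊆ c.Gt.toFinset := by
    intro g hg
    rw [mem_Gf, isF_iff] at hg
    exact List.mem_toFinset.2 hg.1
  exact (sum_le_sum fun g hg => card_ZF_le h (Gf_lt h hg)).trans
    (sum_le_sum_of_subset hsub)

theorem Gt_le (h : c.Ok) {C2 s : ℕ}
    (hD : ∑ g ∈ c.Gt.toFinset, (c.m - c.cntL g) ≤ C2 * s * c.m) :
    c.Gt.length ≤ c.Gf.card + 2 * c.T * C2 * s := by
  have h1 : c.Gt.toFinset.card = c.Gt.length := List.toFinset_card_of_nodup h.Gt_nodup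
  have h2 : c.Gf = c.Gt.toFinset.filter (fun g => c.isF g = true) := by
    unfold Gf GfL; ext g; simp
  have h3 : (c.Gt.toFinset.filter (fun g => c.isF g = true)).card
      + (c.Gt.toFinset.filter (fun g => ¬ c.isF g = true)).card = c.Gt.toFinset.card :=
    card_filter_add_card_filter_not _
  have h4 : (c.Gt.toFinset.filter (fun g => ¬ c.isF g = true)).card * c.m
      ≤ 2 * c.T * C2 * s * c.m := by
    have h5 : ∀ g ∈ c.Gt.toFinset.filter (fun g => ¬ c.isF g = true),
        c.m ≤ 2 * c.T * (c.m - c.cntL g) := by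
      intro g hg
      rw [mem_filter, List.mem_toFinset, isF_iff] at hg
      by_contra hcon
      push Not at hcon
      exact hg.2 ⟨hg.1, hcon.le⟩
    calc (c.Gt.toFinset.filter (fun g => ¬ c.isF g = true)).card * c.m
        = ∑ _g ∈ c.Gt.toFinset.filter (fun g => ¬ c.isF g = true), c.m := by
          rw [sum_const, smul_eq_mul]
      _ ≤ ∑ g ∈ c.Gt.toFinset.filter (fun g => ¬ c.isF g = true),
          2 * c.T * (c.m - c.cntL g) := sum_le_sum h5
      _ ≤ ∑ g ∈ c.Gt.toFinset, 2 * c.T * (c.m - c.cntL g) :=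
          sum_le_sum_of_subset (filter_subset _ _)
      _ = 2 * c.T * ∑ g ∈ c.Gt.toFinset, (c.m - c.cntL g) := by rw [mul_sum]
      _ ≤ 2 * c.T * (C2 * s * c.m) := Nat.mul_le_mul_left _ hD
      _ = 2 * c.T * C2 * s * c.m := by ring
  have h6 := Nat.le_of_mul_le_mul_right h4 h.m_pos
  rw [h2]
  omega

theorem granY_mem_granL {P : ℕ} (hP : P ≤ 2 * c.X) {s : ℕ × ℕ} (hs : s ∈ seeds P) :
    c.granY P s ∈ c.granL := by
  unfold seeds at hs
  rw [mem_product, mem_range, mem_range] at hs
  unfold granL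
  refine List.mem_flatMap.2 ⟨P, List.mem_range.2 (by omega), List.mem_flatMap.2
    ⟨s.1, List.mem_range.2 hs.1, List.mem_map.2 ⟨s.2, List.mem_range.2 hs.2, rfl⟩⟩⟩

/-- **the block theorem for one parameter set** -/
theorem main (h : c.Ok) {e : ℚ} {C1 C2 s : ℕ} (hN : Num e C1 C2 c.T c.E c.M) (hK : c.K = C2 * s)
    (hs : 3 ≤ 8 * e * s) {D : Finset ℕ} (hDn : ∀ j ∈ D, j < c.n) {A : ℚ} (hA : 0 < A)
    (hcost : ∑ j ∈ D, c.nc j ≤ c.m * A)
    (hdef : ∑ g ∈ c.Gt.toFinset, (c.m - c.cntL g) ≤ C2 * s * c.m)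
    (hlen : c.L ≤ c.m * (c.Gt.length + C1 * s)) {C3 : ℕ}
    (hC3 : 4 / e * (c.M * C2) ≤ C3) :
    ∃ Yc ∈ c.granL, (∀ y ∈ Yc, y ∈ c.Y) ∧ c.M ≤ Yc.length ∧
      ∑ j ∈ D, ∑ e ∈ (range Yc.length).filter (fun e => near c.r Yc c.M j e = true),
        riD c.r (Yc.getD e 0) j ≤ c.M * ((1 + 8 * e) * A) ∧
      (Yc.length : ℚ) * c.m ≤ c.M * (c.L + 8 * e * s * c.m) ∧
      c.Gt.length ≤ (c.Gt.filter (fun g => decide (c.M ≤ Yc.count g))).length
        + (2 * c.T * C2 + C3) * s := by
  classical
  obtain ⟨P, hPp, hP1, hP2⟩ := exists_seed_prime h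
  have hP0 : 0 < P := hPp.pos
  set p : ℚ := ((c.M * P / c.m : ℕ) : ℚ) / P with hp
  have hPW : PW (seeds P) (c.hitI P) p c.UF :=
    hash_pw hPp (thr_le h P) c.UF (fun q => c.code q.1 q.2)
      (fun q hq => (code_lt hq).trans hP1) (fun q hq q' hq' => code_inj hq hq')
  have hpm : p * c.m ≤ c.M := rate_le (c := c) hP0
  have hpm1 : (c.M : ℚ) - 1 ≤ p * c.m := rate_ge h hP1
  have hpmn : ((c.M : ℚ) - p * c.m) * c.n ≤ 1 := rate_gap_n h hP1
  have hp0 := hPW.p_nonneg
  have hmq : (0 : ℚ) < c.m := by exact_mod_cast h.m_pos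
  have hMq : (1 : ℚ) ≤ c.M := by exact_mod_cast h.M_pos
  have he := hN.he
  have hs1 : 1 ≤ s := by
    by_contra hcon
    have : s = 0 := by omega
    rw [this] at hs
    norm_num at hs
  have hsq : (1 : ℚ) ≤ s := by exact_mod_cast hs1
  -- plans
  have hbd : ∀ j, ∃ bd : ℕ × ℕ → ℚ, j < c.n → ((∀ ω, ∃ n : ℕ → ℕ,
      (∀ v ∈ range c.n, n v ≤ (core h).mu (c.hitI P) ω v) ∧
      ∑ v ∈ range c.n, n v = c.M ∧ ∑ v ∈ range c.n, (n v : ℚ) * riD c.r v j ≤ bd ω) ∧
      avg (seeds P) bd ≤ c.M / c.m * c.nc j * (1 + e)) := by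
    intro j
    by_cases hj : j < c.n
    · obtain ⟨bd, h1, h2⟩ := all_bd h (fun j hj hB => reps_cover h hj hB) hPW hpm hpm1 he
        hN.T8 hN.M8 hN.M81 hN.M18 hj
      exact ⟨bd, fun _ => ⟨h1, h2⟩⟩
    · exact ⟨fun _ => 0, fun h => absurd h hj⟩
  choose bd hbd using hbd
  have hbd0 : ∀ j, j < c.n → ∀ ω, 0 ≤ bd j ω := by
    intro j hj ω
    obtain ⟨n, _, _, h3⟩ := (hbd j hj).1 ω
    refine le_trans ?_ h3
    exact sum_nonneg fun v _ => mul_nonneg (by positivity) (h.d_nonneg v j)
  -- masses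
  have hZs := sum_ZF_le h hdef
  have hGt := Gt_le h hdef
  have hown := own_sum h
  set lh := (c.liveF.filter (fun e => c.loc e ∉ c.Gf)).card with hlh
  have hHl : (core h).H.card ≤ lh + c.m := by
    have h1 := hub_items h
    rw [← hlh] at h1
    have h2 : ∑ g ∈ c.Gf, (c.ZF g).card ≤ c.K * c.m := by rw [hK]; exact hZs
    have h3 : c.K * ((core h).H.card) ≤ c.K * (lh + c.m) := by rw [mul_add]; omega
    exact Nat.le_of_mul_le_mul_left h3 h.K_pos
  have hHc : (core h).H.card ≤ (2 * c.T * C2 + C1 + C2 + 1) * s * c.m := by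
    have h1 : c.L ≤ c.m * (c.Gf.card + 2 * c.T * C2 * s + C1 * s) :=
      hlen.trans (Nat.mul_le_mul_left _ (by omega))
    have h2 : lh + c.m * c.Gf.card ≤ c.m * c.Gf.card + c.m * (2 * c.T * C2 * s + C1 * s)
        + C2 * s * c.m := by
      have e1 : c.m * (c.Gf.card + 2 * c.T * C2 * s + C1 * s)
          = c.m * c.Gf.card + c.m * (2 * c.T * C2 * s + C1 * s) := by ring
      omega
    have h3 : c.m ≤ s * c.m := Nat.le_mul_of_pos_left _ (by omega)
    have h4 : (2 * c.T * C2 + C1 + C2 + 1) * s * c.m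
        = c.m * (2 * c.T * C2 * s + C1 * s) + C2 * s * c.m + s * c.m := by ring
    omega
  have hPd : ∑ j ∈ (core h).J0, ((core h).P j).card ≤ (core h).H.card := by
    have hdis : ∀ j ∈ (core h).J0, ∀ j' ∈ (core h).J0, j ≠ j' →
        Disjoint ((core h).P j) ((core h).P j') := by
      intro j hj j' hj' hne
      have h1 := reps_disj (c := c) (List.mem_toFinset.1 hj) (List.mem_toFinset.1 hj') hne
      change Disjoint (c.PI j) (c.PI j')
      rw [disjoint_left] at h1 ⊢
      intro q hq hq'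
      exact h1 (mem_PI.1 hq).1 (mem_PI.1 hq').1
    rw [← card_biUnion hdis]
    apply card_le_card
    intro q hq
    obtain ⟨j, hj, hqj⟩ := mem_biUnion.1 hq
    exact mem_filter.2 ⟨(core h).P_sub j hj hqj, (core h).P_hub j hj q hqj⟩
  -- choice of the seed
  have hB1 : (0 : ℚ) < c.M * ((1 + e) * A) := by positivity
  have ha1 : avg (seeds P) (fun ω => ∑ j ∈ D, bd j ω) ≤ c.M * ((1 + e) * A) := by
    rw [avg_sum]
    refine (sum_le_sum fun j hj => (hbd j (hDn j hj)).2).trans ?_
    have e1 : ∑ j ∈ D, (c.M : ℚ) / c.m * c.nc j * (1 + e)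
        = (c.M / c.m * (1 + e)) * ∑ j ∈ D, c.nc j := by
      rw [mul_sum]; exact sum_congr rfl fun j _ => by ring
    rw [e1]
    have h1 := mul_le_mul_of_nonneg_left hcost
      (show (0 : ℚ) ≤ c.M / c.m * (1 + e) by positivity)
    refine h1.trans (le_of_eq ?_)
    field_simp
  obtain ⟨ω, hω, r1, r2, r3⟩ := (core h).exists_good hPW h.m_pos hpm hpm1 (T := c.T) (E := c.E)
    (K := c.K) (C2 := C2) (CH := 2 * c.T * C2 + C1 + C2 + 1) (s := s)
    (by have := h.T2; omega) h.E4 (by omega) hN.C2_pos (by rw [hK])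
    (fun g hg => by
      change 2 * c.T * (c.ZI g).card ≤ c.m
      rw [card_ZI]; exact own_large h hg)
    (by
      change ∑ g ∈ c.Gf, (c.ZI g).card ≤ C2 * s * c.m
      rw [sum_congr rfl fun g _ => card_ZI g]; exact hZs)
    hHc (fun q hq => load_bound h q hq)
    (fun j hj => by
      change c.E * c.m ≤ c.E * (c.PI j).card + 2 * c.m
      rw [card_PI, ← length_PL]
      have := (reps_prop (List.mem_toFinset.1 hj)).2
      unfold isB at this
      exact of_decide_eq_true this)
    (fun j _ => by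
      change (c.PI j).card ≤ c.m
      rw [card_PI, ← card_NF h j]
      exact card_le_card fun e he => (mem_PF.1 he).1)
    hPd hN.ME he (by linarith [hN.he1]) hN.M1 hN.T1 hN.M3 hN.E72
    (f1 := fun ω => ∑ j ∈ D, bd j ω)
    (fun ω _ => sum_nonneg fun j hj => hbd0 j (hDn j hj) ω) hB1 ha1
  have hnd : c.reps.Nodup := reps_nodup (c := c)
  have hcount : ∀ v < c.n, (c.granY P ω).count v = (core h).mu (c.hitI P) ω v :=
    fun v hv => count_granY h hnd P ω hv
  have hplan : ∀ j < c.n, c.M ≤ (c.granY P ω).length ∧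
      ∑ e ∈ (range (c.granY P ω).length).filter
        (fun e => near c.r (c.granY P ω) c.M j e = true), riD c.r ((c.granY P ω).getD e 0) j
        ≤ bd j ω := by
    intro j hj
    obtain ⟨n, n1, n2, n3⟩ := (hbd j hj).1 ω
    obtain ⟨k1, k2⟩ := near_le_plan (r := c.r) (Yc := c.granY P ω) (N := c.n) (M := c.M) (j := j)
      (n := n) (fun v hv => by rw [hcount v hv]; exact n1 v (mem_range.2 hv)) n2
      (fun v => h.d_nonneg v j)
    exact ⟨k1, k2.trans n3⟩
  refine ⟨c.granY P ω, granY_mem_granL hP2 hω, granY_mem h P ω, ?_, ?_, ?_, ?_⟩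
  · have h0 : 0 < c.n := lt_of_le_of_lt (Nat.zero_le _) (h.loc_lt 0 (by
      have := h.m_pos; have := h.m_le; omega))
    exact (hplan 0 h0).1
  · refine (sum_le_sum fun j hj => (hplan j (hDn j hj)).2).trans (r1.trans ?_)
    have h1 : (1 + 3 * e) * (c.M * ((1 + e) * A)) = c.M * ((1 + 3 * e) * (1 + e) * A) := by ring
    rw [h1]
    refine mul_le_mul_of_nonneg_left ?_ (by linarith)
    refine mul_le_mul_of_nonneg_right ?_ hA.le
    have := hN.he1
    nlinarith
  · rw [length_granY h hnd P ω]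
    have h1 : ((core h).H.card : ℚ) + c.m * c.Gf.card
        ≤ c.L + ∑ g ∈ c.Gf, ((c.ZI g).card : ℚ) + c.m := by
      have h2 : (core h).H.card + c.m * c.Gf.card ≤ c.L + ∑ g ∈ c.Gf, (c.ZI g).card + c.m := by
        rw [sum_congr rfl fun g _ => card_ZI g]; omega
      exact_mod_cast h2
    have hGn : (c.Gf.card : ℚ) ≤ c.n := by
      have : c.Gf ⊆ range c.n := fun g hg => mem_range.2 (Gf_lt h hg)
      have := card_le_card this
      rw [card_range] at this
      exact_mod_cast this
    have h3 : p * ((core h).H.card - ∑ g ∈ c.Gf, ((c.ZI g).card : ℚ))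
        ≤ p * (c.L + c.m - c.m * c.Gf.card) := mul_le_mul_of_nonneg_left (by linarith) hp0
    have h4 : ((c.M : ℚ) - p * c.m) * c.Gf.card ≤ 1 :=
      (mul_le_mul_of_nonneg_left hGn (by linarith)).trans hpmn
    have r2' : ((∑ v ∈ range c.n, (core h).mu (c.hitI P) ω v : ℕ) : ℚ)
        ≤ c.M * c.Gf.card + p * ((core h).H.card - ∑ g ∈ c.Gf, ((c.ZI g).card : ℚ))
          + 2 * e * c.M * s := r2
    have h5 : ((∑ v ∈ range c.n, (core h).mu (c.hitI P) ω v : ℕ) : ℚ)
        ≤ p * c.L + p * c.m + 1 + 2 * e * c.M * s := by nlinarith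
    have h6 : p * c.L * c.m ≤ c.M * c.L := by
      have := mul_le_mul_of_nonneg_right hpm (show (0 : ℚ) ≤ c.L by positivity)
      nlinarith
    have h7 := mul_le_mul_of_nonneg_right h5 hmq.le
    refine h7.trans ?_
    have h8 : (p * c.m + 1 + 2 * e * c.M * s) ≤ c.M * (8 * e * s) := by
      have : (c.M : ℚ) * 3 ≤ c.M * (8 * e * s) := mul_le_mul_of_nonneg_left hs (by linarith)
      nlinarith
    have h9 := mul_le_mul_of_nonneg_right h8 hmq.le
    nlinarith
  · have h1 : ((c.Gt.filter (fun g => decide (c.M ≤ (c.granY P ω).count g))).length)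
        = (c.Gt.toFinset.filter (fun g => c.M ≤ (c.granY P ω).count g)).card := by
      rw [len_filter h.Gt_nodup]; simp
    rw [h1]
    have h2 : (c.Gf.filter (fun g => (core h).mu (c.hitI P) ω g < c.M)).card
        + (c.Gf.filter (fun g => ¬ (core h).mu (c.hitI P) ω g < c.M)).card = c.Gf.card :=
      card_filter_add_card_filter_not _
    have h3 : (c.Gf.filter (fun g => ¬ (core h).mu (c.hitI P) ω g < c.M)).card
        ≤ (c.Gt.toFinset.filter (fun g => c.M ≤ (c.granY P ω).count g)).card := by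
      apply card_le_card
      intro g hg
      rw [mem_filter] at hg ⊢
      have hg' := hg.1
      rw [mem_Gf, isF_iff] at hg'
      refine ⟨List.mem_toFinset.2 hg'.1, ?_⟩
      rw [hcount g (Gf_lt h hg.1)]
      exact not_lt.1 hg.2
    have h4 : (c.Gf.filter (fun g => (core h).mu (c.hitI P) ω g < c.M)).card ≤ C3 * s := by
      have h5 : ((c.Gf.filter (fun g => (core h).mu (c.hitI P) ω g < c.M)).card : ℚ)
          ≤ 4 / e * (c.M * C2 * s) := r3
      have h6 : 4 / e * (c.M * C2 * s) ≤ C3 * s := by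
        have := mul_le_mul_of_nonneg_right hC3 (show (0 : ℚ) ≤ s by linarith)
        linarith
      exact_mod_cast h5.trans h6
    have h7 : (2 * c.T * C2 + C3) * s = 2 * c.T * C2 * s + C3 * s := by ring
    omega

end Par

end Crest.Agent.R310.Gran
end

-- ▼ part R310/GranBlock
section

/-!
# R310, block GRAN, part 10: `GranOK` and `GranPT`
-/

set_option linter.dupNamespace false
set_option linter.unusedSectionVars false
set_option autoImplicit false

namespace Crest.Agent.R310.Gran

open Finset Crest.Agent.Lib.PT Crest.Agent.Lib.PT.Arith Crest.LogicCS.KMedian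

/-- every copy repeated `M` times -/
def rep (M : ℕ) (Y : List ℕ) : List ℕ := Y.flatMap (fun v => List.replicate M v)

theorem length_rep (M : ℕ) (Y : List ℕ) : (rep M Y).length = M * Y.length := by
  unfold rep
  induction Y with
  | nil => simp
  | cons a Y ih => rw [List.flatMap_cons, List.length_append, ih, List.length_replicate,
      List.length_cons]; ring

theorem count_rep (M : ℕ) (Y : List ℕ) (v : ℕ) : (rep M Y).count v = M * Y.count v := by
  unfold rep
  induction Y with
  | nil => simp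
  | cons a Y ih =>
    rw [List.flatMap_cons, List.count_append, ih, List.count_replicate, List.count_cons]
    by_cases hav : a = v
    · simp [hav]; ring
    · simp [hav]

theorem mem_rep {M : ℕ} {Y : List ℕ} {v : ℕ} (h : v ∈ rep M Y) : v ∈ Y := by
  unfold rep at h
  obtain ⟨a, ha, hv⟩ := List.mem_flatMap.1 h
  rw [(List.mem_replicate.1 hv).2]
  exact ha

/-- the fine cost of the repeated list -/
theorem near_rep {r : RI} {Y : List ℕ} {m M j N : ℕ} (hm : m ≤ Y.length)
    (hY : ∀ y ∈ Y, y < N) (hd : ∀ v, 0 ≤ riD r v j) :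
    ∑ e ∈ (range (rep M Y).length).filter (fun e => near r (rep M Y) (M * m) j e = true),
        riD r ((rep M Y).getD e 0) j
      ≤ M * ∑ e ∈ (range Y.length).filter (fun e => near r Y m j e = true),
        riD r (Y.getD e 0) j := by
  classical
  set F := (range Y.length).filter (fun e => near r Y m j e = true) with hF
  have hFl : ∀ e ∈ F, Y.getD e 0 ∈ range N := by
    intro e he
    have he1 : e < Y.length := mem_range.1 (mem_filter.1 he).1
    rw [List.getD_eq_getElem?_getD, List.getElem?_eq_getElem he1, Option.getD_some]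
    exact mem_range.2 (hY _ (List.getElem_mem _))
  have hcnt : ∀ v, ((range Y.length).filter (fun e => Y.getD e 0 = v)).card = Y.count v := by
    intro v
    have := Par.cntL_count (c := ⟨r, Y, m, [], 0, 0, 0, 0⟩) v
    rw [Par.cntL_eq] at this
    exact this
  have h := near_le_plan (r := r) (Yc := rep M Y) (N := N) (M := M * m) (j := j)
    (n := fun v => M * (F.filter (fun e => Y.getD e 0 = v)).card)
    (fun v _ => by
      rw [count_rep, ← hcnt v]
      refine Nat.mul_le_mul_left _ (card_le_card ?_)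
      intro e he
      rw [mem_filter] at he ⊢
      exact ⟨(mem_filter.1 he.1).1, he.2⟩)
    (by
      rw [← mul_sum]
      congr 1
      rw [← card_eq_sum_card_fiberwise hFl]
      exact near_card r Y hm j) hd
  refine h.2.trans (le_of_eq ?_)
  have e1 : ∀ v ∈ range N, ((M * (F.filter (fun e => Y.getD e 0 = v)).card : ℕ) : ℚ) * riD r v j
      = M * ∑ e ∈ F.filter (fun e => Y.getD e 0 = v), riD r (Y.getD e 0) j := by
    intro v _
    rw [sum_congr rfl (g := fun _ => riD r v j) (fun e he => by rw [(mem_filter.1 he).2]),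
      sum_const, nsmul_eq_mul]
    push_cast; ring
  rw [sum_congr rfl e1, ← mul_sum]
  congr 1
  exact sum_fiberwise_of_maps_to hFl _

/-- the parameters used by the generator -/
def par (T E M κ : ℕ) (r : RI) (Y : List ℕ) (m : ℕ) (Gt : List ℕ) (s : ℕ) : Par :=
  ⟨r, rep M Y, M * m, Gt, T, E, M, κ * s⟩

/-- the generator -/
def gran (T E M κ : ℕ) (r : RI) (Y : List ℕ) (m : ℕ) (Gt : List ℕ) (s : ℕ) : List (List ℕ) :=
  (par T E M κ r Y m Gt s).granL

theorem gran_pt (T E M κ : ℕ) : GranPT (gran T E M κ) := by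
  intro r Y m Gt s hr hY hm hGt hs
  have hY' : PTF (fun c => rep M (Y c)) := by
    refine PTF.flatMap (l := fun c => Y c) (f := fun _ v => List.replicate M v) hY ?_
    exact PTF.replicate (PTU.const _) PTF.snd
  exact granPT_of T E M κ r (fun c => rep M (Y c)) (fun c => M * m c) Gt s hr hY'
    (PTU.mul (PTU.const _) hm) hGt hs

/-- **the block GRAN** -/
theorem block_gran (x : ℚ) (C1 C2 : ℕ) (hx : 0 < x) (hx1 : 1000 * x ≤ 1) :
    ∃ gran M s0 C3, 0 < M ∧ GranOK x C1 C2 gran M s0 C3 ∧ GranPT gran := by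
  classical
  have he : 0 < x / 8 := by positivity
  obtain ⟨T, E, M, hN⟩ := exists_num he (by linarith) C1 (C2 + 1) (by omega)
  obtain ⟨s0, hs0⟩ := exists_nat_ge (3 / x)
  obtain ⟨C3, hC3⟩ := exists_nat_ge (4 / (x / 8) * ((M : ℚ) * ((C2 + 1 : ℕ) : ℚ)))
  refine ⟨gran T E M (C2 + 1), M, max s0 1, 2 * T * (C2 + 1) + C3, hN.M_pos, ?_, gran_pt _ _ _ _⟩
  intro I Y m Gt s A hI hYN hm hmY hGn hGN hs hA hf hdef hlen
  have hs1 : 1 ≤ s := (le_max_right _ _).trans hs
  have hsq : 3 / x ≤ s := hs0.trans (by exact_mod_cast (le_max_left _ _).trans hs)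
  set c : Par := par T E M (C2 + 1) (raw I) Y m Gt s with hc
  have hMpos := hN.M_pos
  have hL : c.L = M * Y.length := length_rep M Y
  have hn : c.n = I.N := riN_raw I
  have hm' : c.m = M * m := rfl
  have h : c.Ok := by
    refine ⟨fun i j => riD_nonneg hI i j, ?_, ?_, ?_, ?_, ?_, ?_, ?_, ?_, hGn, hN.T2, hN.E4,
      hN.M_pos, hN.M_even, ?_, ?_⟩
    · intro i hi
      rw [hn] at hi
      have := riD_raw I ⟨i, hi⟩ ⟨i, hi⟩
      simp only at this
      change riD (raw I) i i = 0
      rw [this]; exact hI.1 _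
    · intro i hi j hj hij
      rw [hn] at hi hj
      have := riD_raw I ⟨i, hi⟩ ⟨j, hj⟩
      simp only at this
      change 0 < riD (raw I) i j
      rw [this]
      exact hI.2.1 _ _ (by simpa using hij)
    · intro i hi j hj
      rw [hn] at hi hj
      exact riD_symm hI hi hj
    · intro i hi j hj k hk
      rw [hn] at hi hj hk
      exact riD_tri hI hi hj hk
    · intro e he'
      rw [hn]
      have he2 : e < (rep M Y).length := he'
      change (rep M Y).getD e 0 < I.N
      rw [List.getD_eq_getElem?_getD, List.getElem?_eq_getElem he2, Option.getD_some]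
      exact hYN _ (mem_rep (List.getElem_mem _))
    · exact Nat.mul_pos hMpos hm
    · rw [hL, hm']; exact Nat.mul_le_mul_left _ hmY
    · intro g hg; rw [hn]; exact hGN g hg
    · rw [hm']; exact Nat.le_mul_of_pos_right _ hm
    · exact Nat.mul_pos (by omega) hs1
  have hMq : (0 : ℚ) < M := by exact_mod_cast hMpos
  have hmq : (0 : ℚ) < m := by exact_mod_cast hm
  have hcost : ∑ j ∈ cliS (raw I), c.nc j ≤ c.m * A := by
    have h1 : ∀ j ∈ cliS (raw I), c.nc j ≤ M * ∑ e ∈ (range Y.length).filter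
        (fun e => near (raw I) Y m j e = true), riD (raw I) (Y.getD e 0) j := by
      intro j _
      rw [Par.nc_eq]
      exact near_rep hmY hYN fun v => riD_nonneg hI v j
    refine (sum_le_sum h1).trans ?_
    rw [← mul_sum, hm']
    push_cast
    have h2 := mul_le_mul_of_nonneg_left hf hMq.le
    unfold fsum at h2
    linarith
  have hcount : ∀ v, c.cntL v = M * Y.count v := fun v => by
    rw [Par.cntL_count]; exact count_rep M Y v
  have hdef' : ∑ g ∈ c.Gt.toFinset, (c.m - c.cntL g) ≤ (C2 + 1) * s * c.m := by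
    have h1 : ∑ g ∈ c.Gt.toFinset, (c.m - c.cntL g)
        = M * (Gt.map (fun g => m - min m (Y.count g))).sum := by
      rw [← List.sum_toFinset _ hGn, mul_sum]
      refine sum_congr rfl fun g _ => ?_
      rw [hcount, hm', ← Nat.mul_sub]
      congr 1
      omega
    rw [h1, hm']
    calc M * (Gt.map (fun g => m - min m (Y.count g))).sum ≤ M * (C2 * s * m) :=
          Nat.mul_le_mul_left _ hdef
      _ ≤ (C2 + 1) * s * (M * m) := by nlinarith [Nat.zero_le (s * (M * m))]
  have hlen' : c.L ≤ c.m * (c.Gt.length + C1 * s) := by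
    rw [hL, hm', mul_assoc]
    exact Nat.mul_le_mul_left _ hlen
  have hs3 : 3 ≤ 8 * (x / 8) * s := by
    rw [div_le_iff₀ hx] at hsq
    linarith
  obtain ⟨Yc, h1, h2, h3, h4, h5, h6⟩ := Par.main h (e := x / 8) (C1 := C1) (C2 := C2 + 1)
    (s := s) hN rfl hs3 (D := cliS (raw I))
    (fun j hj => by
      unfold cliS at hj
      exact mem_range.1 (mem_filter.1 hj).1) hA hcost hdef' hlen' (C3 := C3) hC3
  refine ⟨Yc, h1, fun y hy => mem_rep (h2 y hy), h3, ?_, ?_, h6⟩
  · have e1 : 8 * (x / 8) = x := by ring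
    rw [e1] at h4
    exact h4
  · have e1 : 8 * (x / 8) = x := by ring
    rw [e1, hL, hm'] at h5
    have h7 : ((Yc.length : ℚ) * m) * M ≤ (M * (Y.length + x * s * m)) * M := by
      have h8 : (Yc.length : ℚ) * ((M * m : ℕ) : ℚ)
          ≤ M * (((M * Y.length : ℕ) : ℚ) + x * s * ((M * m : ℕ) : ℚ)) := h5
      push_cast at h8
      nlinarith
    exact le_of_mul_le_mul_right h7 hMq

end Crest.Agent.R310.Gran
end

-- ▼ part R310/Struct
section

/-!
# R310: structure of stable instances (tight world, all `s`)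

`S` = an approximate solution with `k` centres.  `sep t` = distance of `t` to the other centres, `core t` = the
clients within a quarter of it, `wt t`, `cc t` = weight and cost of the core, `ball β t` = the facilities within
`β * sep t`.  `rig θ B` = the centres with `B ≤ wt * sep` and `cc ≤ θ * B`; in the ball of such a centre only the
best facility `m t` for the core is kept (`restr`).

* `merge`, `stab_card`: in a stable instance every cheap solution has almost `k` centres;
* `card_not_rig`: all but `C (s + 1)` centres of `S` are rigid;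
* `far_of_not_mem_ball`, `pay`: not opening `m t` is expensive for the core of `t`;
* `transfer`: every solution can be moved to the restricted facility set, cardinality does not grow.
-/

set_option autoImplicit false
set_option linter.unusedVariables false
set_option linter.unusedSectionVars false

namespace Crest.Agent.R310.Struct

open Finset Crest.Agent.R310.Tight

variable {P R : Type*} [DecidableEq P] [Field R] [LinearOrder R] [IsStrictOrderedRing R]

/-- A subset of given size whose sum is at most average. -/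
theorem exists_cheap (γ : P → R) (N : Finset P) (n : ℕ) (hn : n ≤ N.card) :
    ∃ X ⊆ N, X.card = n ∧ (N.card : R) * ∑ x ∈ X, γ x ≤ n * ∑ x ∈ N, γ x := by
  induction hc : N.card generalizing N with
  | zero =>
    refine ⟨∅, Finset.empty_subset _, ?_, ?_⟩
    · simp; omega
    · have : n = 0 := by omega
      simp [this]
  | succ c ih =>
    rcases Nat.lt_or_ge n (c + 1) with hlt | hge
    · have hne : N.Nonempty := Finset.card_pos.1 (by omega)
      obtain ⟨x, hx, hmax⟩ := Finset.exists_max_image N γ hne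
      have hcard : (N.erase x).card = c := by rw [Finset.card_erase_of_mem hx]; omega
      obtain ⟨X, hXN, hXc, hX⟩ := ih (N.erase x) (by omega) hcard
      refine ⟨X, hXN.trans (Finset.erase_subset _ _), hXc, ?_⟩
      have hsum : ∑ y ∈ N, γ y = γ x + ∑ y ∈ N.erase x, γ y := (Finset.add_sum_erase N γ hx).symm
      have hav : ∑ y ∈ N, γ y ≤ (N.card : R) * γ x := by
        calc ∑ y ∈ N, γ y ≤ ∑ _y ∈ N, γ x := Finset.sum_le_sum fun y hy => hmax y hy
          _ = _ := by rw [Finset.sum_const, nsmul_eq_mul]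
      rw [hc] at hav
      push_cast at hav ⊢
      rcases Nat.eq_zero_or_pos c with hc0 | hc0
      · subst hc0
        have hX0 : X = ∅ := by
          have : (N.erase x) = ∅ := Finset.card_eq_zero.1 hcard
          rw [this] at hXN
          exact Finset.subset_empty.1 hXN
        have hn0 : n = 0 := by rw [← hXc, hX0]; simp
        simp [hX0, hn0]
      · have hcpos : (0 : R) < c := by exact_mod_cast hc0
        have h1 : ((c : R) + 1) * ∑ y ∈ N.erase x, γ y ≤ c * ∑ y ∈ N, γ y := by
          rw [hsum] at hav ⊢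
          linarith
        have h2 : (c : R) * (((c : R) + 1) * ∑ y ∈ X, γ y) ≤ c * (n * ∑ y ∈ N, γ y) := by
          have h3 := mul_le_mul_of_nonneg_left hX (by positivity : (0 : R) ≤ (c : R) + 1)
          have h4 := mul_le_mul_of_nonneg_left h1 (Nat.cast_nonneg n : (0 : R) ≤ n)
          calc (c : R) * (((c : R) + 1) * ∑ y ∈ X, γ y) = ((c : R) + 1) * ((c : R) * ∑ y ∈ X, γ y) := by ring
            _ ≤ ((c : R) + 1) * (n * ∑ y ∈ N.erase x, γ y) := h3
            _ = n * (((c : R) + 1) * ∑ y ∈ N.erase x, γ y) := by ring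
            _ ≤ n * (c * ∑ y ∈ N, γ y) := h4
            _ = _ := by ring
        exact le_of_mul_le_mul_left h2 hcpos
    · have : n = N.card := by omega
      refine ⟨N, Finset.Subset.refl _, this.symm, ?_⟩
      rw [this, hc]

section metric

variable (d : P → P → R) (w : P → R) (D F S : Finset P)

/-- **Merge lemma.** -/
theorem merge (hnn : ∀ x y, 0 ≤ d x y) (hsymm : ∀ x y, d x y = d y x)
    (htri : ∀ x y z, d x z ≤ d x y + d y z) (hw : ∀ j, 0 ≤ w j)
    (O T : Finset P) (hO : O.Nonempty) (hT : T.Nonempty) :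
    ∃ N ⊆ O, ∃ γ : P → R, O.card ≤ N.card + T.card ∧
      ∑ o ∈ N, γ o ≤ 2 * (cst d w D O + cst d w D T) ∧
      ∀ X ⊆ N, (O \ X).Nonempty ∧ cst d w D (O \ X) ≤ cst d w D O + ∑ o ∈ X, γ o := by
  classical
  obtain ⟨a, ha1, ha2, ha3⟩ := exists_nearest d O hO
  obtain ⟨b, hb1, hb2, hb3⟩ := exists_nearest d T hT
  -- representative of a class
  have hrep : ∀ x : P, ∃ o : P, (∃ o' ∈ O, b o' = x) → (o ∈ O ∧ b o = x ∧ ∀ o' ∈ O, b o' = x → d o x ≤ d o' x) := by
    intro x
    by_cases h : ∃ o' ∈ O, b o' = x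
    · obtain ⟨o', ho', hb'⟩ := h
      obtain ⟨o, ho, hmin⟩ := Finset.exists_min_image (O.filter (fun o => b o = x)) (fun o => d o x)
        ⟨o', Finset.mem_filter.2 ⟨ho', hb'⟩⟩
      refine ⟨o, fun _ => ⟨(Finset.mem_filter.1 ho).1, (Finset.mem_filter.1 ho).2, fun o'' h1 h2 => ?_⟩⟩
      exact hmin o'' (Finset.mem_filter.2 ⟨h1, h2⟩)
    · exact ⟨x, fun h' => absurd h' h⟩
  choose ρ hρ using hrep
  have hρO : ∀ o ∈ O, ρ (b o) ∈ O ∧ b (ρ (b o)) = b o ∧ d (ρ (b o)) (b o) ≤ d o (b o) := by
    intro o ho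
    obtain ⟨h1, h2, h3⟩ := hρ (b o) ⟨o, ho, rfl⟩
    exact ⟨h1, h2, h3 o ho rfl⟩
  set N := O.filter (fun o => ρ (b o) ≠ o) with hN
  have hcardN : O.card ≤ N.card + T.card := by
    have hsplit : O.card = N.card + (O.filter (fun o => ¬ ρ (b o) ≠ o)).card :=
      (Finset.card_filter_add_card_filter_not _).symm
    have h1 : (O.filter (fun o => ¬ ρ (b o) ≠ o)).card ≤ T.card := by
      refine Finset.card_le_card_of_injOn b (fun o _ => hb1 o) ?_
      intro x hx y hy hxy
      have hx' := (Finset.mem_filter.1 hx).2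
      have hy' := (Finset.mem_filter.1 hy).2
      push Not at hx' hy'
      rw [← hx', ← hy', hxy]
    omega
  set γ : P → R := fun o => ∑ j ∈ D.filter (fun j => a j = o), w j * (2 * (d j (a j) + d j (b j))) with hγ
  refine ⟨N, Finset.filter_subset _ _, γ, hcardN, ?_, ?_⟩
  · -- total
    rw [ha3 w D, hb3 w D, ← Finset.sum_add_distrib, Finset.mul_sum, hγ]
    have h1 : ∑ o ∈ N, ∑ j ∈ D.filter (fun j => a j = o), w j * (2 * (d j (a j) + d j (b j)))
        = ∑ j ∈ D.filter (fun j => a j ∈ N), w j * (2 * (d j (a j) + d j (b j))) := by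
      rw [← Finset.sum_biUnion]
      · refine Finset.sum_congr ?_ (fun _ _ => rfl)
        ext j
        simp only [Finset.mem_biUnion, Finset.mem_filter]
        constructor
        · rintro ⟨o, ho, hj, rfl⟩; exact ⟨hj, ho⟩
        · rintro ⟨hj, ho⟩; exact ⟨_, ho, hj, rfl⟩
      · intro x _ y _ hxy
        rw [Function.onFun, Finset.disjoint_left]
        intro j hj hj'
        exact hxy ((Finset.mem_filter.1 hj).2.symm.trans (Finset.mem_filter.1 hj').2)
    rw [h1]
    refine (Finset.sum_le_sum_of_subset_of_nonneg (Finset.filter_subset _ _) ?_).trans ?_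
    · intro j _ _
      have := hnn j (a j)
      have := hnn j (b j)
      exact mul_nonneg (hw j) (by linarith)
    · exact Finset.sum_le_sum fun j _ => le_of_eq (by ring)
  · intro X hX
    -- nonempty
    have hXO : X ⊆ O := hX.trans (Finset.filter_subset _ _)
    have hrepmem : ∀ o ∈ O, ρ (b o) ∈ O \ X := by
      intro o ho
      obtain ⟨h1, h2, h3⟩ := hρO o ho
      refine Finset.mem_sdiff.2 ⟨h1, fun h => ?_⟩
      have h4 := (Finset.mem_filter.1 (hX h)).2
      rw [h2] at h4
      exact h4 rfl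
    have hne : (O \ X).Nonempty := by
      obtain ⟨o, ho⟩ := hO
      exact ⟨_, hrepmem o ho⟩
    refine ⟨hne, ?_⟩
    -- assignment
    have h1 := cst_le_assign d w hw D (O \ X) hne (fun j => if a j ∈ X then ρ (b (a j)) else a j) (by
      intro j _
      by_cases h : a j ∈ X
      · simp only [h, if_true]; exact hrepmem _ (ha1 j)
      · simp only [h, if_false]; exact Finset.mem_sdiff.2 ⟨ha1 j, h⟩)
    refine h1.trans ?_
    have h2 : ∑ o ∈ X, γ o = ∑ j ∈ D, (if a j ∈ X then w j * (2 * (d j (a j) + d j (b j))) else 0) := by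
      rw [← Finset.sum_filter, hγ, ← Finset.sum_biUnion]
      · refine Finset.sum_congr ?_ (fun _ _ => rfl)
        ext j
        simp only [Finset.mem_biUnion, Finset.mem_filter]
        constructor
        · rintro ⟨o, ho, hj, rfl⟩; exact ⟨hj, ho⟩
        · rintro ⟨hj, ho⟩; exact ⟨_, ho, hj, rfl⟩
      · intro x _ y _ hxy
        rw [Function.onFun, Finset.disjoint_left]
        intro j hj hj'
        exact hxy ((Finset.mem_filter.1 hj).2.symm.trans (Finset.mem_filter.1 hj').2)
    rw [h2, ha3 w D, ← Finset.sum_add_distrib]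
    refine Finset.sum_le_sum fun j _ => ?_
    by_cases h : a j ∈ X
    · simp only [h, if_true]
      rw [← mul_add]
      refine mul_le_mul_of_nonneg_left ?_ (hw j)
      obtain ⟨g1, g2, g3⟩ := hρO (a j) (ha1 j)
      have t1 := htri j (a j) (ρ (b (a j)))
      have t2 := htri (a j) (b (a j)) (ρ (b (a j)))
      have t3 := hsymm (b (a j)) (ρ (b (a j)))
      have t4 := hb2 (a j) (b j) (hb1 j)
      have t5 := htri (a j) j (b j)
      have t6 := hsymm (a j) j
      have t7 := hnn j (b j)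
      linarith
    · simp only [h, if_false]
      linarith

/-- In a stable instance every cheap solution has almost as many centres as `O`. -/
theorem stab_card (hnn : ∀ x y, 0 ≤ d x y) (hsymm : ∀ x y, d x y = d y x)
    (htri : ∀ x y z, d x z ≤ d x y + d y z) (hw : ∀ j, 0 ≤ w j)
    (O T : Finset P) (hO : O.Nonempty) (hT : T.Nonempty) (hOF : O ⊆ F) (e : R) (he : 0 < e)
    (hcO : 0 < cst d w D O) (s : ℕ)
    (stab : ∀ S' ⊆ F, S'.Nonempty → S'.card + (s + 1) ≤ O.card →
      (1 + e) * cst d w D O < cst d w D S') (hes : e ≤ 2) :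
    ((O.card : R) - T.card) * (e * cst d w D O) ≤
      2 * (cst d w D O + cst d w D T) * (s + 1) := by
  classical
  obtain ⟨N, hNO, γ, hcard, htot, hX⟩ := merge d w D hnn hsymm htri hw O T hO hT
  have hcT : 0 ≤ cst d w D T := by
    obtain ⟨b, hb1, hb2, hb3⟩ := exists_nearest d T hT
    rw [hb3 w D]
    exact Finset.sum_nonneg fun j _ => mul_nonneg (hw j) (hnn _ _)
  have hcardR : (O.card : R) - T.card ≤ N.card := by
    have : (O.card : R) ≤ N.card + T.card := by exact_mod_cast hcard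
    linarith
  have hecO : 0 ≤ e * cst d w D O := by positivity
  rcases Nat.lt_or_ge N.card (s + 1) with hlt | hge
  · have h1 : (N.card : R) ≤ s + 1 := by exact_mod_cast hlt.le
    have h2 : ((O.card : R) - T.card) * (e * cst d w D O) ≤ (s + 1) * (e * cst d w D O) :=
      mul_le_mul_of_nonneg_right (hcardR.trans h1) hecO
    have hs : (0 : R) ≤ (s : R) + 1 := by positivity
    have h3 : (s + 1 : R) * (e * cst d w D O) ≤ (s + 1) * (2 * (cst d w D O + cst d w D T)) := by
      refine mul_le_mul_of_nonneg_left ?_ hs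
      nlinarith
    linarith
  · obtain ⟨X, hXN, hXc, hXs⟩ := exists_cheap γ N (s + 1) hge
    obtain ⟨hne, hcX⟩ := hX X hXN
    have hXO : X ⊆ O := hXN.trans hNO
    have hc1 : (O \ X).card + (s + 1) ≤ O.card := by
      rw [Finset.card_sdiff_of_subset hXO, hXc]
      have := Finset.card_le_card hXO
      omega
    have hst := stab (O \ X) (Finset.sdiff_subset.trans hOF) hne hc1
    have h1 : e * cst d w D O < ∑ o ∈ X, γ o := by linarith
    have hNpos : (0 : R) < N.card := by exact_mod_cast (by omega : 0 < N.card)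
    have h2 : (N.card : R) * (e * cst d w D O) ≤ (s + 1 : ℕ) * ∑ x ∈ N, γ x :=
      (mul_le_mul_of_nonneg_left h1.le hNpos.le).trans hXs
    have h3 : ((s + 1 : ℕ) : R) * ∑ x ∈ N, γ x ≤ (s + 1 : ℕ) * (2 * (cst d w D O + cst d w D T)) :=
      mul_le_mul_of_nonneg_left htot (Nat.cast_nonneg _)
    have h4 : ((O.card : R) - T.card) * (e * cst d w D O) ≤ (N.card : R) * (e * cst d w D O) :=
      mul_le_mul_of_nonneg_right hcardR hecO
    push_cast at h2 h3
    linarith

/-- distance of `t` to the other centres -/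
noncomputable def sep (t : P) : R :=
  if h : (S.erase t).Nonempty then (S.erase t).inf' h (d t) else 0

/-- weight of the core -/
def wt (t : P) : R := ∑ j ∈ core d D S t, w j

/-- cost of the core -/
def cc (t : P) : R := ∑ j ∈ core d D S t, w j * d j t

/-- facilities near `t` -/
noncomputable def ball (β : R) (t : P) : Finset P := F.filter fun f => d f t ≤ β * sep d S t

/-- rigid centres -/
noncomputable def rig (θ B : R) : Finset P :=
  S.filter fun t => B ≤ wt d w D S t * sep d S t ∧ cc d w D S t ≤ θ * B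

/-- restricted facility set -/
noncomputable def restr (G : Finset P) (β : R) (m : P → P) : Finset P :=
  F.filter fun f => ∀ t ∈ G, f ∈ ball d F S β t → f = m t

variable {d w D F S}

theorem mem_core' {t j : P} : j ∈ core d D S t ↔ j ∈ D ∧ ∀ r ∈ S, r ≠ t → 4 * d j t ≤ d t r := by
  unfold core
  exact Finset.mem_filter

theorem mem_ball {β : R} {t f : P} : f ∈ ball d F S β t ↔ f ∈ F ∧ d f t ≤ β * sep d S t := by
  unfold ball
  exact Finset.mem_filter

theorem mem_rig {θ B : R} {t : P} : t ∈ rig d w D S θ B ↔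
    t ∈ S ∧ B ≤ wt d w D S t * sep d S t ∧ cc d w D S t ≤ θ * B := by
  unfold rig
  exact Finset.mem_filter

theorem mem_restr {G : Finset P} {β : R} {m : P → P} {f : P} :
    f ∈ restr d F S G β m ↔ f ∈ F ∧ ∀ t ∈ G, f ∈ ball d F S β t → f = m t := by
  unfold restr
  exact Finset.mem_filter

theorem sep_le {t r : P} (hr : r ∈ S) (hrt : r ≠ t) : sep d S t ≤ d t r := by
  have h : r ∈ S.erase t := Finset.mem_erase.2 ⟨hrt, hr⟩
  rw [sep, dif_pos ⟨r, h⟩]
  exact Finset.inf'_le _ h

theorem exists_sep (h2 : 2 ≤ S.card) (t : P) : ∃ r ∈ S, r ≠ t ∧ sep d S t = d t r := by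
  have hne : (S.erase t).Nonempty := by
    rw [← Finset.card_pos]
    have := Finset.pred_card_le_card_erase (s := S) (a := t)
    omega
  obtain ⟨r, hr, he⟩ := Finset.exists_mem_eq_inf' hne (d t)
  refine ⟨r, (Finset.mem_erase.1 hr).2, (Finset.mem_erase.1 hr).1, ?_⟩
  rw [sep, dif_pos hne, he]

theorem mem_core_iff (h2 : 2 ≤ S.card) {t j : P} : j ∈ core d D S t ↔ j ∈ D ∧ 4 * d j t ≤ sep d S t := by
  rw [mem_core']
  refine and_congr_right fun _ => ⟨fun h => ?_, fun h r hr hrt => h.trans (sep_le hr hrt)⟩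
  obtain ⟨r, hr, hrt, he⟩ := exists_sep (d := d) h2 t
  rw [he]; exact h r hr hrt

theorem core_disjoint (hpos : ∀ x y, x ≠ y → 0 < d x y) (hsymm : ∀ x y, d x y = d y x)
    (htri : ∀ x y z, d x z ≤ d x y + d y z) {t t' : P} (ht : t ∈ S) (ht' : t' ∈ S) (hne : t ≠ t') {j : P}
    (h1 : j ∈ core d D S t) (h2 : j ∈ core d D S t') : False := by
  have a1 := (mem_core'.1 h1).2 t' ht' hne.symm
  have a2 := (mem_core'.1 h2).2 t ht hne
  have a3 := hpos t t' hne
  have a4 := htri t j t'
  have a5 := hsymm t j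
  have a6 := hsymm t' t
  linarith

/-- for a core client, `t` is the nearest centre -/
theorem core_nearest (hnn : ∀ x y, 0 ≤ d x y) (hsymm : ∀ x y, d x y = d y x)
    (htri : ∀ x y z, d x z ≤ d x y + d y z) {t j r : P}
    (h1 : j ∈ core d D S t) (hr : r ∈ S) : d j t ≤ d j r := by
  by_cases hrt : r = t
  · rw [hrt]
  · have a1 := (mem_core'.1 h1).2 r hr hrt
    have a4 := htri t j r
    have a5 := hsymm t j
    have a6 := hnn j t
    linarith

theorem ball_disjoint (hpos : ∀ x y, x ≠ y → 0 < d x y) (hsymm : ∀ x y, d x y = d y x)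
    (htri : ∀ x y z, d x z ≤ d x y + d y z) {β : R} (hβ0 : 0 ≤ β) (hβ : β ≤ 1 / 4)
    {t t' : P} (ht : t ∈ S) (ht' : t' ∈ S) {f : P}
    (h1 : f ∈ ball d F S β t) (h2 : f ∈ ball d F S β t') : t = t' := by
  by_contra hne
  have a1 := (mem_ball.1 h1).2
  have a2 := (mem_ball.1 h2).2
  have b1 := sep_le (d := d) ht' (Ne.symm hne)
  have b2 := sep_le (d := d) ht hne
  have a3 := hpos t t' hne
  have a4 := htri t f t'
  have a5 := hsymm t f
  have a6 := hsymm t' t
  have c1 : β * sep d S t ≤ β * d t t' := mul_le_mul_of_nonneg_left b1 hβ0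
  have c2 : β * sep d S t' ≤ β * d t t' := mul_le_mul_of_nonneg_left (by linarith) hβ0
  nlinarith

theorem sep_pos (hpos : ∀ x y, x ≠ y → 0 < d x y) (h2 : 2 ≤ S.card) (t : P) : 0 < sep d S t := by
  obtain ⟨r, hr, hrt, he⟩ := exists_sep (d := d) h2 t
  rw [he]; exact hpos t r (Ne.symm hrt)

theorem wt_nonneg (hw : ∀ j, 0 ≤ w j) (t : P) : 0 ≤ wt d w D S t := Finset.sum_nonneg fun j _ => hw j

theorem cc_nonneg (hnn : ∀ x y, 0 ≤ d x y) (hw : ∀ j, 0 ≤ w j) (t : P) : 0 ≤ cc d w D S t :=
  Finset.sum_nonneg fun j _ => mul_nonneg (hw j) (hnn _ _)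

/-- the cores are disjoint pieces of the cost of `S` -/
theorem sum_cc_le (hnn : ∀ x y, 0 ≤ d x y) (hpos : ∀ x y, x ≠ y → 0 < d x y)
    (hsymm : ∀ x y, d x y = d y x)
    (htri : ∀ x y z, d x z ≤ d x y + d y z) (hw : ∀ j, 0 ≤ w j) (hS : S.Nonempty)
    (L : Finset P) (hL : L ⊆ S) : ∑ t ∈ L, cc d w D S t ≤ cst d w D S := by
  obtain ⟨a, ha1, ha2, ha3⟩ := exists_nearest d S hS
  rw [ha3 w D]
  unfold cc
  have h1 : ∑ t ∈ L, ∑ j ∈ core d D S t, w j * d j t ≤
      ∑ t ∈ L, ∑ j ∈ core d D S t, w j * d j (a j) :=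
    Finset.sum_le_sum fun t _ => Finset.sum_le_sum fun j hj =>
      mul_le_mul_of_nonneg_left (core_nearest hnn hsymm htri hj (ha1 j)) (hw j)
  refine h1.trans ?_
  rw [← Finset.sum_biUnion]
  · refine Finset.sum_le_sum_of_subset_of_nonneg ?_ (fun j _ _ => mul_nonneg (hw j) (hnn _ _))
    intro j hj
    obtain ⟨t, _, hjt⟩ := Finset.mem_biUnion.1 hj
    exact (mem_core'.1 hjt).1
  · intro x hx y hy hxy
    rw [Function.onFun, Finset.disjoint_left]
    intro j hj hj'
    exact core_disjoint hpos hsymm htri (hL hx) (hL hy) hxy hj hj'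

/-- Closing light centres. -/
theorem close_light (hnn : ∀ x y, 0 ≤ d x y) (hpos : ∀ x y, x ≠ y → 0 < d x y)
    (hsymm : ∀ x y, d x y = d y x)
    (htri : ∀ x y z, d x z ≤ d x y + d y z) (hw : ∀ j, 0 ≤ w j) (h2 : 2 ≤ S.card)
    (B : R) (hB : 0 ≤ B) (L : Finset P) (hLS : L ⊆ S)
    (hL : ∀ t ∈ L, wt d w D S t * sep d S t ≤ B) :
    ∃ T ⊆ S, T.Nonempty ∧ (L.card : R) ≤ 3 * ((S.card : R) - T.card) ∧
      cst d w D T ≤ 5 * cst d w D S + ((S.card : R) - T.card) * B := by
  classical
  have hS : S.Nonempty := Finset.card_pos.1 (by omega)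
  have hex : ∀ t : P, ∃ r, r ∈ S ∧ r ≠ t ∧ sep d S t = d t r := fun t => by
    obtain ⟨r, h1, h2, h3⟩ := exists_sep (d := d) h2 t
    exact ⟨r, h1, h2, h3⟩
  choose f hfS hfne hf using hex
  obtain ⟨X, hXL, hXf, hXc⟩ := exists_indep f L.card L rfl (fun x _ => hfne x)
  have hXS : X ⊆ S := hXL.trans hLS
  obtain ⟨a, ha1, ha2, ha3⟩ := exists_nearest d S hS
  have hT : (S \ X).Nonempty := by
    rcases X.eq_empty_or_nonempty with h | ⟨x, hx⟩
    · rw [h, Finset.sdiff_empty]; exact hS
    · exact ⟨f x, Finset.mem_sdiff.2 ⟨hfS x, hXf x hx⟩⟩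
  have hcardT : (S.card : R) - (S \ X).card = X.card := by
    rw [Finset.card_sdiff_of_subset hXS, Nat.cast_sub (Finset.card_le_card hXS)]
    ring
  refine ⟨S \ X, Finset.sdiff_subset, hT, ?_, ?_⟩
  · rw [hcardT]; exact_mod_cast hXc
  · rw [hcardT]
    have h1 := cst_le_assign d w hw D (S \ X) hT (fun j => if a j ∈ X then f (a j) else a j) (by
      intro j _
      by_cases h : a j ∈ X
      · simp only [h, if_true]; exact Finset.mem_sdiff.2 ⟨hfS _, hXf _ h⟩
      · simp only [h, if_false]; exact Finset.mem_sdiff.2 ⟨ha1 j, h⟩)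
    refine h1.trans ?_
    -- pointwise: extra ≤ [core] sep + 4 d
    have h3 : ∀ j ∈ D, w j * d j (if a j ∈ X then f (a j) else a j) ≤
        5 * (w j * d j (a j)) + ∑ t ∈ X, (if j ∈ core d D S t then w j * sep d S t else 0) := by
      intro j hj
      have hsum0 : 0 ≤ ∑ t ∈ X, (if j ∈ core d D S t then w j * sep d S t else 0) :=
        Finset.sum_nonneg fun t _ => by
          split_ifs
          · exact mul_nonneg (hw j) (sep_pos hpos h2 t).le
          · exact le_rfl
      have hd := mul_nonneg (hw j) (hnn j (a j))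
      by_cases h : a j ∈ X
      · simp only [h, if_true]
        have t1 := htri j (a j) (f (a j))
        rw [← hf (a j)] at t1
        by_cases hc : j ∈ core d D S (a j)
        · have hle : w j * sep d S (a j) ≤
              ∑ t ∈ X, (if j ∈ core d D S t then w j * sep d S t else 0) := by
            have := Finset.single_le_sum (f := fun t => if j ∈ core d D S t then w j * sep d S t else 0)
              (s := X) (fun t _ => by
                split_ifs
                · exact mul_nonneg (hw j) (sep_pos hpos h2 t).le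
                · exact le_rfl) h
            simpa [hc] using this
          have := mul_le_mul_of_nonneg_left t1 (hw j)
          rw [mul_add] at this
          linarith
        · have hfar : sep d S (a j) ≤ 4 * d j (a j) := by
            by_contra hlt
            push Not at hlt
            exact hc ((mem_core_iff h2).2 ⟨hj, hlt.le⟩)
          have : w j * d j (f (a j)) ≤ w j * (d j (a j) + 4 * d j (a j)) :=
            mul_le_mul_of_nonneg_left (by linarith) (hw j)
          linarith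
      · simp only [h, if_false]
        linarith
    refine (Finset.sum_le_sum h3).trans ?_
    rw [Finset.sum_add_distrib, ← Finset.mul_sum, ← ha3 w D]
    refine add_le_add le_rfl ?_
    rw [Finset.sum_comm]
    calc ∑ t ∈ X, ∑ j ∈ D, (if j ∈ core d D S t then w j * sep d S t else 0)
        = ∑ t ∈ X, wt d w D S t * sep d S t := by
          refine Finset.sum_congr rfl fun t _ => ?_
          rw [← Finset.sum_filter, wt, Finset.sum_mul]
          refine Finset.sum_congr ?_ (fun _ _ => rfl)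
          ext j
          rw [Finset.mem_filter]
          exact ⟨fun h => h.2, fun h => ⟨(mem_core'.1 h).1, h⟩⟩
      _ ≤ ∑ _t ∈ X, B := Finset.sum_le_sum fun t ht => hL t (hXL ht)
      _ = X.card * B := by rw [Finset.sum_const, nsmul_eq_mul]

/-- **(1)** all but `C (s + 1)` centres are rigid. -/
theorem card_not_rig (hnn : ∀ x y, 0 ≤ d x y) (hpos : ∀ x y, x ≠ y → 0 < d x y)
    (hsymm : ∀ x y, d x y = d y x)
    (htri : ∀ x y z, d x z ≤ d x y + d y z) (hw : ∀ j, 0 ≤ w j) (h2 : 2 ≤ S.card)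
    (O : Finset P) (hO : O.Nonempty) (hOF : O ⊆ F) (hSO : S.card ≤ O.card)
    (e A θ B : R) (he : 0 < e) (he2 : e ≤ 2) (hA0 : 0 ≤ A) (hθ : 0 < θ) (hB0 : 0 < B)
    (hcO : 0 < cst d w D O) (hA : cst d w D S ≤ A * cst d w D O) (s : ℕ)
    (hB : B * (s + 1) ≤ e / 4 * cst d w D O)
    (stab : ∀ S' ⊆ F, S'.Nonempty → S'.card + (s + 1) ≤ O.card →
      (1 + e) * cst d w D O < cst d w D S') :
    ((S \ rig d w D S θ B).card : R) ≤
      12 * (1 + 5 * A) / e * (s + 1) + A * cst d w D O / (θ * B) := by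
  classical
  have hS : S.Nonempty := Finset.card_pos.1 (by omega)
  set L := S.filter (fun t => wt d w D S t * sep d S t ≤ B) with hL
  set H := S.filter (fun t => θ * B ≤ cc d w D S t) with hH
  have hsub : S \ rig d w D S θ B ⊆ L ∪ H := by
    intro t ht
    obtain ⟨h1, h3⟩ := Finset.mem_sdiff.1 ht
    by_contra hcon
    rw [Finset.mem_union, not_or] at hcon
    apply h3
    rw [mem_rig]
    refine ⟨h1, ?_, ?_⟩
    · by_contra hlt
      exact hcon.1 (Finset.mem_filter.2 ⟨h1, (not_le.1 hlt).le⟩)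
    · by_contra hlt
      exact hcon.2 (Finset.mem_filter.2 ⟨h1, (not_le.1 hlt).le⟩)
  have hcard : ((S \ rig d w D S θ B).card : R) ≤ L.card + H.card := by
    have := (Finset.card_le_card hsub).trans (Finset.card_union_le _ _)
    exact_mod_cast this
  -- heavy
  have hHc : (H.card : R) ≤ A * cst d w D O / (θ * B) := by
    rw [le_div_iff₀ (by positivity)]
    have h1 : (H.card : R) * (θ * B) ≤ ∑ t ∈ H, cc d w D S t := by
      rw [← nsmul_eq_mul, ← Finset.sum_const]
      exact Finset.sum_le_sum fun t ht => (Finset.mem_filter.1 ht).2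
    have h3 := sum_cc_le (w := w) (D := D) hnn hpos hsymm htri hw hS H (Finset.filter_subset _ _)
    linarith
  -- light
  have hLc : (L.card : R) ≤ 12 * (1 + 5 * A) / e * (s + 1) := by
    obtain ⟨T, hTS, hT, hLT, hcT⟩ := close_light hnn hpos hsymm htri hw h2 B hB0.le L
      (Finset.filter_subset _ _) (fun t ht => (Finset.mem_filter.1 ht).2)
    have hst := stab_card d w D F hnn hsymm htri hw O T hO hT hOF e he hcO s stab he2
    set x : R := (S.card : R) - T.card with hx
    have hx0 : 0 ≤ x := by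
      have : (T.card : R) ≤ S.card := by exact_mod_cast Finset.card_le_card hTS
      linarith
    have hxO : x ≤ (O.card : R) - T.card := by
      have : (S.card : R) ≤ O.card := by exact_mod_cast hSO
      linarith
    set cO := cst d w D O with hcOdef
    have hs1 : (0 : R) < (s : R) + 1 := by positivity
    have h1 : x * (e * cO) ≤ 2 * (cO + cst d w D T) * (s + 1) :=
      (mul_le_mul_of_nonneg_right hxO (by positivity)).trans hst
    have h3 : 2 * (cO + cst d w D T) * (s + 1) ≤ 2 * (cO + (5 * (A * cO) + x * B)) * (s + 1) := by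
      refine mul_le_mul_of_nonneg_right ?_ hs1.le
      linarith
    have h4 : 2 * (cO + (5 * (A * cO) + x * B)) * (s + 1) =
        2 * (1 + 5 * A) * (s + 1) * cO + 2 * x * (B * (s + 1)) := by ring
    have h5 : 2 * x * (B * (s + 1)) ≤ 2 * x * (e / 4 * cO) :=
      mul_le_mul_of_nonneg_left hB (by positivity)
    have h6 : x * (e * cO) ≤ 2 * (1 + 5 * A) * (s + 1) * cO + 2 * x * (e / 4 * cO) := by
      linarith
    have h7 : (x * e) * cO ≤ (4 * (1 + 5 * A) * (s + 1)) * cO := by linarith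
    have h8 : x * e ≤ 4 * (1 + 5 * A) * (s + 1) := le_of_mul_le_mul_right h7 hcO
    have h9 : x ≤ 4 * (1 + 5 * A) * (s + 1) / e := by rw [le_div_iff₀ he]; exact h8
    calc (L.card : R) ≤ 3 * x := hLT
      _ ≤ 3 * (4 * (1 + 5 * A) * (s + 1) / e) := by linarith
      _ = _ := by ring
  linarith

/-- **(2)** the clients of the core are far from all other facilities of the restricted instance -/
theorem far_of_mem_restr (hsymm : ∀ x y, d x y = d y x)
    (htri : ∀ x y z, d x z ≤ d x y + d y z) {G : Finset P} {β : R} {m : P → P} {t f j : P}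
    (ht : t ∈ G) (hf : f ∈ restr d F S G β m) (hft : f ≠ m t) :
    β * sep d S t - d j t ≤ d j f := by
  obtain ⟨h1, h2⟩ := mem_restr.1 hf
  have h3 : f ∉ ball d F S β t := fun h => hft (h2 t ht h)
  have h4 : β * sep d S t < d f t := by
    by_contra hle
    exact h3 (mem_ball.2 ⟨h1, not_lt.1 hle⟩)
  have h5 := htri f j t
  have h6 := hsymm f j
  linarith

/-- **(2')** serving the core of `t` by weights `x j ≤ 1` outside costs at least `(β - θ) B` times the least weight:
if every core client sends at least `z` to facilities `≠ m t` then it pays. -/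
theorem pay (hw : ∀ j, 0 ≤ w j) {θ β B : R} (hθβ : θ ≤ β) {t : P} (ht : t ∈ rig d w D S θ B)
    (hβ : 0 ≤ β) :
    (β - θ) * B ≤ ∑ j ∈ core d D S t, w j * (β * sep d S t - d j t) := by
  obtain ⟨h1, h2, h3⟩ := mem_rig.1 ht
  have e1 : ∑ j ∈ core d D S t, w j * (β * sep d S t - d j t) =
      β * (wt d w D S t * sep d S t) - cc d w D S t := by
    unfold wt cc
    rw [Finset.sum_mul, Finset.mul_sum, ← Finset.sum_sub_distrib]
    exact Finset.sum_congr rfl fun j _ => by ring
  rw [e1]
  have h4 := mul_le_mul_of_nonneg_left h2 hβ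
  linarith

/-- choice of best facilities -/
theorem exists_best (hS : S ⊆ F) (hd0 : ∀ x, d x x = 0) (hpos : ∀ x y, x ≠ y → 0 < d x y)
    (h2 : 2 ≤ S.card) {β : R} (hβ : 0 ≤ β) (t : P) (ht : t ∈ S) :
    t ∈ ball d F S β t := by
  rw [mem_ball]
  refine ⟨hS ht, ?_⟩
  rw [hd0]
  exact mul_nonneg hβ (sep_pos hpos h2 t).le

/-- clients outside the core: moving inside the ball costs a factor `1 + 16 β` -/
theorem move_outside (hsymm : ∀ x y, d x y = d y x)
    (htri : ∀ x y z, d x z ≤ d x y + d y z) (hpos : ∀ x y, x ≠ y → 0 < d x y) (h2 : 2 ≤ S.card)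
    {β : R} (hβ0 : 0 ≤ β) (hβ : β ≤ 1 / 8)
    {t q u j : P} (hq : q ∈ ball d F S β t) (hu : u ∈ ball d F S β t) (hj : j ∈ D)
    (hjc : j ∉ core d D S t) : d j u ≤ (1 + 16 * β) * d j q := by
  have h1 : sep d S t < 4 * d j t := by
    by_contra hle
    exact hjc ((mem_core_iff h2).2 ⟨hj, not_lt.1 hle⟩)
  have a1 := (mem_ball.1 hq).2
  have a2 := (mem_ball.1 hu).2
  have t1 := htri j q t
  have t2 := htri j q u
  have t3 := htri q t u
  have t4 := hsymm t u
  have hs := sep_pos hpos h2 t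
  have b1 : sep d S t ≤ 8 * d j q := by nlinarith
  have b2 : β * sep d S t ≤ β * (8 * d j q) := mul_le_mul_of_nonneg_left b1 hβ0
  linarith

/-- number of rigid balls met twice -/
theorem card_twice (hpos : ∀ x y, x ≠ y → 0 < d x y) (hsymm : ∀ x y, d x y = d y x)
    (htri : ∀ x y z, d x z ≤ d x y + d y z) {β : R} (hβ0 : 0 ≤ β) (hβ : β ≤ 1 / 4)
    (G Q : Finset P) (hG : G ⊆ S) :
    (G.filter (fun t => 2 ≤ (Q ∩ ball d F S β t).card)).card + G.card ≤
      Q.card + (G.filter (fun t => Q ∩ ball d F S β t = ∅)).card := by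
  classical
  have h1 : ∑ t ∈ G, (Q ∩ ball d F S β t).card ≤ Q.card := by
    rw [← Finset.card_biUnion]
    · apply Finset.card_le_card
      intro x hx
      obtain ⟨t, _, hxt⟩ := Finset.mem_biUnion.1 hx
      exact (Finset.mem_inter.1 hxt).1
    · intro x hx y hy hxy
      rw [Function.onFun, Finset.disjoint_left]
      intro f hf hf'
      exact hxy (ball_disjoint hpos hsymm htri hβ0 hβ (hG hx) (hG hy)
        (Finset.mem_inter.1 hf).2 (Finset.mem_inter.1 hf').2)
  have h3 : (G.filter (fun t => 2 ≤ (Q ∩ ball d F S β t).card)).card + G.card ≤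
      ∑ t ∈ G, (Q ∩ ball d F S β t).card + (G.filter (fun t => Q ∩ ball d F S β t = ∅)).card := by
    rw [Finset.card_filter, Finset.card_filter, Finset.card_eq_sum_ones G, ← Finset.sum_add_distrib,
      ← Finset.sum_add_distrib]
    refine Finset.sum_le_sum fun t _ => ?_
    rcases Nat.eq_zero_or_pos (Q ∩ ball d F S β t).card with h0 | h0
    · have : Q ∩ ball d F S β t = ∅ := Finset.card_eq_zero.1 h0
      rw [if_neg (by omega), if_pos this]
      omega
    · have : Q ∩ ball d F S β t ≠ ∅ := fun h => by rw [h] at h0; simp at h0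
      rw [if_neg this]
      split_ifs <;> omega
  omega

/-- an empty ball costs a lot -/
theorem empty_ball_cost (hsymm : ∀ x y, d x y = d y x)
    (htri : ∀ x y z, d x z ≤ d x y + d y z) (hw : ∀ j, 0 ≤ w j) {θ β B : R} (hθβ : θ ≤ β) (hβ : 0 ≤ β)
    {t : P} (ht : t ∈ rig d w D S θ B) {Q : Finset P} (hQF : Q ⊆ F)
    (hQt : Q ∩ ball d F S β t = ∅) (a : P → P) (ha : ∀ j, a j ∈ Q) :
    (β - θ) * B ≤ ∑ j ∈ core d D S t, w j * d j (a j) := by
  refine (pay hw hθβ ht hβ).trans (Finset.sum_le_sum fun j hj => ?_)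
  refine mul_le_mul_of_nonneg_left ?_ (hw j)
  have h1 : a j ∉ ball d F S β t := fun h => by
    have : a j ∈ Q ∩ ball d F S β t := Finset.mem_inter.2 ⟨ha j, h⟩
    rw [hQt] at this
    simp at this
  have h4 : β * sep d S t < d (a j) t := by
    by_contra hle
    exact h1 (mem_ball.2 ⟨hQF (ha j), not_lt.1 hle⟩)
  have h5 := htri (a j) j t
  have h6 := hsymm (a j) j
  linarith

/-- sums over disjoint cores -/
theorem sum_cores_le (hpos : ∀ x y, x ≠ y → 0 < d x y)
    (hsymm : ∀ x y, d x y = d y x)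
    (htri : ∀ x y z, d x z ≤ d x y + d y z) (g : P → R) (hg : ∀ j ∈ D, 0 ≤ g j)
    (L : Finset P) (hL : L ⊆ S) : ∑ t ∈ L, ∑ j ∈ core d D S t, g j ≤ ∑ j ∈ D, g j := by
  rw [← Finset.sum_biUnion]
  · refine Finset.sum_le_sum_of_subset_of_nonneg ?_ (fun j hj _ => hg j hj)
    intro j hj
    obtain ⟨t, _, hjt⟩ := Finset.mem_biUnion.1 hj
    exact (mem_core'.1 hjt).1
  · intro x hx y hy hxy
    rw [Function.onFun, Finset.disjoint_left]
    intro j hj hj'
    exact core_disjoint hpos hsymm htri (hL hx) (hL hy) hxy hj hj'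

/-- number of rigid centres whose ball is not met -/
theorem card_empty (hnn : ∀ x y, 0 ≤ d x y) (hpos : ∀ x y, x ≠ y → 0 < d x y)
    (hsymm : ∀ x y, d x y = d y x)
    (htri : ∀ x y z, d x z ≤ d x y + d y z) (hw : ∀ j, 0 ≤ w j) {θ β B : R} (hθβ : θ ≤ β)
    (hβ : 0 ≤ β) {Q : Finset P} (hQ : Q.Nonempty) (hQF : Q ⊆ F) :
    (((rig d w D S θ B).filter (fun t => Q ∩ ball d F S β t = ∅)).card : R) * ((β - θ) * B) ≤
      cst d w D Q := by
  obtain ⟨a, ha1, ha2, ha3⟩ := exists_nearest d Q hQ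
  rw [ha3 w D, ← nsmul_eq_mul, ← Finset.sum_const]
  refine (Finset.sum_le_sum fun t ht => ?_).trans
    (sum_cores_le (S := S) hpos hsymm htri (fun j => w j * d j (a j))
      (fun j _ => mul_nonneg (hw j) (hnn _ _))
      ((rig d w D S θ B).filter (fun t => Q ∩ ball d F S β t = ∅)) ?_)
  · obtain ⟨h1, h2⟩ := Finset.mem_filter.1 ht
    exact empty_ball_cost hsymm htri hw hθβ hβ h1 hQF h2 a ha1
  · intro t ht
    exact (mem_rig.1 (Finset.mem_filter.1 ht).1).1

/-- **(3)** moving a solution to the restricted facility set. -/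
theorem transfer_aux (hd0 : ∀ x, d x x = 0) (hnn : ∀ x y, 0 ≤ d x y) (hpos : ∀ x y, x ≠ y → 0 < d x y)
    (hsymm : ∀ x y, d x y = d y x)
    (htri : ∀ x y z, d x z ≤ d x y + d y z) (hw : ∀ j, 0 ≤ w j) (h2 : 2 ≤ S.card) (hSF : S ⊆ F)
    {θ β B : R} (hθ0 : 0 ≤ θ) (hβ0 : 0 < β) (hβ : β ≤ 1 / 8) (hθβ : 4 * θ ≤ β) (hB : 0 < B)
    (G : Finset P) (hG : G ⊆ rig d w D S θ B) (m : P → P)
    (hm : ∀ t ∈ G, m t ∈ ball d F S β t ∧ ∀ f ∈ ball d F S β t,
      ∑ j ∈ core d D S t, w j * d j (m t) ≤ ∑ j ∈ core d D S t, w j * d j f)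
    {Q : Finset P} (hQ : Q.Nonempty) (hQF : Q ⊆ F) :
    ∃ Q' ⊆ restr d F S G β m, Q'.Nonempty ∧ Q'.card ≤ Q.card ∧
      cst d w D Q' ≤ (1 + 16 * β) * cst d w D Q
        + ∑ t ∈ G.filter (fun t => 2 ≤ (Q ∩ ball d F S β t).card), cc d w D S t
        + 16 * θ / β * ∑ t ∈ G, cc d w D S t := by
  classical
  obtain ⟨a, ha1, ha2, ha3⟩ := exists_nearest d Q hQ
  have hGS : G ⊆ S := fun t ht => (mem_rig.1 (hG ht)).1
  have hβ' : β ≤ 1 / 4 := by linarith
  have hbd : ∀ t ∈ G, ∀ t' ∈ G, ∀ f, f ∈ ball d F S β t → f ∈ ball d F S β t' → t = t' :=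
    fun t ht t' ht' f h1 h3 => ball_disjoint hpos hsymm htri hβ0.le hβ' (hGS ht) (hGS ht') h1 h3
  have hcd : ∀ t ∈ G, ∀ t' ∈ G, ∀ j, j ∈ core d D S t → j ∈ core d D S t' → t = t' :=
    fun t ht t' ht' j h1 h3 => by
      by_contra hne
      exact core_disjoint hpos hsymm htri (hGS ht) (hGS ht') hne h1 h3
  -- the move
  have hmv : ∀ q : P, ∃ u : P, (∀ t ∈ G, q ∈ ball d F S β t → u = m t) ∧
      ((∀ t ∈ G, q ∉ ball d F S β t) → u = q) := by
    intro q
    by_cases h : ∃ t ∈ G, q ∈ ball d F S β t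
    · obtain ⟨t, ht, hqt⟩ := h
      refine ⟨m t, fun t' ht' hqt' => ?_, fun h' => absurd hqt (h' t ht)⟩
      rw [hbd t ht t' ht' q hqt hqt']
    · push Not at h
      exact ⟨q, fun t ht hqt => absurd hqt (h t ht), fun _ => rfl⟩
  choose mv hmv1 hmv2 using hmv
  set Q' := Q.image mv with hQ'
  have hmvF : ∀ q ∈ Q, mv q ∈ restr d F S G β m := by
    intro q hq
    rw [mem_restr]
    by_cases h : ∃ t ∈ G, q ∈ ball d F S β t
    · obtain ⟨t, ht, hqt⟩ := h
      rw [hmv1 q t ht hqt]
      refine ⟨(mem_ball.1 (hm t ht).1).1, fun t' ht' hmt => ?_⟩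
      rw [hbd t ht t' ht' _ (hm t ht).1 hmt]
    · push Not at h
      rw [hmv2 q h]
      exact ⟨hQF hq, fun t ht hqt => absurd hqt (h t ht)⟩
  have hQ'ne : Q'.Nonempty := hQ.image mv
  refine ⟨Q', ?_, hQ'ne, Finset.card_image_le, ?_⟩
  · intro x hx
    obtain ⟨q, hq, rfl⟩ := Finset.mem_image.1 hx
    exact hmvF q hq
  -- the assignment
  set FS : P → Prop := fun t => 2 ≤ (Q ∩ ball d F S β t).card ∨
    ∃ o ∈ Q ∩ ball d F S β t, 2 * cc d w D S t ≤ wt d w D S t * d o t with hFS
  have hFSne : ∀ t, FS t → ∃ o, o ∈ Q ∧ o ∈ ball d F S β t := by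
    intro t ht
    rcases ht with ht | ⟨o, ho, _⟩
    · obtain ⟨o, ho⟩ := Finset.card_pos.1 (by omega : 0 < (Q ∩ ball d F S β t).card)
      exact ⟨o, (Finset.mem_inter.1 ho).1, (Finset.mem_inter.1 ho).2⟩
    · exact ⟨o, (Finset.mem_inter.1 ho).1, (Finset.mem_inter.1 ho).2⟩
  have has : ∀ j : P, ∃ u ∈ Q', (∀ t ∈ G, j ∈ core d D S t → FS t → u = m t) ∧
      ((∀ t ∈ G, j ∈ core d D S t → ¬ FS t) → u = mv (a j)) := by
    intro j
    by_cases h : ∃ t ∈ G, j ∈ core d D S t ∧ FS t
    · obtain ⟨t, ht, hjt, hf⟩ := h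
      obtain ⟨o, hoQ, hob⟩ := hFSne t hf
      refine ⟨m t, ?_, fun t' ht' hjt' _ => ?_, fun h' => absurd hf (h' t ht hjt)⟩
      · rw [← hmv1 o t ht hob]; exact Finset.mem_image_of_mem _ hoQ
      · rw [hcd t ht t' ht' j hjt hjt']
    · push Not at h
      exact ⟨mv (a j), Finset.mem_image_of_mem _ (ha1 j),
        fun t ht hjt hf => absurd hf (h t ht hjt), fun _ => rfl⟩
  choose a' ha'Q ha'1 ha'2 using has
  have hcost := cst_le_assign d w hw D Q' hQ'ne a' (fun j _ => ha'Q j)
  refine hcost.trans ?_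
  -- pointwise bound outside of the own core
  have hout : ∀ j ∈ D, (∀ t ∈ G, a j ∈ ball d F S β t → j ∉ core d D S t) →
      d j (mv (a j)) ≤ (1 + 16 * β) * d j (a j) := by
    intro j hj h
    by_cases hb : ∃ t ∈ G, a j ∈ ball d F S β t
    · obtain ⟨t, ht, hat⟩ := hb
      rw [hmv1 _ t ht hat]
      exact move_outside hsymm htri hpos h2 hβ0.le hβ hat (hm t ht).1 hj (h t ht hat)
    · push Not at hb
      rw [hmv2 _ hb]
      have := hnn j (a j)
      nlinarith
  -- one cluster
  have hcl : ∀ t ∈ G, ∑ j ∈ core d D S t, w j * d j (a' j) ≤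
      (1 + 16 * β) * ∑ j ∈ core d D S t, w j * d j (a j) +
      (if 2 ≤ (Q ∩ ball d F S β t).card then cc d w D S t else 0) +
      16 * θ / β * cc d w D S t := by
    intro t ht
    obtain ⟨htS, htB, htc⟩ := mem_rig.1 (hG ht)
    have hcc0 : 0 ≤ cc d w D S t := cc_nonneg hnn hw t
    have hwt0 : 0 ≤ wt d w D S t := wt_nonneg hw t
    have hsep := sep_pos hpos h2 t
    have hh0 : 0 ≤ ∑ j ∈ core d D S t, w j * d j (a j) :=
      Finset.sum_nonneg fun j _ => mul_nonneg (hw j) (hnn _ _)
    have hite : (0 : R) ≤ (if 2 ≤ (Q ∩ ball d F S β t).card then cc d w D S t else 0) := by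
      split_ifs
      · exact hcc0
      · exact le_rfl
    have hθβ0 : 0 ≤ 16 * θ / β * cc d w D S t := by positivity
    have hmt : ∑ j ∈ core d D S t, w j * d j (m t) ≤ cc d w D S t :=
      (hm t ht).2 t (exists_best hSF hd0 hpos h2 hβ0.le t htS)
    have hwtpos : 0 < wt d w D S t := by
      rcases hwt0.eq_or_lt with h | h
      · rw [← h, zero_mul] at htB; linarith
      · exact h
    have hwb : 4 * cc d w D S t ≤ wt d w D S t * (β * sep d S t) := by
      have e1 : wt d w D S t * (β * sep d S t) = β * (wt d w D S t * sep d S t) := by ring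
      have e2 := mul_le_mul_of_nonneg_left htB hβ0.le
      have e3 : 4 * (θ * B) ≤ β * B := by
        have := mul_le_mul_of_nonneg_right hθβ hB.le
        linarith
      rw [e1]
      linarith
    by_cases hf : FS t
    · -- the whole core goes to `m t`
      have hg : ∑ j ∈ core d D S t, w j * d j (a' j) = ∑ j ∈ core d D S t, w j * d j (m t) :=
        Finset.sum_congr rfl fun j hj => by rw [ha'1 j t ht hj hf]
      rw [hg]
      by_cases hcard : 2 ≤ (Q ∩ ball d F S β t).card
      · rw [if_pos hcard]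
        have : 0 ≤ (1 + 16 * β) * ∑ j ∈ core d D S t, w j * d j (a j) := by positivity
        linarith
      · rw [if_neg hcard]
        rcases hf with hf | ⟨o, ho, hof⟩
        · exact absurd hf hcard
        · have hone : ∀ q ∈ Q ∩ ball d F S β t, q = o := by
            intro q hq
            by_contra hne
            apply hcard
            calc 2 = ({q, o} : Finset P).card := (Finset.card_pair hne).symm
              _ ≤ _ := Finset.card_le_card (by
                intro x hx
                rcases Finset.mem_insert.1 hx with rfl | hx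
                · exact hq
                · rw [Finset.mem_singleton.1 hx]; exact ho)
          -- every core client is at distance `min (d o t) (β sep) - d j t` from its facility
          have hmin : ∀ j ∈ core d D S t, min (d o t) (β * sep d S t) - d j t ≤ d j (a j) := by
            intro j _
            have t1 := htri (a j) j t
            have t2 := hsymm (a j) j
            by_cases hb : a j ∈ ball d F S β t
            · have : a j = o := hone _ (Finset.mem_inter.2 ⟨ha1 j, hb⟩)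
              rw [this] at t1 t2 ⊢
              have := min_le_left (d o t) (β * sep d S t)
              linarith
            · have h4 : β * sep d S t < d (a j) t := by
                by_contra hle
                exact hb (mem_ball.2 ⟨hQF (ha1 j), not_lt.1 hle⟩)
              have := min_le_right (d o t) (β * sep d S t)
              linarith
          have hs : wt d w D S t * min (d o t) (β * sep d S t) - cc d w D S t ≤
              ∑ j ∈ core d D S t, w j * d j (a j) := by
            unfold wt cc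
            rw [Finset.sum_mul, ← Finset.sum_sub_distrib]
            refine Finset.sum_le_sum fun j hj => ?_
            rw [← mul_sub]
            exact mul_le_mul_of_nonneg_left (hmin j hj) (hw j)
          have hmin2 : 2 * cc d w D S t ≤ wt d w D S t * min (d o t) (β * sep d S t) := by
            rcases min_choice (d o t) (β * sep d S t) with h | h
            · rw [h]; exact hof
            · rw [h]; linarith
          have h5 : ∑ j ∈ core d D S t, w j * d j (a j) ≤
              (1 + 16 * β) * ∑ j ∈ core d D S t, w j * d j (a j) := by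
            nlinarith
          linarith
    · -- the core is served as before
      have hg : ∀ j ∈ core d D S t, a' j = mv (a j) := fun j hj =>
        ha'2 j (fun t' ht' hjt' => by rw [← hcd t ht t' ht' j hj hjt']; exact hf)
      have hpw : ∀ j ∈ core d D S t, a j ∉ ball d F S β t →
          d j (mv (a j)) ≤ (1 + 16 * β) * d j (a j) := by
        intro j hj hab
        refine hout j (mem_core'.1 hj).1 (fun t' ht' hat' hjt' => ?_)
        rw [← hcd t ht t' ht' j hj hjt'] at hat'
        exact hab hat'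
      have hg' : ∑ j ∈ core d D S t, w j * d j (a' j) = ∑ j ∈ core d D S t, w j * d j (mv (a j)) :=
        Finset.sum_congr rfl fun j hj => by rw [hg j hj]
      rw [hg']
      rcases (Q ∩ ball d F S β t).eq_empty_or_nonempty with hemp | ⟨o, ho⟩
      · have h1 : ∑ j ∈ core d D S t, w j * d j (mv (a j)) ≤
            (1 + 16 * β) * ∑ j ∈ core d D S t, w j * d j (a j) := by
          rw [Finset.mul_sum]
          refine Finset.sum_le_sum fun j hj => ?_
          have := mul_le_mul_of_nonneg_left (hpw j hj (fun h => by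
            have : a j ∈ Q ∩ ball d F S β t := Finset.mem_inter.2 ⟨ha1 j, h⟩
            rw [hemp] at this
            simp at this)) (hw j)
          linarith
        linarith
      · have hcard : ¬ 2 ≤ (Q ∩ ball d F S β t).card := fun h => hf (Or.inl h)
        have hof : wt d w D S t * d o t < 2 * cc d w D S t := by
          by_contra hle
          exact hf (Or.inr ⟨o, ho, not_lt.1 hle⟩)
        have hob := (Finset.mem_inter.1 ho).2
        have hoQ := (Finset.mem_inter.1 ho).1
        have hone : ∀ q ∈ Q ∩ ball d F S β t, q = o := by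
          intro q hq
          by_contra hne
          apply hcard
          calc 2 = ({q, o} : Finset P).card := (Finset.card_pair hne).symm
            _ ≤ _ := Finset.card_le_card (by
              intro x hx
              rcases Finset.mem_insert.1 hx with rfl | hx
              · exact hq
              · rw [Finset.mem_singleton.1 hx]; exact ho)
        rw [if_neg hcard]
        set C2 := (core d D S t).filter (fun j => ¬ a j = o) with hC2
        have hsplit : ∀ g : P → R, ∑ j ∈ core d D S t, g j =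
            ∑ j ∈ (core d D S t).filter (fun j => a j = o), g j + ∑ j ∈ C2, g j := fun g =>
          (Finset.sum_filter_add_sum_filter_not _ _ _).symm
        -- weight of the clients not served by `o`
        have hC2w : (∑ j ∈ C2, w j) * (β * sep d S t) ≤ 4 * cc d w D S t := by
          have h1 : (∑ j ∈ C2, w j) * (β * sep d S t) ≤ ∑ j ∈ C2, 4 * (w j * d j t) := by
            rw [Finset.sum_mul]
            refine Finset.sum_le_sum fun j hj => ?_
            obtain ⟨hjc, hjo⟩ := Finset.mem_filter.1 hj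
            have hab : a j ∉ ball d F S β t := fun h =>
              hjo (hone _ (Finset.mem_inter.2 ⟨ha1 j, h⟩))
            have h4 : β * sep d S t < d (a j) t := by
              by_contra hle
              exact hab (mem_ball.2 ⟨hQF (ha1 j), not_lt.1 hle⟩)
            have t1 := htri (a j) j t
            have t2 := hsymm (a j) j
            have t3 := ha2 j o hoQ
            have t4 := htri j t o
            have t5 := hsymm t o
            -- d o t ≤ β sep / 2
            have t6 : d o t ≤ β * sep d S t / 2 := by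
              have : wt d w D S t * d o t ≤ wt d w D S t * (β * sep d S t / 2) := by linarith
              exact le_of_mul_le_mul_left this hwtpos
            have t7 : β * sep d S t ≤ 4 * d j t := by linarith
            have := mul_le_mul_of_nonneg_left t7 (hw j)
            linarith
          have h3 : ∑ j ∈ C2, 4 * (w j * d j t) ≤ 4 * cc d w D S t := by
            rw [← Finset.mul_sum]
            refine mul_le_mul_of_nonneg_left ?_ (by norm_num)
            exact Finset.sum_le_sum_of_subset_of_nonneg (Finset.filter_subset _ _)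
              (fun j _ _ => mul_nonneg (hw j) (hnn _ _))
          exact h1.trans h3
        -- distance between `o` and `m t`
        have hom : wt d w D S t * d o (m t) ≤ 4 * cc d w D S t := by
          have h1 : wt d w D S t * d t (m t) ≤ cc d w D S t + ∑ j ∈ core d D S t, w j * d j (m t) := by
            unfold wt cc
            rw [Finset.sum_mul, ← Finset.sum_add_distrib]
            refine Finset.sum_le_sum fun j _ => ?_
            rw [← mul_add]
            refine mul_le_mul_of_nonneg_left ?_ (hw j)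
            have := htri t j (m t)
            rw [hsymm t j] at this
            exact this
          have h3 := mul_le_mul_of_nonneg_left (htri o t (m t)) hwt0
          rw [mul_add] at h3
          linarith
        -- the loss
        have hloss : (∑ j ∈ C2, w j) * d o (m t) ≤ 16 * θ / β * cc d w D S t := by
          have hp0 : 0 ≤ ∑ j ∈ C2, w j := Finset.sum_nonneg fun j _ => hw j
          have h1 : ((∑ j ∈ C2, w j) * (β * sep d S t)) * (wt d w D S t * d o (m t)) ≤
              (4 * cc d w D S t) * (4 * cc d w D S t) :=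
            mul_le_mul hC2w hom (mul_nonneg hwt0 (hnn _ _)) (by linarith)
          have h3 : (4 * cc d w D S t) * (4 * cc d w D S t) ≤
              (4 * cc d w D S t) * (4 * (θ * (wt d w D S t * sep d S t))) := by
            refine mul_le_mul_of_nonneg_left ?_ (by linarith)
            have := mul_le_mul_of_nonneg_left htB hθ0
            linarith
          have h4 : (β * ((∑ j ∈ C2, w j) * d o (m t))) * (wt d w D S t * sep d S t) ≤
              (16 * θ * cc d w D S t) * (wt d w D S t * sep d S t) := by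
            calc (β * ((∑ j ∈ C2, w j) * d o (m t))) * (wt d w D S t * sep d S t)
                = ((∑ j ∈ C2, w j) * (β * sep d S t)) * (wt d w D S t * d o (m t)) := by ring
              _ ≤ _ := h1.trans h3
              _ = _ := by ring
          have h5 : β * ((∑ j ∈ C2, w j) * d o (m t)) ≤ 16 * θ * cc d w D S t :=
            le_of_mul_le_mul_right h4 (mul_pos hwtpos hsep)
          have e : 16 * θ / β * cc d w D S t = (16 * θ * cc d w D S t) / β := by ring
          rw [e, le_div_iff₀ hβ0]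
          linarith
        -- served part
        have hC1 : ∑ j ∈ (core d D S t).filter (fun j => a j = o), w j * d j (mv (a j)) ≤
            ∑ j ∈ (core d D S t).filter (fun j => a j = o), w j * d j (a j) +
            (∑ j ∈ C2, w j) * d o (m t) := by
          have e1 : ∑ j ∈ (core d D S t).filter (fun j => a j = o), w j * d j (mv (a j)) =
              ∑ j ∈ (core d D S t).filter (fun j => a j = o), w j * d j (m t) := by
            refine Finset.sum_congr rfl fun j hj => ?_
            rw [(Finset.mem_filter.1 hj).2, hmv1 o t ht hob]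
          have e2 : ∑ j ∈ (core d D S t).filter (fun j => a j = o), w j * d j (a j) =
              ∑ j ∈ (core d D S t).filter (fun j => a j = o), w j * d j o := by
            refine Finset.sum_congr rfl fun j hj => ?_
            rw [(Finset.mem_filter.1 hj).2]
          rw [e1, e2]
          have h1 := (hm t ht).2 o hob
          rw [hsplit (fun j => w j * d j (m t)), hsplit (fun j => w j * d j o)] at h1
          have h3 : ∑ j ∈ C2, w j * d j o ≤
              ∑ j ∈ C2, w j * d j (m t) + (∑ j ∈ C2, w j) * d o (m t) := by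
            rw [Finset.sum_mul, ← Finset.sum_add_distrib]
            refine Finset.sum_le_sum fun j _ => ?_
            rw [← mul_add]
            refine mul_le_mul_of_nonneg_left ?_ (hw j)
            have := htri j (m t) o
            rw [hsymm (m t) o] at this
            exact this
          linarith
        have hC2' : ∑ j ∈ C2, w j * d j (mv (a j)) ≤ (1 + 16 * β) * ∑ j ∈ C2, w j * d j (a j) := by
          rw [Finset.mul_sum]
          refine Finset.sum_le_sum fun j hj => ?_
          obtain ⟨hjc, hjo⟩ := Finset.mem_filter.1 hj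
          have hab : a j ∉ ball d F S β t := fun h =>
            hjo (hone _ (Finset.mem_inter.2 ⟨ha1 j, h⟩))
          have := mul_le_mul_of_nonneg_left (hpw j hjc hab) (hw j)
          linarith
        have hC1nn : 0 ≤ ∑ j ∈ (core d D S t).filter (fun j => a j = o), w j * d j (a j) :=
          Finset.sum_nonneg fun j _ => mul_nonneg (hw j) (hnn _ _)
        rw [hsplit (fun j => w j * d j (mv (a j))), hsplit (fun j => w j * d j (a j)), mul_add]
        nlinarith
  -- sum up
  set U := G.biUnion (fun t => core d D S t) with hU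
  have hUD : U ⊆ D := by
    intro j hj
    obtain ⟨t, _, hjt⟩ := Finset.mem_biUnion.1 hj
    exact (mem_core'.1 hjt).1
  have hUsum : ∀ g : P → R, ∑ j ∈ U, g j = ∑ t ∈ G, ∑ j ∈ core d D S t, g j := by
    intro g
    rw [hU, Finset.sum_biUnion]
    intro x hx y hy hxy
    rw [Function.onFun, Finset.disjoint_left]
    intro j hj hj'
    exact hxy (hcd x hx y hy j hj hj')
  rw [← Finset.sum_sdiff hUD, ha3 w D, ← Finset.sum_sdiff hUD (f := fun j => w j * d j (a j)),
    hUsum, hUsum]
  have hrest : ∑ j ∈ D \ U, w j * d j (a' j) ≤ (1 + 16 * β) * ∑ j ∈ D \ U, w j * d j (a j) := by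
    rw [Finset.mul_sum]
    refine Finset.sum_le_sum fun j hj => ?_
    obtain ⟨hjD, hjU⟩ := Finset.mem_sdiff.1 hj
    have hnc : ∀ t ∈ G, j ∉ core d D S t := fun t ht h => hjU (Finset.mem_biUnion.2 ⟨t, ht, h⟩)
    rw [ha'2 j (fun t ht h => absurd h (hnc t ht))]
    have := mul_le_mul_of_nonneg_left (hout j hjD (fun t ht _ => hnc t ht)) (hw j)
    linarith
  have hGsum := Finset.sum_le_sum hcl
  rw [Finset.sum_add_distrib, Finset.sum_add_distrib, ← Finset.mul_sum, ← Finset.mul_sum,
    ← Finset.sum_filter] at hGsum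
  rw [mul_add]
  linarith

/-- **(2'')** fractional version: `x j i` = part of client `j` served by `i`, `y i ≥ x j i` the opening; the total
deficit of the rigid facilities is at most `cost / ((β - θ) B)`. -/
theorem frac_pay (hnn : ∀ x y, 0 ≤ d x y) (hpos : ∀ x y, x ≠ y → 0 < d x y)
    (hsymm : ∀ x y, d x y = d y x)
    (htri : ∀ x y z, d x z ≤ d x y + d y z) (hw : ∀ j, 0 ≤ w j)
    {θ β B : R} (hθβ : θ ≤ β) (hβ : 0 ≤ β) (m : P → P) (x : P → P → R) (y : P → R)
    (hx0 : ∀ j i, 0 ≤ x j i) (hxy : ∀ j i, x j i ≤ y i) (hy1 : ∀ i, y i ≤ 1)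
    (hx1 : ∀ j ∈ D, ∑ i ∈ restr d F S (rig d w D S θ B) β m, x j i = 1) :
    (∑ t ∈ rig d w D S θ B, (1 - y (m t))) * ((β - θ) * B) ≤
      ∑ j ∈ D, w j * ∑ i ∈ restr d F S (rig d w D S θ B) β m, x j i * d j i := by
  classical
  set F' := restr d F S (rig d w D S θ B) β m with hF'
  rw [Finset.sum_mul]
  refine (Finset.sum_le_sum fun t ht => ?_).trans
    (sum_cores_le (S := S) hpos hsymm htri (fun j => w j * ∑ i ∈ F', x j i * d j i)
      (fun j _ => mul_nonneg (hw j) (Finset.sum_nonneg fun i _ => mul_nonneg (hx0 j i) (hnn _ _)))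
      (rig d w D S θ B) (fun t ht => (mem_rig.1 ht).1))
  have hz : 0 ≤ 1 - y (m t) := by linarith [hy1 (m t)]
  have h1 := mul_le_mul_of_nonneg_left (pay hw hθβ ht hβ) hz
  refine h1.trans ?_
  rw [Finset.mul_sum]
  refine Finset.sum_le_sum fun j hj => ?_
  have hjD := (mem_core'.1 hj).1
  have key : (1 - y (m t)) * (β * sep d S t - d j t) ≤ ∑ i ∈ F', x j i * d j i := by
    rcases le_or_gt (β * sep d S t - d j t) 0 with hneg | hp
    · have h3 : (1 - y (m t)) * (β * sep d S t - d j t) ≤ 0 :=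
        mul_nonpos_of_nonneg_of_nonpos hz hneg
      exact h3.trans (Finset.sum_nonneg fun i _ => mul_nonneg (hx0 j i) (hnn _ _))
    · have h3 : ∑ i ∈ F'.erase (m t), x j i * (β * sep d S t - d j t) ≤ ∑ i ∈ F', x j i * d j i := by
        refine (Finset.sum_le_sum fun i hi => ?_).trans
          (Finset.sum_le_sum_of_subset_of_nonneg (Finset.erase_subset _ _)
            (fun i _ _ => mul_nonneg (hx0 j i) (hnn _ _)))
        refine mul_le_mul_of_nonneg_left ?_ (hx0 j i)
        exact far_of_mem_restr hsymm htri ht (Finset.mem_erase.1 hi).2 (Finset.mem_erase.1 hi).1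
      refine le_trans ?_ h3
      rw [← Finset.sum_mul]
      refine mul_le_mul_of_nonneg_right ?_ hp.le
      have h4 := hx1 j hjD
      by_cases hmem : m t ∈ F'
      · rw [← Finset.add_sum_erase F' (x j) hmem] at h4
        have := hxy j (m t)
        linarith
      · rw [Finset.erase_eq_of_notMem hmem, h4]
        have := (hx0 j (m t)).trans (hxy j (m t))
        linarith
  have := mul_le_mul_of_nonneg_left key (hw j)
  linarith

theorem rig_mono {θ θ' B : R} (hB : 0 ≤ B) (h : θ ≤ θ') : rig d w D S θ B ⊆ rig d w D S θ' B := by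
  intro t ht
  obtain ⟨h1, h2, h3⟩ := mem_rig.1 ht
  exact mem_rig.2 ⟨h1, h2, h3.trans (mul_le_mul_of_nonneg_right h hB)⟩

/-- **(3)** transfer, with the number of doubly met balls estimated (independently of `θ`). -/
theorem transfer (hd0 : ∀ x, d x x = 0) (hnn : ∀ x y, 0 ≤ d x y) (hpos : ∀ x y, x ≠ y → 0 < d x y)
    (hsymm : ∀ x y, d x y = d y x)
    (htri : ∀ x y z, d x z ≤ d x y + d y z) (hw : ∀ j, 0 ≤ w j) (h2 : 2 ≤ S.card) (hSF : S ⊆ F)
    {θ β B : R} (hθ0 : 0 ≤ θ) (hβ0 : 0 < β) (hβ : β ≤ 1 / 8) (hθβ : 4 * θ ≤ β) (hB : 0 < B)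
    (m : P → P)
    (hm : ∀ t ∈ rig d w D S θ B, m t ∈ ball d F S β t ∧ ∀ f ∈ ball d F S β t,
      ∑ j ∈ core d D S t, w j * d j (m t) ≤ ∑ j ∈ core d D S t, w j * d j f)
    {Q : Finset P} (hQ : Q.Nonempty) (hQF : Q ⊆ F) :
    ∃ Q' ⊆ restr d F S (rig d w D S θ B) β m, Q'.Nonempty ∧ Q'.card ≤ Q.card ∧
      cst d w D Q' ≤ (1 + 16 * β + 4 * θ / (3 * β)) * cst d w D Q
        + θ * B * ((Q.card : R) - ((rig d w D S (β / 4) B).card : R))
        + 16 * θ / β * cst d w D S := by
  classical
  obtain ⟨Q', h1, h3, h4, h5⟩ := transfer_aux hd0 hnn hpos hsymm htri hw h2 hSF hθ0 hβ0 hβ hθβ hB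
    (rig d w D S θ B) (Finset.Subset.refl _) m hm hQ hQF
  refine ⟨Q', h1, h3, h4, h5.trans ?_⟩
  have hS : S.Nonempty := Finset.card_pos.1 (by omega)
  have hsum := sum_cc_le (w := w) (D := D) hnn hpos hsymm htri hw hS (rig d w D S θ B)
    (fun t ht => (mem_rig.1 ht).1)
  have hc1 : 16 * θ / β * ∑ t ∈ rig d w D S θ B, cc d w D S t ≤ 16 * θ / β * cst d w D S :=
    mul_le_mul_of_nonneg_left hsum (by positivity)
  -- doubly met balls
  set G2 := rig d w D S (β / 4) B with hG2
  have hGS : G2 ⊆ S := fun t ht => (mem_rig.1 ht).1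
  have hsub : (rig d w D S θ B).filter (fun t => 2 ≤ (Q ∩ ball d F S β t).card) ⊆
      G2.filter (fun t => 2 ≤ (Q ∩ ball d F S β t).card) :=
    Finset.filter_subset_filter _ (rig_mono hB.le (by linarith))
  have htw := card_twice (F := F) hpos hsymm htri hβ0.le (by linarith : β ≤ 1 / 4) G2 Q hGS
  have hemp := card_empty (w := w) (D := D) (S := S) (F := F) hnn hpos hsymm htri hw (θ := β / 4) (β := β) (B := B)
    (by linarith) hβ0.le hQ hQF
  set n2 := ((rig d w D S θ B).filter (fun t => 2 ≤ (Q ∩ ball d F S β t).card)).card with hn2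
  set n0 := (G2.filter (fun t => Q ∩ ball d F S β t = ∅)).card with hn0
  have hn2le : n2 ≤ (G2.filter (fun t => 2 ≤ (Q ∩ ball d F S β t).card)).card :=
    Finset.card_le_card hsub
  have hn : n2 + G2.card ≤ Q.card + n0 := by omega
  have hnR : (n2 : R) ≤ ((Q.card : R) - G2.card) + n0 := by
    have : (n2 : R) + G2.card ≤ Q.card + n0 := by exact_mod_cast hn
    linarith
  have hcc2 : ∑ t ∈ (rig d w D S θ B).filter (fun t => 2 ≤ (Q ∩ ball d F S β t).card),
      cc d w D S t ≤ θ * B * n2 := by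
    calc _ ≤ ∑ _t ∈ (rig d w D S θ B).filter (fun t => 2 ≤ (Q ∩ ball d F S β t).card), θ * B :=
          Finset.sum_le_sum fun t ht => (mem_rig.1 (Finset.mem_filter.1 ht).1).2.2
      _ = _ := by rw [Finset.sum_const, nsmul_eq_mul, ← hn2]; ring
  have hθB : 0 ≤ θ * B := by positivity
  have h6 : θ * B * n2 ≤ θ * B * (((Q.card : R) - G2.card) + n0) :=
    mul_le_mul_of_nonneg_left hnR hθB
  have h7 : θ * B * n0 ≤ 4 * θ / (3 * β) * cst d w D Q := by
    have e1 : (n0 : R) * (3 / 4 * β * B) ≤ cst d w D Q := by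
      have : (β - β / 4) * B = 3 / 4 * β * B := by ring
      rw [this] at hemp
      exact hemp
    have e2 := mul_le_mul_of_nonneg_left e1 (by positivity : 0 ≤ 4 * θ / (3 * β))
    have e3 : 4 * θ / (3 * β) * ((n0 : R) * (3 / 4 * β * B)) = θ * B * n0 := by
      field_simp
    rw [e3] at e2
    exact e2
  have h8 : (1 + 16 * β + 4 * θ / (3 * β)) * cst d w D Q =
      (1 + 16 * β) * cst d w D Q + 4 * θ / (3 * β) * cst d w D Q := by ring
  rw [h8]
  have h9 : θ * B * (((Q.card : R) - G2.card) + n0) =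
      θ * B * ((Q.card : R) - G2.card) + θ * B * n0 := by ring
  linarith

/-- number of rigid centres, compared with `|O|`; `S` may be any nonempty set. -/
theorem card_rig (hd0 : ∀ x, d x x = 0) (hpos : ∀ x y, x ≠ y → 0 < d x y)
    (hsymm : ∀ x y, d x y = d y x)
    (htri : ∀ x y z, d x z ≤ d x y + d y z) (hw : ∀ j, 0 ≤ w j) (hS : S.Nonempty)
    (O : Finset P) (hO : O.Nonempty) (hOF : O ⊆ F) (hSO : S.card ≤ O.card)
    (e A θ B : R) (he : 0 < e) (he2 : e ≤ 2) (hA0 : 0 ≤ A) (hθ : 0 < θ) (hB0 : 0 < B)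
    (hcO : 0 < cst d w D O) (hA : cst d w D S ≤ A * cst d w D O) (s : ℕ)
    (hB : B * (s + 1) ≤ e / 4 * cst d w D O)
    (stab : ∀ S' ⊆ F, S'.Nonempty → S'.card + (s + 1) ≤ O.card →
      (1 + e) * cst d w D O < cst d w D S') :
    (O.card : R) - ((rig d w D S θ B).card : R) ≤
      (14 + 62 * A) / e * (s + 1) + A * cst d w D O / (θ * B) := by
  have hnn : ∀ x y, 0 ≤ d x y := fun x y => by
    by_cases h : x = y
    · rw [h, hd0]
    · exact (hpos x y h).le
  have hst := stab_card d w D F hnn hsymm htri hw O S hO hS hOF e he hcO s stab he2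
  have hs1 : (1 : R) ≤ (s : R) + 1 := by
    have : (0 : R) ≤ s := Nat.cast_nonneg s
    linarith
  have h1 : (O.card : R) - S.card ≤ 2 * (1 + A) / e * (s + 1) := by
    have h3 : ((O.card : R) - S.card) * (e * cst d w D O) ≤
        (2 * (1 + A) * (s + 1)) * cst d w D O := by
      refine hst.trans ?_
      have : 2 * (cst d w D O + cst d w D S) * ((s : R) + 1) ≤
          2 * (cst d w D O + A * cst d w D O) * (s + 1) :=
        mul_le_mul_of_nonneg_right (by linarith) (by linarith)
      refine this.trans (le_of_eq ?_)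
      ring
    have h4 : (((O.card : R) - S.card) * e) * cst d w D O ≤
        (2 * (1 + A) * (s + 1)) * cst d w D O := by linarith
    have h5 := le_of_mul_le_mul_right h4 hcO
    have e1 : 2 * (1 + A) / e * ((s : R) + 1) = (2 * (1 + A) * (s + 1)) / e := by ring
    rw [e1, le_div_iff₀ he]
    exact h5
  have hsplit : (14 + 62 * A) / e * ((s : R) + 1) =
      2 * (1 + A) / e * (s + 1) + 12 * (1 + 5 * A) / e * (s + 1) := by ring
  have hlast : 0 ≤ A * cst d w D O / (θ * B) := by positivity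
  rcases Nat.lt_or_ge S.card 2 with hlt | h2
  · have hc : (S.card : R) ≤ 1 := by exact_mod_cast (by omega : S.card ≤ 1)
    have h3 : (0 : R) ≤ ((rig d w D S θ B).card : R) := Nat.cast_nonneg _
    have h4 : (1 : R) ≤ 12 * (1 + 5 * A) / e * (s + 1) := by
      have e1 : (6 : R) ≤ 12 * (1 + 5 * A) / e := by
        rw [le_div_iff₀ he]
        nlinarith
      nlinarith
    rw [hsplit]
    linarith
  · have h3 := card_not_rig hnn hpos hsymm htri hw h2 O hO hOF hSO e A θ B he he2 hA0 hθ hB0 hcO hA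
      s hB stab
    have hsub : rig d w D S θ B ⊆ S := fun t ht => (mem_rig.1 ht).1
    have h4 : ((S \ rig d w D S θ B).card : R) = (S.card : R) - (rig d w D S θ B).card := by
      rw [Finset.card_sdiff_of_subset hsub, Nat.cast_sub (Finset.card_le_card hsub)]
    rw [h4] at h3
    rw [hsplit]
    linarith

theorem rig_eq_empty (hlt : S.card < 2) {θ B : R} (hB : 0 < B) : rig d w D S θ B = ∅ := by
  rw [Finset.eq_empty_iff_forall_notMem]
  intro t ht
  obtain ⟨h1, h2, _⟩ := mem_rig.1 ht
  have : ¬ (S.erase t).Nonempty := by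
    rw [← Finset.card_pos, Finset.card_erase_of_mem h1]
    omega
  rw [sep, dif_neg this, mul_zero] at h2
  linarith

/-- **Structure theorem.** `O` = a solution with `k` centres in a stable instance, `S` = an `A`-approximation
with `1 ≤ |S| ≤ k` centres, `B (s+1) ≤ (e/4) cost O`.  All but `C (s+1)` of the `k` centres are rigid, and every
solution `Q` with at most `k` centres can be moved to the restricted facility set. -/
theorem struct_main (hd0 : ∀ x, d x x = 0) (hpos : ∀ x y, x ≠ y → 0 < d x y)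
    (hsymm : ∀ x y, d x y = d y x)
    (htri : ∀ x y z, d x z ≤ d x y + d y z) (hw : ∀ j, 0 ≤ w j) (hS : S.Nonempty) (hSF : S ⊆ F)
    {θ β B : R} (hθ0 : 0 < θ) (hβ0 : 0 < β) (hβ : β ≤ 1 / 8) (hθβ : 4 * θ ≤ β) (hB : 0 < B)
    (m : P → P)
    (hm : ∀ t ∈ rig d w D S θ B, m t ∈ ball d F S β t ∧ ∀ f ∈ ball d F S β t,
      ∑ j ∈ core d D S t, w j * d j (m t) ≤ ∑ j ∈ core d D S t, w j * d j f)
    (O : Finset P) (hO : O.Nonempty) (hOF : O ⊆ F) (hSO : S.card ≤ O.card)
    (e A : R) (he : 0 < e) (he2 : e ≤ 2) (hA0 : 0 ≤ A)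
    (hcO : 0 < cst d w D O) (hA : cst d w D S ≤ A * cst d w D O) (s : ℕ)
    (hBs : B * (s + 1) ≤ e / 4 * cst d w D O)
    (stab : ∀ S' ⊆ F, S'.Nonempty → S'.card + (s + 1) ≤ O.card →
      (1 + e) * cst d w D O < cst d w D S') :
    (O.card : R) - ((rig d w D S θ B).card : R) ≤
      (14 + 62 * A) / e * (s + 1) + A * cst d w D O / (θ * B) ∧
    ∀ Q ⊆ F, Q.Nonempty → Q.card ≤ O.card →
      ∃ Q' ⊆ restr d F S (rig d w D S θ B) β m, Q'.Nonempty ∧ Q'.card ≤ Q.card ∧
      cst d w D Q' ≤ (1 + 16 * β + 4 * θ / (3 * β)) * cst d w D Q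
        + θ * (4 + 16 * A + 20 * A / β) * cst d w D O := by
  have hnn : ∀ x y, 0 ≤ d x y := fun x y => by
    by_cases h : x = y
    · rw [h, hd0]
    · exact (hpos x y h).le
  refine ⟨card_rig hd0 hpos hsymm htri hw hS O hO hOF hSO e A θ B he he2 hA0 hθ0 hB hcO hA s
    hBs stab, fun Q hQF hQ hQO => ?_⟩
  have hcQ : 0 ≤ cst d w D Q := by
    obtain ⟨b, hb1, hb2, hb3⟩ := exists_nearest d Q hQ
    rw [hb3 w D]
    exact Finset.sum_nonneg fun j _ => mul_nonneg (hw j) (hnn _ _)
  rcases Nat.lt_or_ge S.card 2 with hlt | h2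
  · refine ⟨Q, fun f hf => ?_, hQ, le_rfl, ?_⟩
    · rw [mem_restr, rig_eq_empty hlt hB]
      exact ⟨hQF hf, fun t ht => absurd ht (Finset.notMem_empty t)⟩
    · have h1 : 0 ≤ 16 * β + 4 * θ / (3 * β) := by positivity
      have h3 : 0 ≤ θ * (4 + 16 * A + 20 * A / β) * cst d w D O := by positivity
      nlinarith
  obtain ⟨Q', h1, h3, h4, h5⟩ := transfer hd0 hnn hpos hsymm htri hw h2 hSF hθ0.le hβ0 hβ hθβ hB m hm
    hQ hQF
  refine ⟨Q', h1, h3, h4, h5.trans ?_⟩
  have h6 := card_rig hd0 hpos hsymm htri hw hS O hO hOF hSO e A (β / 4) B he he2 hA0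
    (by positivity) hB hcO hA s hBs stab
  have hQOR : (Q.card : R) ≤ O.card := by exact_mod_cast hQO
  have h6' : (Q.card : R) - ((rig d w D S (β / 4) B).card : R) ≤
      (14 + 62 * A) / e * (s + 1) + A * cst d w D O / (β / 4 * B) := by linarith
  have h7 := mul_le_mul_of_nonneg_left h6' (by positivity : 0 ≤ θ * B)
  have h8 : θ * B * ((14 + 62 * A) / e * (s + 1) + A * cst d w D O / (β / 4 * B)) =
      θ * ((14 + 62 * A) / e * (B * (s + 1)) + 4 * A / β * cst d w D O) := by
    field_simp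
  rw [h8] at h7
  have h9 : (14 + 62 * A) / e * (B * (s + 1)) ≤ (4 + 16 * A) * cst d w D O := by
    have h10 := mul_le_mul_of_nonneg_left hBs (by positivity : 0 ≤ (14 + 62 * A) / e)
    have e1 : (14 + 62 * A) / e * (e / 4 * cst d w D O) = (14 + 62 * A) / 4 * cst d w D O := by
      field_simp
    rw [e1] at h10
    refine h10.trans (mul_le_mul_of_nonneg_right ?_ hcO.le)
    linarith
  have h10 := mul_le_mul_of_nonneg_left h9 hθ0.le
  have h11 : 16 * θ / β * cst d w D S ≤ 16 * θ / β * (A * cst d w D O) :=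
    mul_le_mul_of_nonneg_left hA (by positivity)
  have h12 : θ * (4 + 16 * A + 20 * A / β) * cst d w D O =
      θ * ((4 + 16 * A) * cst d w D O) + θ * (4 * A / β * cst d w D O) +
      16 * θ / β * (A * cst d w D O) := by
    field_simp
    ring
  rw [h12]
  rw [mul_add] at h7
  linarith

end metric

end Crest.Agent.R310.Struct
end

-- ▼ part R310/StructCode
section

/-!
# R310, block B2: the structure step as code (helper201)

For a raw instance `r`, a guess `A` of the optimal cost and the slack `s`: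
* `cenL r` : the centres `S` of the local search;
* `rigL`, `bestF` : rigid centres `t` and the facility kept for them;
* `resRI` : the raw instance with the restricted facility mask (and budget `1`).
`resInst` is the corresponding instance; `struct_code` collects everything that is proved about it.
-/

set_option linter.dupNamespace false
set_option autoImplicit false

namespace Crest.Agent.R310

open Crest.Agent.Lib.PT Crest.Agent.Lib.PT.Arith Crest.LogicCS.KMedian

/-- distinct centres of the local search -/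
def cenL (r : RI) : List ℕ := (facL r).filter (fun t => decide (t ∈ localS r))

/-- distance of `t` to the other centres -/
def sepL (r : RI) (S : List ℕ) (t : ℕ) : ℚ :=
  listMin ((S.filter (fun u => !decide (u = t))).map (fun u => riD r t u))

/-- weight of the core -/
def wtL (r : RI) (S : List ℕ) (t : ℕ) : ℚ :=
  ∑ j ∈ Finset.range (riN r), if coreB r S t j = true then 1 else 0

/-- rigid centres -/
def rigL (r : RI) (S : List ℕ) (θ B : ℚ) : List ℕ :=
  S.filter (fun t => decide (B ≤ wtL r S t * sepL r S t) && decide (score r S t t ≤ θ * B))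

/-- the facility kept for `t` -/
def bestF (r : RI) (S : List ℕ) (β : ℚ) (t : ℕ) : ℕ :=
  argQ ((facL r).filter (fun f => decide (riD r f t ≤ β * sepL r S t))) (fun u => score r S t u)

/-- is `f` kept? -/
def keepB (r : RI) (S G : List ℕ) (β : ℚ) (f : ℕ) : Bool :=
  G.all (fun t => !decide (riD r f t ≤ β * sepL r S t) || decide (f = bestF r S β t))

/-- the restricted raw instance (budget `1`) -/
def resRI (r : RI) (S G : List ℕ) (β : ℚ) : RI :=
  (r.1, 1, r.2.2.1, (List.range (riN r)).map (fun f => riF r f && keepB r S G β f), r.2.2.2.2)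

/-- the restricted instance for the threshold `B` -/
def structR (θ β : ℚ) (r : RI) (B : ℚ) : RI := resRI r (cenL r) (rigL r (cenL r) θ B) β

/-- the tight facilities -/
def structG (θ β : ℚ) (r : RI) (B : ℚ) : List ℕ :=
  (rigL r (cenL r) θ B).map (fun t => bestF r (cenL r) β t)

section ptf
variable {γ : Type} [PTCode γ]

theorem ptf_cenL {r : γ → RI} (hr : PTF r) : PTF (fun c => cenL (r c)) :=
  PTF.filter (l := fun c => facL (r c)) (p := fun c t => decide (t ∈ localS (r c))) (ptf_facL hr)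
    (PTPred.toPTF (PTPred.mem PTF.snd (ptf_localS (PTF.comp hr PTF.fst))))

theorem ptf_sepL {r : γ → RI} {S : γ → List ℕ} {t : γ → ℕ} (hr : PTF r) (hS : PTF S) (ht : PTF t) :
    PTF (fun c => sepL (r c) (S c) (t c)) := by
  refine ptf_listMin (PTF.map (l := fun c => (S c).filter (fun u => !decide (u = t c)))
    (f := fun c u => riD (r c) (t c) u) ?_ ?_)
  · exact PTF.filter (l := S) (p := fun c u => !decide (u = t c)) hS
      (PTF.not (PTPred.toPTF (PTPred.natEq PTF.snd (PTF.comp ht PTF.fst))))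
  · exact ptf_riD (PTF.comp hr PTF.fst) (PTF.comp ht PTF.fst) PTF.snd

theorem ptf_wtL {r : γ → RI} {S : γ → List ℕ} {t : γ → ℕ} (hr : PTF r) (hS : PTF S) (ht : PTF t) :
    PTF (fun c => wtL (r c) (S c) (t c)) := by
  refine PTF.ratSumRange (ptu_riN hr)
    (f := fun c j => if coreB (r c) (S c) (t c) j = true then (1 : ℚ) else 0) ?_
  exact PTF.ite (PTF.toPTPred (ptf_coreB (PTF.comp hr PTF.fst) (PTF.comp hS PTF.fst)
    (PTF.comp ht PTF.fst) PTF.snd)) (PTF.const _) (PTF.const _)

theorem ptf_rigL {r : γ → RI} {S : γ → List ℕ} {θ B : γ → ℚ} (hr : PTF r) (hS : PTF S)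
    (hθ : PTF θ) (hB : PTF B) : PTF (fun c => rigL (r c) (S c) (θ c) (B c)) := by
  have hr' : PTF (fun p : γ × ℕ => r p.1) := PTF.comp hr PTF.fst
  have hS' : PTF (fun p : γ × ℕ => S p.1) := PTF.comp hS PTF.fst
  have hB' : PTF (fun p : γ × ℕ => B p.1) := PTF.comp hB PTF.fst
  have hθ' : PTF (fun p : γ × ℕ => θ p.1) := PTF.comp hθ PTF.fst
  refine PTF.filter (l := S) (p := fun c t => decide (B c ≤ wtL (r c) (S c) t * sepL (r c) (S c) t) &&
    decide (score (r c) (S c) t t ≤ θ c * B c)) hS (PTF.and ?_ ?_)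
  · exact PTPred.toPTF (PTPred.ratLe hB' (PTF.ratMul (ptf_wtL hr' hS' PTF.snd)
      (ptf_sepL hr' hS' PTF.snd)))
  · exact PTPred.toPTF (PTPred.ratLe (ptf_score hr' hS' PTF.snd PTF.snd) (PTF.ratMul hθ' hB'))

theorem ptf_bestF {r : γ → RI} {S : γ → List ℕ} {β : γ → ℚ} {t : γ → ℕ} (hr : PTF r) (hS : PTF S)
    (hβ : PTF β) (ht : PTF t) : PTF (fun c => bestF (r c) (S c) (β c) (t c)) := by
  have hr' : PTF (fun p : γ × ℕ => r p.1) := PTF.comp hr PTF.fst
  have hS' : PTF (fun p : γ × ℕ => S p.1) := PTF.comp hS PTF.fst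
  have hβ' : PTF (fun p : γ × ℕ => β p.1) := PTF.comp hβ PTF.fst
  have ht' : PTF (fun p : γ × ℕ => t p.1) := PTF.comp ht PTF.fst
  refine ptf_argQ (l := fun c => (facL (r c)).filter
    (fun f => decide (riD (r c) f (t c) ≤ β c * sepL (r c) (S c) (t c))))
    (key := fun c u => score (r c) (S c) (t c) u) ?_ (ptf_score hr' hS' ht' PTF.snd)
  refine PTF.filter (l := fun c => facL (r c))
    (p := fun c f => decide (riD (r c) f (t c) ≤ β c * sepL (r c) (S c) (t c))) (ptf_facL hr) ?_
  exact PTPred.toPTF (PTPred.ratLe (ptf_riD hr' PTF.snd ht') (PTF.ratMul hβ' (ptf_sepL hr' hS' ht')))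

theorem ptf_keepB {r : γ → RI} {S G : γ → List ℕ} {β : γ → ℚ} {f : γ → ℕ} (hr : PTF r)
    (hS : PTF S) (hG : PTF G) (hβ : PTF β) (hf : PTF f) :
    PTF (fun c => keepB (r c) (S c) (G c) (β c) (f c)) := by
  have hr' : PTF (fun p : γ × ℕ => r p.1) := PTF.comp hr PTF.fst
  have hS' : PTF (fun p : γ × ℕ => S p.1) := PTF.comp hS PTF.fst
  have hβ' : PTF (fun p : γ × ℕ => β p.1) := PTF.comp hβ PTF.fst
  have hf' : PTF (fun p : γ × ℕ => f p.1) := PTF.comp hf PTF.fst
  refine PTF.all (l := G) (p := fun c t => !decide (riD (r c) (f c) t ≤ β c * sepL (r c) (S c) t) ||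
    decide (f c = bestF (r c) (S c) (β c) t)) hG (PTF.or (PTF.not ?_) ?_)
  · exact PTPred.toPTF (PTPred.ratLe (ptf_riD hr' hf' PTF.snd)
      (PTF.ratMul hβ' (ptf_sepL hr' hS' PTF.snd)))
  · exact PTPred.toPTF (PTPred.natEq hf' (ptf_bestF hr' hS' hβ' PTF.snd))

theorem ptf_resRI {r : γ → RI} {S G : γ → List ℕ} {β : γ → ℚ} (hr : PTF r)
    (hS : PTF S) (hG : PTF G) (hβ : PTF β) : PTF (fun c => resRI (r c) (S c) (G c) (β c)) := by
  have h1 : PTF (fun c => (r c).1) := PTF.comp (g := fun r : RI => r.1) (by fun_prop) hr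
  have h2 : PTF (fun c => (r c).2.2.1) := PTF.comp (g := fun r : RI => r.2.2.1) (by fun_prop) hr
  have h3 : PTF (fun c => (r c).2.2.2.2) := PTF.comp (g := fun r : RI => r.2.2.2.2) (by fun_prop) hr
  refine PTF.prodMk h1 (PTF.prodMk (PTF.const 1) (PTF.prodMk h2 (PTF.prodMk ?_ h3)))
  refine PTF.tabulate (ptu_riN hr) (f := fun c f => riF (r c) f && keepB (r c) (S c) (G c) (β c) f) ?_
  exact PTF.and (ptf_riF (PTF.comp hr PTF.fst) PTF.snd)
    (ptf_keepB (PTF.comp hr PTF.fst) (PTF.comp hS PTF.fst) (PTF.comp hG PTF.fst)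
      (PTF.comp hβ PTF.fst) PTF.snd)

theorem ptf_structR {θ β B : γ → ℚ} {r : γ → RI} (hθ : PTF θ) (hβ : PTF β) (hr : PTF r)
    (hB : PTF B) : PTF (fun c => structR (θ c) (β c) (r c) (B c)) :=
  ptf_resRI hr (ptf_cenL hr) (ptf_rigL hr (ptf_cenL hr) hθ hB) hβ

theorem ptf_structG {θ β B : γ → ℚ} {r : γ → RI} (hθ : PTF θ) (hβ : PTF β) (hr : PTF r)
    (hB : PTF B) : PTF (fun c => structG (θ c) (β c) (r c) (B c)) :=
  PTF.map (l := fun c => rigL (r c) (cenL (r c)) (θ c) (B c))
    (f := fun c t => bestF (r c) (cenL (r c)) (β c) t) (ptf_rigL hr (ptf_cenL hr) hθ hB)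
    (ptf_bestF (PTF.comp hr PTF.fst) (ptf_cenL (PTF.comp hr PTF.fst)) (PTF.comp hβ PTF.fst) PTF.snd)

end ptf

/-! ### bridge -/

section bridge

variable {I : Instance}

theorem coreB_iff {Q : List ℕ} (hQ : ∀ q ∈ Q, q < I.N) (t j : Fin I.N) :
    coreB (raw I) Q t j = true ↔
      j ∈ Tight.core (fun x y => I.dist x y) I.clients (setOf I Q) t := by
  unfold coreB
  rw [mem_core, Bool.and_eq_true, riC_raw, decide_eq_true_eq, List.all_eq_true]
  refine and_congr_right (fun _ => ?_)
  constructor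
  · intro h q hq hqt
    have := h _ (mem_setOf.1 hq)
    rw [Bool.or_eq_true, decide_eq_true_eq, decide_eq_true_eq, riD_raw, riD_raw] at this
    rcases this with this | this
    · exact absurd (Fin.ext this) hqt
    · exact this
  · intro h q hq
    have hqlt : q < I.N := hQ q hq
    rw [Bool.or_eq_true, decide_eq_true_eq, decide_eq_true_eq]
    by_cases hqt : q = (t : ℕ)
    · exact Or.inl hqt
    · right
      have h2 : riD (raw I) t q = I.dist t ⟨q, hqlt⟩ := riD_raw I t ⟨q, hqlt⟩
      rw [riD_raw, h2]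
      exact h ⟨q, hqlt⟩ (mem_setOf.2 hq) (fun h3 => hqt (by rw [← h3]))

theorem filter_coreB {Q : List ℕ} (hQ : ∀ q ∈ Q, q < I.N) (t : Fin I.N) :
    Finset.univ.filter (fun j : Fin I.N => coreB (raw I) Q t j = true) =
      Tight.core (fun x y => I.dist x y) I.clients (setOf I Q) t := by
  ext j
  rw [Finset.mem_filter, coreB_iff hQ]
  simp

theorem score_raw {Q : List ℕ} (hQ : ∀ q ∈ Q, q < I.N) (t u : Fin I.N) :
    score (raw I) Q t u = ∑ j ∈ Tight.core (fun x y => I.dist x y) I.clients (setOf I Q) t,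
      (1 : ℚ) * I.dist j u := by
  unfold score
  rw [riN_raw, Finset.sum_range, ← Finset.sum_filter, filter_coreB hQ]
  exact Finset.sum_congr rfl (fun j _ => by rw [riD_raw, one_mul])

theorem wtL_raw {Q : List ℕ} (hQ : ∀ q ∈ Q, q < I.N) (t : Fin I.N) :
    wtL (raw I) Q t = Struct.wt (fun x y => I.dist x y) (fun _ => (1 : ℚ)) I.clients
      (setOf I Q) t := by
  unfold wtL Struct.wt
  rw [riN_raw, Finset.sum_range, ← Finset.sum_filter, filter_coreB hQ]

theorem sepL_raw {Q : List ℕ} (hQ : ∀ q ∈ Q, q < I.N) (t : Fin I.N) :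
    sepL (raw I) Q t = Struct.sep (fun x y => I.dist x y) (setOf I Q) t := by
  unfold sepL Struct.sep
  have hmem : ∀ u : Fin I.N, (u : ℕ) ∈ Q.filter (fun u => !decide (u = (t : ℕ))) ↔
      u ∈ (setOf I Q).erase t := by
    intro u
    rw [List.mem_filter, Finset.mem_erase, mem_setOf]
    simp only [Bool.not_eq_true', decide_eq_false_iff_not]
    rw [and_comm]
    refine and_congr_left (fun _ => not_congr ?_)
    exact ⟨fun h => Fin.ext h, fun h => by rw [h]⟩
  by_cases h : ((setOf I Q).erase t).Nonempty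
  · rw [dif_pos h]
    have hne : (Q.filter (fun u => !decide (u = (t : ℕ)))).map (fun u => riD (raw I) t u) ≠ [] := by
      obtain ⟨u, hu⟩ := h
      have := (hmem u).2 hu
      intro hn
      rw [List.map_eq_nil_iff] at hn
      rw [hn] at this
      simp at this
    apply le_antisymm
    · refine Finset.le_inf' _ _ (fun u hu => ?_)
      have := listMin_le (l := (Q.filter (fun u => !decide (u = (t : ℕ)))).map
        (fun u => riD (raw I) t u)) (b := riD (raw I) t u)
        (List.mem_map.2 ⟨u, (hmem u).2 hu, rfl⟩)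
      rwa [riD_raw] at this
    · obtain ⟨u, hu, he⟩ := List.mem_map.1 (listMin_mem hne)
      rw [← he]
      have hlt : u < I.N := hQ u (List.mem_filter.1 hu).1
      have h2 : riD (raw I) t u = I.dist t ⟨u, hlt⟩ := riD_raw I t ⟨u, hlt⟩
      rw [h2]
      exact Finset.inf'_le _ ((hmem ⟨u, hlt⟩).1 hu)
  · rw [dif_neg h]
    have hn : Q.filter (fun u => !decide (u = (t : ℕ))) = [] := by
      rw [List.eq_nil_iff_forall_not_mem]
      intro u hu
      have hlt : u < I.N := hQ u (List.mem_filter.1 hu).1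
      exact h ⟨⟨u, hlt⟩, (hmem ⟨u, hlt⟩).1 hu⟩
    rw [hn]
    rfl

theorem mem_rigL_raw {Q : List ℕ} (hQ : ∀ q ∈ Q, q < I.N) (θ B : ℚ) (t : Fin I.N) :
    (t : ℕ) ∈ rigL (raw I) Q θ B ↔
      t ∈ Struct.rig (fun x y => I.dist x y) (fun _ => (1 : ℚ)) I.clients (setOf I Q) θ B := by
  unfold rigL
  rw [List.mem_filter, Struct.mem_rig, mem_setOf, Bool.and_eq_true, decide_eq_true_eq,
    decide_eq_true_eq, wtL_raw hQ, sepL_raw hQ, score_raw hQ]
  rfl

end bridge

/-! ### the restricted instance -/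

/-- the centres as a set -/
def cenS (I : Instance) : Finset (Fin I.N) := setOf I (cenL (raw I))

theorem cenL_lt {I : Instance} : ∀ q ∈ cenL (raw I), q < I.N := fun _ hq =>
  (mem_facL.1 (List.mem_filter.1 hq).1).1

theorem cenS_eq {I : Instance} (hI : I.Valid) : cenS I = setOf I (localS (raw I)) := by
  obtain ⟨_, l2, _⟩ := localS_spec hI
  ext t
  unfold cenS cenL
  rw [mem_setOf, mem_setOf, List.mem_filter, decide_eq_true_eq]
  exact ⟨fun h => h.2, fun h => ⟨mem_facL.2 (l2 _ h), h⟩⟩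

theorem cenS_sub {I : Instance} : cenS I ⊆ I.facilities := by
  intro t ht
  have := (List.mem_filter.1 (mem_setOf.1 ht)).1
  obtain ⟨_, h2⟩ := mem_facL.1 this
  exact h2

/-- the facility kept for `t`, as a function on points -/
def bestP (I : Instance) (β : ℚ) (t : Fin I.N) : Fin I.N :=
  if h : bestF (raw I) (cenL (raw I)) β t < I.N then ⟨bestF (raw I) (cenL (raw I)) β t, h⟩ else t

/-- the rigid centres -/
noncomputable def rigS (I : Instance) (θ B : ℚ) : Finset (Fin I.N) :=
  Struct.rig (fun x y => I.dist x y) (fun _ => (1 : ℚ)) I.clients (cenS I) θ B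

/-- the restricted facility set -/
noncomputable def facS (I : Instance) (θ β B : ℚ) : Finset (Fin I.N) :=
  Struct.restr (fun x y => I.dist x y) I.facilities (cenS I) (rigS I θ B) β (bestP I β)

/-- the restricted instance, with budget `1` -/
noncomputable def resInst (I : Instance) (θ β B : ℚ) : Instance where
  N := I.N
  dist := I.dist
  clients := I.clients
  facilities := facS I θ β B
  k := 1

theorem dist_nonneg {I : Instance} (hI : I.Valid) (x y : Fin I.N) : 0 ≤ I.dist x y := by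
  by_cases h : x = y
  · rw [h, hI.1]
  · exact (hI.2.1 x y h).le

theorem mem_ballL {I : Instance} (β : ℚ) (t f : Fin I.N) :
    (f : ℕ) ∈ (facL (raw I)).filter
      (fun f => decide (riD (raw I) f t ≤ β * sepL (raw I) (cenL (raw I)) t)) ↔
    f ∈ Struct.ball (fun x y => I.dist x y) I.facilities (cenS I) β t := by
  rw [List.mem_filter, Struct.mem_ball, decide_eq_true_eq, sepL_raw cenL_lt, riD_raw, mem_facL]
  constructor
  · rintro ⟨⟨_, h1⟩, h2⟩; exact ⟨h1, h2⟩
  · rintro ⟨h1, h2⟩; exact ⟨⟨f.2, h1⟩, h2⟩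

/-- a rigid centre has at least one other centre, and lies in its own ball -/
theorem self_mem_ball {I : Instance} (hI : I.Valid) {β θ B : ℚ} (hβ : 0 ≤ β) {t : Fin I.N}
    (ht : t ∈ rigS I θ B) : t ∈ Struct.ball (fun x y => I.dist x y) I.facilities (cenS I) β t := by
  obtain ⟨h1, _, _⟩ := Struct.mem_rig.1 ht
  rw [Struct.mem_ball]
  refine ⟨cenS_sub h1, ?_⟩
  change I.dist t t ≤ _
  rw [hI.1]
  refine mul_nonneg hβ ?_
  unfold Struct.sep
  split_ifs with h
  · exact Finset.le_inf' _ _ (fun i _ => dist_nonneg hI t i)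
  · exact le_rfl

theorem bestP_spec {I : Instance} (hI : I.Valid) {β θ B : ℚ} (hβ : 0 ≤ β) :
    ∀ t ∈ rigS I θ B, bestP I β t ∈ Struct.ball (fun x y => I.dist x y) I.facilities (cenS I) β t ∧
      ∀ f ∈ Struct.ball (fun x y => I.dist x y) I.facilities (cenS I) β t,
      ∑ j ∈ Tight.core (fun x y => I.dist x y) I.clients (cenS I) t, (1 : ℚ) * I.dist j (bestP I β t)
      ≤ ∑ j ∈ Tight.core (fun x y => I.dist x y) I.clients (cenS I) t, (1 : ℚ) * I.dist j f := by
  intro t ht
  have hself := self_mem_ball hI hβ ht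
  set L := (facL (raw I)).filter
      (fun f => decide (riD (raw I) f t ≤ β * sepL (raw I) (cenL (raw I)) t)) with hL
  have hne : L ≠ [] := List.ne_nil_of_mem ((mem_ballL β t t).2 hself)
  obtain ⟨a1, a2⟩ := argQ_spec hne (fun u => score (raw I) (cenL (raw I)) t u)
  have hb : argQ L (fun u => score (raw I) (cenL (raw I)) t u) = bestF (raw I) (cenL (raw I)) β t := rfl
  rw [hb] at a1 a2
  have hlt : bestF (raw I) (cenL (raw I)) β t < I.N := (mem_facL.1 (List.mem_filter.1 a1).1).1
  have he : bestP I β t = ⟨bestF (raw I) (cenL (raw I)) β t, hlt⟩ := by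
    unfold bestP; rw [dif_pos hlt]
  have hval : ((bestP I β t : Fin I.N) : ℕ) = bestF (raw I) (cenL (raw I)) β t := by rw [he]
  refine ⟨?_, fun f hf => ?_⟩
  · rw [← mem_ballL, hval]; exact a1
  · have h2 := a2 f ((mem_ballL β t f).2 hf)
    rw [← hval] at h2
    have h3 := score_raw (I := I) cenL_lt t (bestP I β t)
    have h4 := score_raw (I := I) cenL_lt t f
    rw [h3, h4] at h2
    exact h2

theorem raw_resInst {I : Instance} (hI : I.Valid) {θ β B : ℚ} (hβ : 0 ≤ β) :
    raw (resInst I θ β B) = structR θ β (raw I) B := by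
  unfold structR resRI
  rw [riN_raw]
  change ((resInst I θ β B).N, _, _, _, _) = _
  have hmask : (List.finRange I.N).map (fun i => decide (i ∈ facS I θ β B)) =
      (List.range I.N).map (fun f => riF (raw I) f &&
        keepB (raw I) (cenL (raw I)) (rigL (raw I) (cenL (raw I)) θ B) β f) := by
    have hr : List.range I.N = (List.finRange I.N).map (fun i : Fin I.N => (i : ℕ)) := by simp
    rw [hr, List.map_map]
    refine List.map_congr_left (fun f _ => ?_)
    simp only [Function.comp]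
    rw [riF_raw]
    rw [Bool.eq_iff_iff, Bool.and_eq_true, decide_eq_true_eq, decide_eq_true_eq]
    unfold facS
    rw [Struct.mem_restr]
    refine and_congr_right (fun hf => ?_)
    unfold keepB
    rw [List.all_eq_true]
    constructor
    · intro h t ht
      have htlt : t < I.N := cenL_lt t (List.mem_filter.1 ht).1
      have htr : (⟨t, htlt⟩ : Fin I.N) ∈ rigS I θ B := (mem_rigL_raw cenL_lt θ B ⟨t, htlt⟩).1 ht
      rw [Bool.or_eq_true, Bool.not_eq_true', decide_eq_false_iff_not, decide_eq_true_eq]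
      by_cases hball : riD (raw I) f t ≤ β * sepL (raw I) (cenL (raw I)) t
      · right
        have h1 := (mem_ballL β ⟨t, htlt⟩ f).1 (List.mem_filter.2 ⟨mem_facL.2 ⟨f.2, hf⟩,
          by rw [decide_eq_true_eq]; exact hball⟩)
        have h2 := h _ htr h1
        have hb := (bestP_spec hI hβ _ htr).1
        have hval : ((bestP I β ⟨t, htlt⟩ : Fin I.N) : ℕ) = bestF (raw I) (cenL (raw I)) β t := by
          unfold bestP
          split_ifs with hh
          · rfl
          · exfalso
            apply hh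
            have hne : (facL (raw I)).filter
              (fun f => decide (riD (raw I) f (⟨t, htlt⟩ : Fin I.N) ≤
                β * sepL (raw I) (cenL (raw I)) (⟨t, htlt⟩ : Fin I.N))) ≠ [] :=
              List.ne_nil_of_mem ((mem_ballL β ⟨t, htlt⟩ ⟨t, htlt⟩).2 (self_mem_ball hI hβ htr))
            exact (mem_facL.1 (List.mem_filter.1 (argQ_spec hne _).1).1).1
        rw [← hval, h2]
      · exact Or.inl hball
    · intro h t ht hball
      have htl : (t : ℕ) ∈ rigL (raw I) (cenL (raw I)) θ B := (mem_rigL_raw cenL_lt θ B t).2 ht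
      have h1 := h _ htl
      rw [Bool.or_eq_true, Bool.not_eq_true', decide_eq_false_iff_not, decide_eq_true_eq] at h1
      have h2 := (List.mem_filter.1 ((mem_ballL β t f).2 hball)).2
      rw [decide_eq_true_eq] at h2
      rcases h1 with h1 | h1
      · exact absurd h2 h1
      · apply Fin.ext
        rw [h1]
        unfold bestP
        split_ifs with hh
        · rfl
        · exfalso
          apply hh
          rw [← h1]; exact f.2
  rw [← hmask]
  rfl

/-- the tight facilities, as a set -/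
theorem mem_structG {I : Instance} (hI : I.Valid) {θ β B : ℚ} (hβ : 0 ≤ β) (f : Fin I.N) :
    (f : ℕ) ∈ structG θ β (raw I) B ↔ ∃ t ∈ rigS I θ B, f = bestP I β t := by
  have hval : ∀ t : Fin I.N, t ∈ rigS I θ B →
      ((bestP I β t : Fin I.N) : ℕ) = bestF (raw I) (cenL (raw I)) β t := by
    intro t ht
    unfold bestP
    split_ifs with hh
    · rfl
    · exfalso
      apply hh
      have hne : (facL (raw I)).filter
        (fun f => decide (riD (raw I) f t ≤ β * sepL (raw I) (cenL (raw I)) t)) ≠ [] :=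
        List.ne_nil_of_mem ((mem_ballL β t t).2 (self_mem_ball hI hβ ht))
      exact (mem_facL.1 (List.mem_filter.1 (argQ_spec hne _).1).1).1
  unfold structG
  rw [List.mem_map]
  constructor
  · rintro ⟨t, ht, he⟩
    have htlt : t < I.N := cenL_lt t (List.mem_filter.1 ht).1
    have htr : (⟨t, htlt⟩ : Fin I.N) ∈ rigS I θ B := (mem_rigL_raw cenL_lt θ B ⟨t, htlt⟩).1 ht
    exact ⟨⟨t, htlt⟩, htr, Fin.ext (by rw [hval _ htr]; exact he.symm)⟩
  · rintro ⟨t, ht, rfl⟩
    exact ⟨t, (mem_rigL_raw cenL_lt θ B t).2 ht, (hval t ht).symm⟩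

/-- **Structure step, everything together.**  `O` = optimal solution with exactly `k` centres, `A` = guess. -/
theorem struct_code {θ β e : ℚ} (hθ0 : 0 < θ) (hβ0 : 0 < β) (hβ : β ≤ 1 / 8) (hθβ : 4 * θ ≤ β)
    (he : 0 < e) (he2 : e ≤ 2) {I : Instance} (hI : I.Valid) {O : Finset (Fin I.N)}
    (hO : O ⊆ I.facilities) (hOk : O.card = I.k) (hpos : 0 < I.cost O)
    {A : ℚ} (hA1 : I.cost O ≤ A) (hA2 : A ≤ 2 * I.cost O) {s : ℕ}
    (stab : ∀ S' ⊆ I.facilities, S'.Nonempty → S'.card + (s + 1) ≤ I.k →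
      (1 + e) * I.cost O < I.cost S')
    {B : ℚ} (hB : B = e * A / (8 * (s + 1))) :
    (resInst I θ β B).Valid ∧
    0 < B ∧
    (I.k : ℚ) - (rigS I θ B).card ≤ (386 / e + 48 / (θ * e)) * (s + 1) ∧
    ∀ Q ⊆ I.facilities, Q.Nonempty → Q.card ≤ I.k →
      ∃ Q' ⊆ facS I θ β B, Q'.Nonempty ∧ Q'.card ≤ Q.card ∧
        I.cost Q' ≤ (1 + 16 * β + 4 * θ / (3 * β)) * I.cost Q +
          θ * (100 + 120 / β) * I.cost O := by
  classical
  have hk : 1 ≤ I.k := hI.2.2.2.2.1
  have hO0 : O.Nonempty := Finset.card_pos.1 (by omega)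
  have hs1 : (0 : ℚ) < (s : ℚ) + 1 := by positivity
  have hApos : 0 < A := lt_of_lt_of_le hpos hA1
  have hBpos : 0 < B := by rw [hB]; positivity
  have hBs : B * (s + 1) = e * A / 8 := by rw [hB]; field_simp
  have hBs' : B * (s + 1) ≤ e / 4 * I.cost O := by
    rw [hBs]
    nlinarith
  obtain ⟨l1, l2, l3⟩ := localS_spec hI
  have hne : localS (raw I) ≠ [] := by
    intro h
    rw [h] at l1
    simp at l1
    omega
  have hSne : (cenS I).Nonempty := by
    rw [cenS_eq hI]; exact setOf_nonempty hne (fun i hi => (l2 i hi).1)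
  have hScard : (cenS I).card ≤ O.card := by
    rw [cenS_eq hI, hOk, ← l1]; exact card_setOf_le I _
  have hScost : I.cost (cenS I) ≤ 6 * I.cost O := by
    rw [cenS_eq hI]; exact l3 O hO hO0 hOk.le
  obtain ⟨h1, h2⟩ := Struct.struct_main (d := fun x y => I.dist x y) (w := fun _ => (1 : ℚ))
    (D := I.clients) (F := I.facilities) (S := cenS I) hI.1 hI.2.1 hI.2.2.1 hI.2.2.2.1
    (fun _ => zero_le_one) hSne cenS_sub hθ0 hβ0 hβ hθβ hBpos (bestP I β)
    (bestP_spec hI hβ0.le) O hO0 hO hScard e 6 he he2 (by norm_num)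
    (by rw [cst_one]; exact hpos) (by rw [cst_one, cst_one]; exact hScost) s
    (by rw [cst_one]; exact hBs')
    (by
      intro S' g1 g2 g3
      rw [cst_one, cst_one]
      exact stab S' g1 g2 (by rw [hOk] at g3; exact g3))
  have htr : ∀ Q ⊆ I.facilities, Q.Nonempty → Q.card ≤ I.k →
      ∃ Q' ⊆ facS I θ β B, Q'.Nonempty ∧ Q'.card ≤ Q.card ∧
        I.cost Q' ≤ (1 + 16 * β + 4 * θ / (3 * β)) * I.cost Q +
          θ * (100 + 120 / β) * I.cost O := by
    intro Q hQ hQ0 hQk
    obtain ⟨Q', q1, q2, q3, q4⟩ := h2 Q hQ hQ0 (by rw [hOk]; exact hQk)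
    rw [cst_one, cst_one, cst_one] at q4
    refine ⟨Q', q1, q2, q3, q4.trans (le_of_eq ?_)⟩
    ring
  refine ⟨?_, hBpos, ?_, htr⟩
  · obtain ⟨Q', q1, q2, _, _⟩ := htr O hO hO0 hOk.le
    refine ⟨hI.1, hI.2.1, hI.2.2.1, hI.2.2.2.1, le_rfl, ?_⟩
    exact Finset.card_pos.2 (q2.mono q1)
  · rw [hOk, cst_one] at h1
    refine h1.trans ?_
    have e1 : 6 * I.cost O / (θ * B) ≤ 48 / (θ * e) * (s + 1) := by
      have e2 : 48 / (θ * e) * ((s : ℚ) + 1) = 6 * A / (θ * B) := by
        rw [hB]; field_simp; ring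
      rw [e2]
      have : 0 < θ * B := by positivity
      exact (div_le_div_iff_of_pos_right this).2 (by linarith)
    have e3 : (14 + 62 * 6 : ℚ) / e * (s + 1) = 386 / e * (s + 1) := by norm_num
    rw [e3, add_mul]
    linarith

end Crest.Agent.R310
end

-- ▼ part R310/NumbersL
section

/-!
# R310, block NUMBERS (B7), list level: the hypotheses of the granular rounding for `fracY`

`deficit_raw`: total deficit of the rigid facilities in a list of copies of restricted facilities.
-/

set_option linter.dupNamespace false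
set_option autoImplicit false

namespace Crest.Agent.R310.Numbers

open Crest.Agent.R310 Crest.Agent.R310.Struct Crest.LogicCS.KMedian Finset

/-- sums over the clients -/
theorem sum_cliS (I : Instance) (f : ℕ → ℚ) :
    ∑ j ∈ cliS (raw I), f j = ∑ j ∈ I.clients, f (j : ℕ) := by
  unfold cliS
  rw [Finset.sum_filter, riN_raw, Finset.sum_range, ← Finset.sum_filter]
  refine Finset.sum_congr ?_ fun _ _ => rfl
  ext j; simp [riC_raw]

/-- number of copies at `g` -/
theorem card_at (Y : List ℕ) (g : ℕ) :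
    ((range Y.length).filter (fun e => Y.getD e 0 = g)).card = Y.count g := by
  rw [Finset.card_filter]
  induction Y with
  | nil => simp
  | cons a Y ih =>
    rw [List.length_cons, Finset.sum_range_succ']
    simp only [List.getD_cons_succ, List.getD_cons_zero]
    rw [ih, List.count_cons]
    simp only [beq_iff_eq]

/-- **Total deficit** of the rigid facilities in a list of copies. -/
theorem deficit_raw {I : Instance} (hI : I.Valid) {S F : Finset (Fin I.N)} {θ β B : ℚ}
    (hθβ : θ ≤ β) (hβ : 0 ≤ β) (mt : Fin I.N → Fin I.N) {Y : List ℕ} {m : ℕ} (hm : 0 < m)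
    (hmL : m ≤ Y.length)
    (hY : ∀ e ∈ Y, ∃ x ∈ restr I.dist F S (rig I.dist (fun _ => 1) I.clients S θ B) β mt,
      (x : ℕ) = e) :
    (∑ t ∈ rig I.dist (fun _ => 1) I.clients S θ B,
      ((m - min m (Y.count (mt t : ℕ)) : ℕ) : ℚ)) * ((β - θ) * B) ≤
      ∑ j ∈ cliS (raw I), ∑ e ∈ (range Y.length).filter (fun e => near (raw I) Y m j e = true),
        riD (raw I) (Y.getD e 0) j := by
  classical
  set F' := restr I.dist F S (rig I.dist (fun _ => 1) I.clients S θ B) β mt with hF'
  set Nr : ℕ → Finset ℕ := fun j => (range Y.length).filter (fun e => near (raw I) Y m j e = true)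
    with hNr
  have hmQ : (0 : ℚ) < m := by exact_mod_cast hm
  have hnn : ∀ x y, 0 ≤ I.dist x y := fun x y => by
    by_cases h : x = y
    · rw [h, hI.1]
    · exact (hI.2.1 x y h).le
  set xx : Fin I.N → Fin I.N → ℚ := fun j i =>
    (((Nr j).filter (fun e => Y.getD e 0 = (i : ℕ))).card : ℚ) / m with hxx
  set yy : Fin I.N → ℚ := fun i => ((min m (Y.count (i : ℕ)) : ℕ) : ℚ) / m with hyy
  have hx0 : ∀ j i, 0 ≤ xx j i := fun j i => by positivity
  have hxy : ∀ j i, xx j i ≤ yy i := by
    intro j i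
    refine div_le_div_of_nonneg_right ?_ hmQ.le
    have h1 : ((Nr j).filter (fun e => Y.getD e 0 = (i : ℕ))).card ≤ m := by
      refine (Finset.card_filter_le _ _).trans ?_
      rw [hNr]
      exact (near_card (raw I) Y hmL j).le
    have h2 : ((Nr j).filter (fun e => Y.getD e 0 = (i : ℕ))).card ≤ Y.count (i : ℕ) := by
      rw [← card_at]
      apply Finset.card_le_card
      exact Finset.filter_subset_filter _ (Finset.filter_subset _ _)
    exact_mod_cast le_min h1 h2
  have hy1 : ∀ i, yy i ≤ 1 := by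
    intro i
    rw [hyy]
    simp only
    rw [div_le_one hmQ]
    exact_mod_cast min_le_left _ _
  have hfib : ∀ (j : Fin I.N) (g : ℕ → ℚ), ∑ e ∈ Nr j, g (Y.getD e 0) =
      ∑ i ∈ F', ((((Nr j).filter (fun e => Y.getD e 0 = (i : ℕ))).card : ℕ) : ℚ) * g (i : ℕ) := by
    intro j g
    have hex : ∀ e ∈ Nr j, ∃ x ∈ F', (x : ℕ) = Y.getD e 0 := by
      intro e he
      have he' : e < Y.length := mem_range.1 (Finset.mem_filter.1 he).1
      have : Y.getD e 0 ∈ Y := by
        rw [List.getD_eq_getElem _ _ he']; exact List.getElem_mem he'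
      exact hY _ this
    have h1 : ∀ i ∈ F', ((((Nr j).filter (fun e => Y.getD e 0 = (i : ℕ))).card : ℕ) : ℚ) * g (i : ℕ)
        = ∑ e ∈ (Nr j).filter (fun e => Y.getD e 0 = (i : ℕ)), g (Y.getD e 0) := by
      intro i _
      rw [← nsmul_eq_mul, ← Finset.sum_const]
      refine Finset.sum_congr rfl fun e he => ?_
      rw [(Finset.mem_filter.1 he).2]
    rw [Finset.sum_congr rfl h1]
    have h2 : ∑ i ∈ F', ∑ e ∈ (Nr j).filter (fun e => Y.getD e 0 = (i : ℕ)), g (Y.getD e 0) =
        ∑ v ∈ F'.image (fun i : Fin I.N => (i : ℕ)),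
          ∑ e ∈ (Nr j).filter (fun e => Y.getD e 0 = v), g (Y.getD e 0) := by
      rw [Finset.sum_image]
      intro a _ b _ hab
      exact Fin.ext hab
    rw [h2]
    rw [Finset.sum_fiberwise_of_maps_to (g := fun e => Y.getD e 0)]
    intro e he
    obtain ⟨x, hx, hxe⟩ := hex e he
    exact Finset.mem_image.2 ⟨x, hx, hxe⟩
  have hx1 : ∀ j ∈ I.clients, ∑ i ∈ F', xx j i = 1 := by
    intro j _
    have h1 := hfib j (fun _ => 1)
    simp only [mul_one, Finset.sum_const, nsmul_eq_mul] at h1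
    have h2 : ∑ i ∈ F', xx j i = (((Nr j).card : ℕ) : ℚ) / m := by
      rw [h1, Finset.sum_div]
    rw [h2]
    have h3 : (Nr j).card = m := near_card (raw I) Y hmL j
    rw [h3, div_self hmQ.ne']
  have hmain := frac_pay (D := I.clients) (w := fun _ => (1 : ℚ)) (F := F) (S := S) hnn hI.2.1
    hI.2.2.1 hI.2.2.2.1 (fun _ => zero_le_one) (B := B) hθβ hβ mt xx yy hx0 hxy hy1 hx1
  rw [sum_cliS]
  have h4 := mul_le_mul_of_nonneg_left hmain hmQ.le
  have e1 : (m : ℚ) * ((∑ t ∈ rig I.dist (fun _ => 1) I.clients S θ B, (1 - yy (mt t))) *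
      ((β - θ) * B)) = (∑ t ∈ rig I.dist (fun _ => 1) I.clients S θ B,
      ((m - min m (Y.count (mt t : ℕ)) : ℕ) : ℚ)) * ((β - θ) * B) := by
    rw [← mul_assoc, Finset.mul_sum]
    congr 1
    refine Finset.sum_congr rfl fun t _ => ?_
    rw [hyy, mul_sub, mul_one, mul_div_cancel₀ _ hmQ.ne', Nat.cast_sub (min_le_left _ _)]
  have e2 : (m : ℚ) * ∑ j ∈ I.clients, (1 : ℚ) * ∑ i ∈ F', xx j i * I.dist j i =
      ∑ j ∈ I.clients, ∑ e ∈ Nr j, riD (raw I) (Y.getD e 0) j := by
    rw [Finset.mul_sum]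
    refine Finset.sum_congr rfl fun j _ => ?_
    rw [hfib j (fun v => riD (raw I) v j), one_mul, Finset.mul_sum]
    refine Finset.sum_congr rfl fun i _ => ?_
    rw [riD_raw, hI.2.2.1 i j, hxx]
    simp only
    field_simp
  rw [e1, e2] at h4
  exact h4

/-! ### the list of tight facilities -/

theorem bestP_val {I : Instance} (hI : I.Valid) {θ β B : ℚ} (hβ : 0 ≤ β) {t : Fin I.N}
    (ht : t ∈ rigS I θ B) :
    ((bestP I β t : Fin I.N) : ℕ) = bestF (raw I) (cenL (raw I)) β t := by
  unfold bestP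
  split_ifs with hh
  · rfl
  · exfalso
    apply hh
    have hne : (facL (raw I)).filter
      (fun f => decide (riD (raw I) f t ≤ β * sepL (raw I) (cenL (raw I)) t)) ≠ [] :=
      List.ne_nil_of_mem ((mem_ballL β t t).2 (self_mem_ball hI hβ ht))
    exact (mem_facL.1 (List.mem_filter.1 (argQ_spec hne _).1).1).1

theorem bestP_inj {I : Instance} (hI : I.Valid) {θ β B : ℚ} (hβ0 : 0 ≤ β) (hβ : β ≤ 1 / 4)
    {t t' : Fin I.N} (ht : t ∈ rigS I θ B) (ht' : t' ∈ rigS I θ B)
    (h : bestP I β t = bestP I β t') : t = t' := by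
  have h1 := (bestP_spec hI hβ0 t ht).1
  have h2 := (bestP_spec hI hβ0 t' ht').1
  rw [← h] at h2
  exact ball_disjoint (d := fun x y => I.dist x y) hI.2.1 hI.2.2.1 hI.2.2.2.1 hβ0 hβ
    (mem_rig.1 ht).1 (mem_rig.1 ht').1 h1 h2

theorem nodup_rigL (r : RI) (θ B : ℚ) : (rigL r (cenL r) θ B).Nodup := by
  unfold rigL cenL facL
  exact ((List.nodup_range.filter _).filter _).filter _

theorem rigL_toFinset {I : Instance} (θ B : ℚ) :
    (rigL (raw I) (cenL (raw I)) θ B).toFinset =
      (rigS I θ B).image (fun t : Fin I.N => (t : ℕ)) := by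
  ext t
  rw [List.mem_toFinset, Finset.mem_image]
  constructor
  · intro ht
    have htlt : t < I.N := cenL_lt t (List.mem_filter.1 ht).1
    exact ⟨⟨t, htlt⟩, (mem_rigL_raw cenL_lt θ B ⟨t, htlt⟩).1 ht, rfl⟩
  · rintro ⟨t, ht, rfl⟩
    exact (mem_rigL_raw cenL_lt θ B t).2 ht

theorem length_structG {I : Instance} (θ β B : ℚ) :
    (structG θ β (raw I) B).length = (rigS I θ B).card := by
  unfold structG
  rw [List.length_map, ← List.toFinset_card_of_nodup (nodup_rigL (raw I) θ B), rigL_toFinset,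
    Finset.card_image_of_injective _ Fin.val_injective]

theorem nodup_structG {I : Instance} (hI : I.Valid) {θ β B : ℚ} (hβ0 : 0 ≤ β) (hβ : β ≤ 1 / 4) :
    (structG θ β (raw I) B).Nodup := by
  unfold structG
  refine List.Nodup.map_on ?_ (nodup_rigL _ _ _)
  intro x hx y hy hxy
  have hxl : x < I.N := cenL_lt x (List.mem_filter.1 hx).1
  have hyl : y < I.N := cenL_lt y (List.mem_filter.1 hy).1
  have hxr : (⟨x, hxl⟩ : Fin I.N) ∈ rigS I θ B := (mem_rigL_raw cenL_lt θ B ⟨x, hxl⟩).1 hx
  have hyr : (⟨y, hyl⟩ : Fin I.N) ∈ rigS I θ B := (mem_rigL_raw cenL_lt θ B ⟨y, hyl⟩).1 hy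
  have h1 := bestP_inj hI hβ0 hβ hxr hyr (Fin.ext (by
    rw [bestP_val hI hβ0 hxr, bestP_val hI hβ0 hyr]; exact hxy))
  exact congrArg Fin.val h1

theorem sum_structG {I : Instance} (hI : I.Valid) {θ β B : ℚ} (hβ0 : 0 ≤ β) (hβ : β ≤ 1 / 4)
    {M : Type*} [AddCommMonoid M] (f : ℕ → M) :
    ∑ g ∈ (structG θ β (raw I) B).toFinset, f g = ∑ t ∈ rigS I θ B, f (bestP I β t : ℕ) := by
  have h1 : (structG θ β (raw I) B).toFinset = 
      (rigS I θ B).image (fun t => ((bestP I β t : Fin I.N) : ℕ)) := by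
    ext g
    rw [List.mem_toFinset, Finset.mem_image]
    constructor
    · intro hg
      unfold structG at hg
      obtain ⟨t, ht, he⟩ := List.mem_map.1 hg
      have htlt : t < I.N := cenL_lt t (List.mem_filter.1 ht).1
      have htr : (⟨t, htlt⟩ : Fin I.N) ∈ rigS I θ B := (mem_rigL_raw cenL_lt θ B ⟨t, htlt⟩).1 ht
      exact ⟨⟨t, htlt⟩, htr, by rw [bestP_val hI hβ0 htr]; exact he⟩
    · rintro ⟨t, ht, rfl⟩
      exact (mem_structG hI hβ0 (bestP I β t)).2 ⟨t, ht, rfl⟩
  rw [h1, Finset.sum_image]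
  intro a ha b hb hab
  exact bestP_inj hI hβ0 hβ ha hb (Fin.ext hab)

theorem mem_structG_facL {I : Instance} (hI : I.Valid) {θ β B : ℚ} (hβ0 : 0 ≤ β) :
    ∀ g ∈ structG θ β (raw I) B, g ∈ facL (raw I) := by
  intro g hg
  unfold structG at hg
  obtain ⟨t, ht, rfl⟩ := List.mem_map.1 hg
  have htlt : t < I.N := cenL_lt t (List.mem_filter.1 ht).1
  have htr : (⟨t, htlt⟩ : Fin I.N) ∈ rigS I θ B := (mem_rigL_raw cenL_lt θ B ⟨t, htlt⟩).1 ht
  have h1 := (bestP_spec hI hβ0 _ htr).1
  have h2 := (mem_ball.1 h1).1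
  rw [mem_facL]
  have h3 := bestP_val hI hβ0 htr
  simp only at h3
  rw [← h3]
  exact ⟨(bestP I β ⟨t, htlt⟩).2, h2⟩

/-! ### `near` does not see the facility mask -/







end Crest.Agent.R310.Numbers
end

-- ▼ part R310/BlockS
section

/-!
# R310, block STRUCT + NUMBERS for the assembly (helper929, helper201)
-/

set_option linter.dupNamespace false
set_option autoImplicit false

namespace Crest.Agent.R310

open Crest.Agent.Lib.PT Crest.Agent.Lib.PT.Arith Crest.LogicCS.KMedian Finset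
open Crest.Agent.R310.Numbers

/-- threshold -/
def thrB (x A : ℚ) (s : ℕ) : ℚ := x * A / (8 * (s + 1))

/-- restricted raw instance -/
def rrS (x : ℚ) (r : RI) (A : ℚ) (s : ℕ) : RI := structR (x ^ 2 / 3000) (x / 16) r (thrB x A s)

/-- tight facilities -/
def ttS (x : ℚ) (r : RI) (A : ℚ) (s : ℕ) : List ℕ := structG (x ^ 2 / 3000) (x / 16) r (thrB x A s)

theorem ptf_thrB (x : ℚ) : PTF (fun p : RI × ℚ × ℕ => thrB x p.2.1 p.2.2) := by
  unfold thrB
  exact PTF.ratDiv (PTF.ratMul (PTF.const x) (PTF.comp PTF.fst PTF.snd))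
    (PTF.ratMul (PTF.const 8) (PTF.ratAdd (PTF.ratNatCast (PTF.comp PTF.snd PTF.snd))
      (PTF.const 1)))

theorem structPT (x : ℚ) : StructPT (ttS x) (rrS x) :=
  ⟨ptf_structG (PTF.const _) (PTF.const _) PTF.fst (ptf_thrB x),
    ptf_structR (PTF.const _) (PTF.const _) PTF.fst (ptf_thrB x)⟩

theorem arith_struct {x OPT A cQ : ℚ} (hx : 0 < x) (hx1 : 1000 * x ≤ 1) (hO : 0 < OPT)
    (hA : OPT ≤ A) (hQ : cQ ≤ (1 + x) * OPT) :
    (1 + 16 * (x / 16) + 4 * (x ^ 2 / 3000) / (3 * (x / 16))) * cQ +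
      x ^ 2 / 3000 * (100 + 120 / (x / 16)) * OPT ≤ (1 + 5 * x) * A := by
  have e1 : 4 * (x ^ 2 / 3000) / (3 * (x / 16)) = 64 / 9000 * x := by
    field_simp
    ring
  have e2 : x ^ 2 / 3000 * (100 + 120 / (x / 16)) = x ^ 2 / 30 + 1920 / 3000 * x := by
    field_simp
    ring
  rw [e1, e2]
  have h0 : 0 ≤ 1 + 16 * (x / 16) + 64 / 9000 * x := by positivity
  have h1 := mul_le_mul_of_nonneg_left hQ h0
  have h2 : (1 + 16 * (x / 16) + 64 / 9000 * x) * ((1 + x) * OPT) +
      (x ^ 2 / 30 + 1920 / 3000 * x) * OPT ≤ (1 + 5 * x) * OPT := by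
    have : (1 + 16 * (x / 16) + 64 / 9000 * x) * ((1 + x) * OPT) +
      (x ^ 2 / 30 + 1920 / 3000 * x) * OPT =
      ((1 + 16 * (x / 16) + 64 / 9000 * x) * (1 + x) + (x ^ 2 / 30 + 1920 / 3000 * x)) * OPT := by
      ring
    rw [this]
    refine mul_le_mul_of_nonneg_right ?_ hO.le
    nlinarith
  have h3 : (1 + 5 * x) * OPT ≤ (1 + 5 * x) * A := mul_le_mul_of_nonneg_left hA (by positivity)
  linarith

/-- total deficit of the tight facilities -/
theorem num_structG {x : ℚ} (hx : 0 < x) (hx1 : 1000 * x ≤ 1) {C2 : ℕ}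
    (hC2 : 64 * 2 / (3 * (x / 16) * x) ≤ C2) {I : Instance} (hI : I.Valid) {A : ℚ} (hA0 : 0 < A)
    {s : ℕ} (hs : 1 ≤ s) {m : ℕ} {Y : List ℕ} (hm : 0 < m) (hmL : m ≤ Y.length)
    (hent : ∀ y ∈ Y, ∃ hy : y < I.N, (⟨y, hy⟩ : Fin I.N) ∈
      facS I (x ^ 2 / 3000) (x / 16) (thrB x A s))
    (hcost : fsum (raw I) Y m ≤ m * (2 * A)) :
    ((ttS x (raw I) A s).map (fun g => m - min m (Y.count g))).sum ≤ C2 * s * m := by
  classical
  set θ : ℚ := x ^ 2 / 3000 with hθ
  set β : ℚ := x / 16 with hβdef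
  set B := thrB x A s with hB
  have hθ0 : 0 < θ := by positivity
  have hβ0 : 0 < β := by positivity
  have hβ : β ≤ 1 / 8 := by rw [hβdef]; linarith
  have hθβ : 4 * θ ≤ β := by rw [hθ, hβdef]; nlinarith
  have hsQ : (1 : ℚ) ≤ s := by exact_mod_cast hs
  have hmQ : (0 : ℚ) < m := by exact_mod_cast hm
  have hdef := deficit_raw (I := I) hI (S := cenS I) (F := I.facilities) (θ := θ) (β := β)
    (B := B) (by linarith) hβ0.le (bestP I β) hm hmL (Y := Y)
    (fun y hy => by obtain ⟨h1, h2⟩ := hent y hy; exact ⟨⟨y, h1⟩, h2, rfl⟩)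
  have hnd : (ttS x (raw I) A s).Nodup := nodup_structG hI hβ0.le (by linarith)
  have hsum : ((ttS x (raw I) A s).map (fun g => m - min m (Y.count g))).sum =
      ∑ t ∈ rigS I θ B, (m - min m (Y.count ((bestP I β t : Fin I.N) : ℕ))) := by
    rw [← List.sum_toFinset _ hnd]
    exact sum_structG hI hβ0.le (by linarith) (fun g => m - min m (Y.count g))
  rw [hsum]
  set Z := ∑ t ∈ rigS I θ B, (m - min m (Y.count ((bestP I β t : Fin I.N) : ℕ))) with hZ
  have hdef2 : (Z : ℚ) * ((β - θ) * B) ≤ m * (2 * A) := by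
    refine le_trans (le_of_eq ?_) (hdef.trans hcost)
    rw [hZ]
    push_cast
    rfl
  have h1 : (Z : ℚ) * ((3 / 4 * β) * (x * A / (8 * (2 * s)))) ≤ m * (2 * A) := by
    have h2 : (3 / 4 * β) * (x * A / (8 * (2 * s))) ≤ (β - θ) * B := by
      rw [hB]
      unfold thrB
      refine mul_le_mul (by linarith) ?_ (by positivity) (by linarith)
      apply div_le_div_of_nonneg_left (by positivity) (by positivity)
      linarith
    exact (mul_le_mul_of_nonneg_left h2 (Nat.cast_nonneg _)).trans hdef2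
  have h3 : (Z : ℚ) ≤ 64 * 2 / (3 * β * x) * s * m := by
    have h4 : (0 : ℚ) < (3 / 4 * β) * (x * A / (8 * (2 * s))) := by positivity
    rw [← mul_le_mul_iff_left₀ h4]
    refine h1.trans (le_of_eq ?_)
    have : (s : ℚ) ≠ 0 := by linarith
    field_simp
    ring
  have h5 : 64 * 2 / (3 * β * x) * s * m ≤ (C2 : ℚ) * s * m := by
    refine mul_le_mul_of_nonneg_right (mul_le_mul_of_nonneg_right hC2 ?_) hmQ.le
    linarith
  have h6 : (Z : ℚ) ≤ ((C2 * s * m : ℕ) : ℚ) := by push_cast; exact h3.trans h5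
  exact_mod_cast h6

theorem structOK (x : ℚ) (hx : 0 < x) (hx1 : 1000 * x ≤ 1) {C1 C2 : ℕ}
    (hC1 : 2 * (386 / x + 48 / (x ^ 2 / 3000 * x)) ≤ C1)
    (hC2 : 64 * 2 / (3 * (x / 16) * x) ≤ C2) : StructOK x (ttS x) (rrS x) C1 C2 := by
  classical
  intro I O Q A s h hs
  set θ : ℚ := x ^ 2 / 3000 with hθ
  set β : ℚ := x / 16 with hβdef
  set B := thrB x A s with hB
  have hI := h.hI
  have hθ0 : 0 < θ := by positivity
  have hβ0 : 0 < β := by positivity
  have hβ : β ≤ 1 / 8 := by rw [hβdef]; linarith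
  have hθβ : 4 * θ ≤ β := by rw [hθ, hβdef]; nlinarith
  have hA0 : 0 < A := h.pos.trans_le h.le
  have hA2 : A ≤ 2 * I.cost O := by
    have h1 := h.ge
    have h2 := h.pos
    nlinarith
  have hsQ : (1 : ℚ) ≤ s := by exact_mod_cast hs
  obtain ⟨hv, hBpos, hcard, htr⟩ := struct_code (θ := θ) (β := β) (e := x) (B := B) hθ0 hβ0 hβ hθβ hx
    (by linarith) hI h.hO h.hOk h.pos h.le hA2 h.stab rfl
  obtain ⟨Q', q1, q2, q3, q4⟩ := htr Q h.hQ h.hQ0 (by have := h.hQk; omega)
  refine ⟨facS I θ β B, 1, ?_, le_rfl, ?_, ?_, ⟨Q', q1, q2, ?_, ?_⟩, ?_, ?_, ?_, ?_⟩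
  · exact fun y hy => (Struct.mem_restr.1 hy).1
  · exact hv.2.2.2.2.2
  · exact (raw_resInst (I := I) hI (θ := θ) (β := β) (B := B) hβ0.le).symm
  · have := h.hQk; omega
  · exact q4.trans (arith_struct hx hx1 h.pos h.le h.hQc)
  · exact nodup_structG hI hβ0.le (by linarith)
  · intro g hg
    exact (mem_facL.1 (mem_structG_facL hI hβ0.le g hg)).1
  · have h1 : (I.k : ℚ) ≤ (rigS I θ B).card + C1 * s := by
      have h2 : (386 / x + 48 / (θ * x)) * ((s : ℚ) + 1) ≤ C1 * s := by
        have h3 := mul_le_mul_of_nonneg_right hC1 (show (0 : ℚ) ≤ s by linarith)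
        have h4 : 0 ≤ (386 / x + 48 / (θ * x)) := by positivity
        nlinarith
      linarith
    have h5 : (ttS x (raw I) A s).length = (rigS I θ B).card := length_structG (I := I) θ β B
    rw [h5]
    exact_mod_cast h1
  · intro m Y hm hmL hent hcost
    exact num_structG hx hx1 hC2 hI hA0 hs hm hmL hent hcost

/-- **Block STRUCT + NUMBERS.** -/
theorem block_struct : ∀ x : ℚ, 0 < x → 1000 * x ≤ 1 →
    ∃ tt rr C1 C2, StructOK x tt rr C1 C2 ∧ StructPT tt rr := by
  intro x hx hx1
  obtain ⟨C1, hC1⟩ := exists_nat_ge (2 * (386 / x + 48 / (x ^ 2 / 3000 * x)))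
  obtain ⟨C2, hC2⟩ := exists_nat_ge (64 * 2 / (3 * (x / 16) * x))
  exact ⟨ttS x, rrS x, C1, C2, structOK x hx hx1 hC1 hC2, structPT x⟩

end Crest.Agent.R310
end

-- ▼ part R310/BlockR

/-!
# R310: the block RES in the form of the assembly
-/

set_option linter.dupNamespace false
set_option autoImplicit false

namespace Crest.Agent.R310

open Crest.Agent.Lib.PT Crest.Agent.Lib.PT.Arith Crest.Agent.KM Crest.LogicCS.KMedian

theorem nFull_eq_T0L (r : RI) (Y : List ℕ) (M : ℕ) : nFull r Y M = (T0L r Y M).length := by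
  unfold nFull
  rw [← List.toFinset_card_of_nodup (nodup_T0L r Y M)]
  congr 1
  ext v
  rw [Finset.mem_filter, Finset.mem_range, List.mem_toFinset, mem_T0L, countP_eq_count]

/-- **Block RES.** -/
theorem block_res (x : ℚ) (M C : ℕ) (hx : 0 < x) (hx1 : 1000 * x ≤ 1) (hM : 0 < M) :
    ∃ (res : RI → List ℕ → ℚ → List (List ℕ)) (s1 : ℕ), ResOK x M C res s1 ∧ ResPT res := by
  have hC : (0 : ℚ) < C + 1 := by positivity
  have h2x : 0 < 1 - 2 * x := by linarith
  have hδ0 : 0 < (1 - 2 * x) / ((C : ℚ) + 1) := by positivity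
  have hC0 : (0 : ℚ) ≤ C := Nat.cast_nonneg C
  have hδ1 : (1 - 2 * x) / ((C : ℚ) + 1) < 1 := by
    rw [div_lt_one hC]; linarith
  obtain ⟨P, hPδ, hPε⟩ := SlackK.exists_params x ((1 - 2 * x) / ((C : ℚ) + 1)) hx (by linarith)
    hδ0 hδ1
  obtain ⟨J0, hJ0⟩ := exists_nat_ge (12 / P.η)
  have hη := P.hη
  have hJ : 12 ≤ P.η * ((J0 : ℚ)) ^ 2 := by
    rw [div_le_iff₀ hη] at hJ0
    have h1 : (1 : ℚ) ≤ J0 := by
      have h3 : (0 : ℚ) < J0 := by
        by_contra hne
        have : (J0 : ℚ) = 0 := le_antisymm (not_lt.1 hne) (Nat.cast_nonneg _)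
        rw [this] at hJ0; linarith
      have h4 : 0 < J0 := by exact_mod_cast h3
      exact_mod_cast h4
    have h2 : (J0 : ℚ) ≤ (J0 : ℚ) ^ 2 := by nlinarith
    calc (12 : ℚ) ≤ J0 * P.η := hJ0
      _ = P.η * J0 := by ring
      _ ≤ P.η * (J0 : ℚ) ^ 2 := mul_le_mul_of_nonneg_left h2 hη.le
  refine ⟨fun r Y G => resC P J0 M r Y G, 2 * P.k0, ?_, ?_⟩
  · intro I Y s G hI hcl hMY hY hG hs hsk hlen hcom hcost
    have hsq : (2 : ℚ) * P.k0 ≤ s := by exact_mod_cast hs
    have h := res_candidates' P (J0 := J0) (M := M) hI hcl hM hMY hY hG hJ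
      (s := (s : ℚ)) (e1 := 2 * x) (C3 := (C : ℚ)) hlen
      (by
        rw [nFull_eq_T0L] at hcom
        exact_mod_cast hcom)
      (by
        have h0 : (0 : ℚ) ≤ P.k0 := Nat.cast_nonneg _
        have h1 : (1 : ℚ) / 2 ≤ 1 - 2 * x := by linarith
        have h2 : (0 : ℚ) ≤ s := Nat.cast_nonneg _
        nlinarith)
      (by
        rw [hPδ, div_mul_eq_mul_div, div_le_iff₀ hC]
        nlinarith)
      (Nat.cast_nonneg _)
      (by
        have e : (fsum (raw I) Y M : ℝ) = ((∑ j ∈ cliS (raw I),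
          ∑ e ∈ (Finset.range Y.length).filter (fun e => near (raw I) Y M j e = true),
            riD (raw I) (Y.getD e 0) j : ℚ) : ℝ) := rfl
        rw [← e]
        exact hcost)
    rw [hPε] at h
    exact h
  · intro r Y G hr hY hG
    exact ptf_resC P J0 M hr hY hG

end Crest.Agent.R310
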