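import Mathlib

-- ▼ part R310/GranHash
section

/-!
# R310, block GRAN, part 1: averages over seeds, pairwise independent sampling, the hash family
-/

set_option linter.dupNamespace false
set_option autoImplicit false

namespace Crest.Agent.R310.Gran

open Finset

/-! ### averages -/

section avg

variable {Ω : Type*}

/-- average over a finite set of seeds -/
def avg (S : Finset Ω) (f : Ω → ℚ) : ℚ := (∑ ω ∈ S, f ω) / S.card

variable {S : Finset Ω}

theorem avg_add (f g : Ω → ℚ) : avg S (fun ω => f ω + g ω) = avg S f + avg S g := by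
  unfold avg; rw [sum_add_distrib, add_div]


theorem avg_smul (c : ℚ) (f : Ω → ℚ) : avg S (fun ω => c * f ω) = c * avg S f := by
  unfold avg; rw [← mul_sum, mul_div_assoc]

theorem avg_div (c : ℚ) (f : Ω → ℚ) : avg S (fun ω => f ω / c) = avg S f / c := by
  unfold avg; rw [← sum_div, div_right_comm]

theorem avg_sum {ι : Type*} (s : Finset ι) (f : ι → Ω → ℚ) :
    avg S (fun ω => ∑ i ∈ s, f i ω) = ∑ i ∈ s, avg S (f i) := by
  unfold avg; rw [sum_comm, sum_div]

theorem avg_const (hS : S.Nonempty) (c : ℚ) : avg S (fun _ => c) = c := by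
  unfold avg
  have : (S.card : ℚ) ≠ 0 := by exact_mod_cast (card_pos.2 hS).ne'
  rw [sum_const, nsmul_eq_mul]; field_simp

theorem avg_mono {f g : Ω → ℚ} (h : ∀ ω ∈ S, f ω ≤ g ω) : avg S f ≤ avg S g := by
  unfold avg
  exact div_le_div_of_nonneg_right (sum_le_sum h) (by positivity)


theorem exists_le_avg (hS : S.Nonempty) {f : Ω → ℚ} {B : ℚ} (h : avg S f ≤ B) :
    ∃ ω ∈ S, f ω ≤ B := by
  by_contra hcon
  push Not at hcon
  have h1 : ∑ ω ∈ S, B < ∑ ω ∈ S, f ω := sum_lt_sum_of_nonempty hS hcon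
  have h2 : (0 : ℚ) < S.card := by exact_mod_cast card_pos.2 hS
  unfold avg at h
  rw [div_le_iff₀ h2] at h
  rw [sum_const, nsmul_eq_mul] at h1
  linarith

end avg

/-! ### pairwise independent sampling -/

section pw

variable {Ω X : Type*}

/-- indicator of `x ∈ R ω` -/
def ind (R : Ω → X → Bool) (ω : Ω) (x : X) : ℚ := if R ω x = true then 1 else 0

/-- pairwise independence with probability `p` on the items `U` -/
structure PW (S : Finset Ω) (R : Ω → X → Bool) (p : ℚ) (U : Finset X) : Prop where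
  ne : S.Nonempty
  p_nonneg : 0 ≤ p
  one : ∀ x ∈ U, avg S (fun ω => ind R ω x) = p
  two : ∀ x ∈ U, ∀ y ∈ U, x ≠ y → avg S (fun ω => ind R ω x * ind R ω y) = p ^ 2

variable {S : Finset Ω} {R : Ω → X → Bool} {p : ℚ} {U : Finset X}

theorem ind_sq (ω : Ω) (x : X) : ind R ω x * ind R ω x = ind R ω x := by
  unfold ind; split_ifs <;> simp


theorem PW.mean (h : PW S R p U) {V : Finset X} (hV : V ⊆ U) (c : X → ℚ) :
    avg S (fun ω => ∑ x ∈ V, c x * ind R ω x) = p * ∑ x ∈ V, c x := by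
  rw [avg_sum, mul_sum]
  refine sum_congr rfl fun x hx => ?_
  rw [avg_smul, h.one x (hV hx), mul_comm]

theorem PW.sq [DecidableEq X] (h : PW S R p U) {V : Finset X} (hV : V ⊆ U) (c : X → ℚ) :
    avg S (fun ω => (∑ x ∈ V, c x * ind R ω x) ^ 2)
      = (p * ∑ x ∈ V, c x) ^ 2 + (p - p ^ 2) * ∑ x ∈ V, c x ^ 2 := by
  have e1 : ∀ ω, (∑ x ∈ V, c x * ind R ω x) ^ 2
      = ∑ x ∈ V, ∑ y ∈ V, (c x * c y) * (ind R ω x * ind R ω y) := by
    intro ω
    rw [pow_two, sum_mul_sum]
    refine sum_congr rfl fun x _ => sum_congr rfl fun y _ => ?_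
    ring
  have e2 : avg S (fun ω => (∑ x ∈ V, c x * ind R ω x) ^ 2)
      = ∑ x ∈ V, ∑ y ∈ V, (c x * c y) * (if x = y then p else p ^ 2) := by
    rw [show (fun ω => (∑ x ∈ V, c x * ind R ω x) ^ 2)
      = fun ω => ∑ x ∈ V, ∑ y ∈ V, (c x * c y) * (ind R ω x * ind R ω y) from funext e1]
    rw [avg_sum]
    refine sum_congr rfl fun x hx => ?_
    rw [avg_sum]
    refine sum_congr rfl fun y hy => ?_
    rw [avg_smul]
    congr 1
    split_ifs with hxy
    · subst hxy
      rw [show (fun ω => ind R ω x * ind R ω x) = fun ω => ind R ω x from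
        funext fun ω => ind_sq ω x]
      exact h.one x (hV hx)
    · exact h.two x (hV hx) y (hV hy) hxy
  rw [e2]
  have e3 : ∀ x ∈ V, ∑ y ∈ V, (c x * c y) * (if x = y then p else p ^ 2)
      = p ^ 2 * (c x * ∑ y ∈ V, c y) + (p - p ^ 2) * c x ^ 2 := by
    intro x hx
    have : ∀ y ∈ V, (c x * c y) * (if x = y then p else p ^ 2)
        = p ^ 2 * (c x * c y) + (if x = y then (p - p ^ 2) * (c x * c y) else 0) := by
      intro y _
      split_ifs <;> ring
    rw [sum_congr rfl this, sum_add_distrib, sum_ite_eq, if_pos hx, ← mul_sum, ← mul_sum]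
    ring
  rw [sum_congr rfl e3, sum_add_distrib, ← mul_sum, ← mul_sum, ← sum_mul]
  ring

theorem PW.var [DecidableEq X] (h : PW S R p U) {V : Finset X} (hV : V ⊆ U) (c : X → ℚ) :
    avg S (fun ω => (∑ x ∈ V, c x * ind R ω x - p * ∑ x ∈ V, c x) ^ 2)
      ≤ p * ∑ x ∈ V, c x ^ 2 := by
  set m := p * ∑ x ∈ V, c x with hm
  have e1 : (fun ω => (∑ x ∈ V, c x * ind R ω x - m) ^ 2)
      = fun ω => ((∑ x ∈ V, c x * ind R ω x) ^ 2 + (-(2 * m)) * (∑ x ∈ V, c x * ind R ω x))
        + m ^ 2 := by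
    funext ω; ring
  rw [e1, avg_add, avg_add, avg_smul, avg_const h.ne, h.sq hV c, h.mean hV c, ← hm]
  have h1 : 0 ≤ ∑ x ∈ V, c x ^ 2 := sum_nonneg fun x _ => sq_nonneg _
  nlinarith [mul_nonneg (sq_nonneg p) h1]

/-- number of sampled items in `V` -/
def cnt (R : Ω → X → Bool) (ω : Ω) (V : Finset X) : ℕ := (V.filter (fun x => R ω x = true)).card

theorem cnt_eq (ω : Ω) (V : Finset X) : (cnt R ω V : ℚ) = ∑ x ∈ V, 1 * ind R ω x := by
  unfold cnt ind
  rw [card_filter]
  push_cast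
  refine sum_congr rfl fun x _ => ?_
  split_ifs <;> simp

theorem PW.mean_cnt (h : PW S R p U) {V : Finset X} (hV : V ⊆ U) :
    avg S (fun ω => (cnt R ω V : ℚ)) = p * V.card := by
  have := h.mean hV (fun _ => 1)
  simp only [sum_const, nsmul_eq_mul, mul_one] at this
  rw [← this]
  congr 1
  funext ω
  exact cnt_eq ω V

theorem PW.sq_cnt [DecidableEq X] (h : PW S R p U) {V : Finset X} (hV : V ⊆ U) :
    avg S (fun ω => (cnt R ω V : ℚ) ^ 2) ≤ (p * V.card) ^ 2 + p * V.card := by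
  have := h.sq hV (fun _ => 1)
  simp only [sum_const, nsmul_eq_mul, mul_one, one_pow] at this
  have e : (fun ω => (cnt R ω V : ℚ) ^ 2) = fun ω => (∑ x ∈ V, 1 * ind R ω x) ^ 2 := by
    funext ω; rw [cnt_eq]
  rw [e, this]
  have : 0 ≤ p ^ 2 * (V.card : ℚ) := by positivity
  linarith

theorem PW.var_cnt [DecidableEq X] (h : PW S R p U) {V : Finset X} (hV : V ⊆ U) :
    avg S (fun ω => ((cnt R ω V : ℚ) - p * V.card) ^ 2) ≤ p * V.card := by
  have := h.var hV (fun _ => 1)
  simp only [sum_const, nsmul_eq_mul, mul_one, one_pow] at this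
  have e : (fun ω => ((cnt R ω V : ℚ) - p * V.card) ^ 2)
      = fun ω => (∑ x ∈ V, 1 * ind R ω x - p * V.card) ^ 2 := by
    funext ω; rw [cnt_eq]
  rw [e]
  exact this

/-- expected absolute deviation -/
theorem PW.dev_cnt [DecidableEq X] (h : PW S R p U) {V : Finset X} (hV : V ⊆ U) {c : ℚ}
    (hc : 0 < c) :
    avg S (fun ω => |(cnt R ω V : ℚ) - p * V.card|) ≤ p * V.card / (2 * c) + c / 2 := by
  have h1 : ∀ ω ∈ S, |(cnt R ω V : ℚ) - p * V.card|
      ≤ (1 / (2 * c)) * ((cnt R ω V : ℚ) - p * V.card) ^ 2 + c / 2 := by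
    intro ω _
    set a := (cnt R ω V : ℚ) - p * V.card
    have h2 : 0 ≤ (|a| - c) ^ 2 := sq_nonneg _
    have h3 : |a| ^ 2 = a ^ 2 := sq_abs a
    have h4 : |a| * (2 * c) ≤ a ^ 2 + c ^ 2 := by nlinarith
    rw [show (1 / (2 * c)) * a ^ 2 + c / 2 = (a ^ 2 + c ^ 2) / (2 * c) by field_simp]
    rw [le_div_iff₀ (by positivity)]
    exact h4
  refine (avg_mono h1).trans ?_
  rw [avg_add, avg_smul, avg_const h.ne]
  have h5 := h.var_cnt hV
  have h6 := mul_le_mul_of_nonneg_left h5 (show 0 ≤ 1 / (2 * c) by positivity)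
  rw [show (1 / (2 * c)) * (p * (V.card : ℚ)) = p * V.card / (2 * c) by field_simp] at h6
  linarith

end pw

/-! ### the hash family -/

/-- seeds -/
def seeds (P : ℕ) : Finset (ℕ × ℕ) := range P ×ˢ range P

/-- membership of the item with code `x` -/
def hashB (P t : ℕ) (s : ℕ × ℕ) (x : ℕ) : Bool := decide ((s.1 * x + s.2) % P < t)

theorem hash_one {P t x : ℕ} (hP : 0 < P) (ht : t ≤ P) :
    ((seeds P).filter (fun s => hashB P t s x = true)).card = P * t := by
  have h1 : (seeds P).filter (fun s => hashB P t s x = true)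
      = (range P).biUnion (fun a => ((range P).filter (fun b => (a * x + b) % P < t)).image
          (fun b => (a, b))) := by
    ext ⟨a, b⟩
    simp only [seeds, hashB, mem_filter, mem_product, mem_range, decide_eq_true_eq, mem_biUnion,
      mem_image, Prod.mk.injEq]
    constructor
    · rintro ⟨⟨ha, hb⟩, h⟩
      exact ⟨a, ha, b, ⟨hb, h⟩, rfl, rfl⟩
    · rintro ⟨a', ha, b', ⟨hb, h⟩, rfl, rfl⟩
      exact ⟨⟨ha, hb⟩, h⟩
  rw [h1, card_biUnion]
  · have h2 : ∀ a ∈ range P, (((range P).filter (fun b => (a * x + b) % P < t)).image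
          (fun b => (a, b))).card = t := by
      intro a _
      rw [card_image_of_injective _ (by intro b b' h; simpa using h)]
      have h3 : ((range P).filter (fun b => (a * x + b) % P < t)).image
          (fun b => (a * x + b) % P) = range t := by
        ext u
        simp only [mem_image, mem_filter, mem_range]
        constructor
        · rintro ⟨b, ⟨_, h⟩, rfl⟩; exact h
        · intro hu
          have hlt : (a * x) % P < P := Nat.mod_lt _ hP
          have e : (a * x + (u + (P - (a * x) % P)) % P) % P = u := by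
            rw [Nat.add_mod_mod, ← Nat.mod_add_mod,
              show (a * x) % P + (u + (P - (a * x) % P)) = u + P by omega,
              Nat.add_mod_right, Nat.mod_eq_of_lt (by omega)]
          exact ⟨(u + (P - (a * x) % P)) % P, ⟨Nat.mod_lt _ hP, by rw [e]; exact hu⟩, e⟩
      have hinj : Set.InjOn (fun b => (a * x + b) % P)
          ((range P).filter (fun b => (a * x + b) % P < t) : Finset ℕ) := by
        intro b hb b' hb' h
        simp only [coe_filter, mem_range, Set.mem_ofPred_eq] at hb hb'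
        have h4 : a * x + b ≡ a * x + b' [MOD P] := h
        have h5 : b ≡ b' [MOD P] := Nat.ModEq.add_left_cancel' _ h4
        exact Nat.ModEq.eq_of_lt_of_lt h5 hb.1 hb'.1
      rw [← card_image_of_injOn hinj, h3, card_range]
    rw [sum_congr rfl h2, sum_const, card_range, smul_eq_mul]
  · intro a _ a' _ haa
    rw [Function.onFun, disjoint_left]
    intro s hs hs'
    simp only [mem_image] at hs hs'
    obtain ⟨b, _, rfl⟩ := hs
    obtain ⟨b', _, h⟩ := hs'
    exact haa (by simpa using (congrArg Prod.fst h).symm)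

theorem hash_two {P t x y : ℕ} (hP : P.Prime) (ht : t ≤ P) (hx : x < P) (hy : y < P)
    (hxy : x ≠ y) :
    ((seeds P).filter (fun s => hashB P t s x = true ∧ hashB P t s y = true)).card = t * t := by
  have hP0 : 0 < P := hP.pos
  let f : ℕ × ℕ → ℕ × ℕ := fun s => ((s.1 * x + s.2) % P, (s.1 * y + s.2) % P)
  have hinj : Set.InjOn f (seeds P : Finset (ℕ × ℕ)) := by
    rintro ⟨a, b⟩ h1 ⟨a', b'⟩ h2 h
    simp only [seeds, coe_product, coe_range, Set.mem_prod, Set.mem_Iio] at h1 h2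
    simp only [f, Prod.mk.injEq] at h
    obtain ⟨hu, hv⟩ := h
    have cu : (a : ZMod P) * x + b = a' * x + b' := by
      have := (ZMod.natCast_eq_natCast_iff' (a * x + b) (a' * x + b') P).2 hu
      push_cast at this; exact this
    have cv : (a : ZMod P) * y + b = a' * y + b' := by
      have := (ZMod.natCast_eq_natCast_iff' (a * y + b) (a' * y + b') P).2 hv
      push_cast at this; exact this
    have : Fact P.Prime := ⟨hP⟩
    have h3 : ((a : ZMod P) - a') * ((x : ZMod P) - y) = 0 := by linear_combination cu - cv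
    have hxy' : (x : ZMod P) - y ≠ 0 := by
      intro h0
      have h4 : (x : ZMod P) = y := sub_eq_zero.1 h0
      rw [ZMod.natCast_eq_natCast_iff'] at h4
      rw [Nat.mod_eq_of_lt hx, Nat.mod_eq_of_lt hy] at h4
      exact hxy h4
    have h5 : (a : ZMod P) = a' := by
      rcases mul_eq_zero.1 h3 with h6 | h6
      · exact sub_eq_zero.1 h6
      · exact absurd h6 hxy'
    have ha : a = a' := by
      rw [ZMod.natCast_eq_natCast_iff', Nat.mod_eq_of_lt h1.1, Nat.mod_eq_of_lt h2.1] at h5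
      exact h5
    subst ha
    have hb : (b : ZMod P) = b' := by linear_combination cu
    rw [ZMod.natCast_eq_natCast_iff', Nat.mod_eq_of_lt h1.2, Nat.mod_eq_of_lt h2.2] at hb
    rw [hb]
  have himg : (seeds P).image f = seeds P := by
    apply eq_of_subset_of_card_le
    · intro u hu
      obtain ⟨s, _, rfl⟩ := mem_image.1 hu
      simp only [f, seeds, mem_product, mem_range]
      exact ⟨Nat.mod_lt _ hP0, Nat.mod_lt _ hP0⟩
    · rw [card_image_of_injOn hinj]
  have h6 : ((seeds P).filter (fun s => hashB P t s x = true ∧ hashB P t s y = true)).image f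
      = range t ×ˢ range t := by
    ext ⟨u, v⟩
    simp only [mem_image, mem_filter, hashB, decide_eq_true_eq, mem_product, mem_range]
    constructor
    · rintro ⟨s, ⟨_, h⟩, he⟩
      simp only [f, Prod.mk.injEq] at he
      rw [← he.1, ← he.2]; exact h
    · rintro ⟨hu, hv⟩
      have : (u, v) ∈ (seeds P).image f := by
        rw [himg]; simp only [seeds, mem_product, mem_range]; omega
      obtain ⟨s, hs, he⟩ := mem_image.1 this
      refine ⟨s, ⟨hs, ?_⟩, he⟩
      simp only [f, Prod.mk.injEq] at he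
      rw [he.1, he.2]; exact ⟨hu, hv⟩
  rw [← card_image_of_injOn (hinj.mono (by
    intro s hs; simp only [coe_filter, Set.mem_ofPred_eq] at hs; exact hs.1)), h6, card_product,
    card_range]

/-- **The hash family is pairwise independent.** -/
theorem hash_pw {X : Type*} {P t : ℕ} (hP : P.Prime) (ht : t ≤ P) (U : Finset X) (code : X → ℕ)
    (hlt : ∀ x ∈ U, code x < P) (hinj : ∀ x ∈ U, ∀ y ∈ U, code x = code y → x = y) :
    PW (seeds P) (fun s x => hashB P t s (code x)) ((t : ℚ) / P) U := by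
  have hP0 : 0 < P := hP.pos
  have hPq : (0 : ℚ) < P := by exact_mod_cast hP0
  have hcard : (seeds P).card = P * P := by simp [seeds]
  refine ⟨?_, by positivity, ?_, ?_⟩
  · rw [← card_pos, hcard]; positivity
  · intro x hx
    unfold avg ind
    rw [← sum_filter, sum_const, nsmul_eq_mul, mul_one, hash_one hP0 ht, hcard]
    push_cast
    field_simp
  · intro x hx y hy hxy
    unfold avg
    have e : ∀ s : ℕ × ℕ, ind (fun s x => hashB P t s (code x)) s x
        * ind (fun s x => hashB P t s (code x)) s y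
        = if (hashB P t s (code x) = true ∧ hashB P t s (code y) = true) then 1 else 0 := by
      intro s
      unfold ind
      by_cases h1 : hashB P t s (code x) = true <;> by_cases h2 : hashB P t s (code y) = true <;>
        simp [h1, h2]
    rw [sum_congr rfl fun s _ => e s, ← sum_filter, sum_const, nsmul_eq_mul, mul_one,
      hash_two hP ht (hlt x hx) (hlt y hy) (fun h => hxy (hinj x hx y hy h)), hcard]
    push_cast
    field_simp

end Crest.Agent.R310.Gran
end

-- ▼ part R310/GranCore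

/-!
# R310, block GRAN, part 2: coarse multiplicities, plans of the clients, total mass (abstract)
-/

set_option linter.dupNamespace false
set_option linter.unusedSectionVars false
set_option autoImplicit false

namespace Crest.Agent.R310.Gran

open Finset

/-! ### plans -/

theorem shrink (s : Finset ℕ) (f : ℕ → ℕ) (t : ℕ) (ht : t ≤ ∑ v ∈ s, f v) :
    ∃ f' : ℕ → ℕ, (∀ v, f' v ≤ f v) ∧ ∑ v ∈ s, f' v = t := by
  classical
  induction s using Finset.induction_on generalizing t with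
  | empty =>
    refine ⟨fun _ => 0, fun _ => Nat.zero_le _, ?_⟩
    simp at ht ⊢; exact ht.symm
  | insert a s ha ih =>
    rw [sum_insert ha] at ht
    by_cases h : t ≤ ∑ v ∈ s, f v
    · obtain ⟨f', h1, h2⟩ := ih t h
      refine ⟨fun v => if v = a then 0 else f' v, fun v => ?_, ?_⟩
      · dsimp only; split_ifs
        · exact Nat.zero_le _
        · exact h1 v
      · rw [sum_insert ha, if_pos rfl, zero_add, ← h2]
        refine sum_congr rfl fun v hv => ?_
        have hne : v ≠ a := fun h' => ha (h' ▸ hv)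
        rw [if_neg hne]
    · push Not at h
      refine ⟨fun v => if v = a then t - ∑ v ∈ s, f v else f v, fun v => ?_, ?_⟩
      · dsimp only; split_ifs with hv
        · rw [hv]; omega
        · exact le_rfl
      · rw [sum_insert ha, if_pos rfl]
        have : ∑ x ∈ s, (if x = a then t - ∑ v ∈ s, f v else f x) = ∑ v ∈ s, f v :=
          sum_congr rfl fun v hv => by
            have hne : v ≠ a := fun h' => ha (h' ▸ hv)
            rw [if_neg hne]
        rw [this]; omega

/-- completing a partial plan inside a ball of large mass -/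
theorem complete {Lam B : Finset ℕ} (hBL : B ⊆ Lam) {mu n : ℕ → ℕ} (hn : ∀ v ∈ Lam, n v ≤ mu v)
    {M : ℕ} (hB : M ≤ ∑ v ∈ B, mu v) {d : ℕ → ℚ} (hd : ∀ v ∈ Lam, 0 ≤ d v) {U0 : ℚ}
    (hU : ∀ v ∈ B, d v ≤ U0) :
    ∃ n' : ℕ → ℕ, (∀ v ∈ Lam, n' v ≤ mu v) ∧ ∑ v ∈ Lam, n' v = M ∧
      ∑ v ∈ Lam, (n' v : ℚ) * d v ≤ ∑ v ∈ Lam, (n v : ℚ) * d v
        + ((M - ∑ v ∈ Lam, n v : ℕ) : ℚ) * U0 := by
  classical
  by_cases h : M ≤ ∑ v ∈ Lam, n v
  · obtain ⟨f', h1, h2⟩ := shrink Lam n M h
    refine ⟨f', fun v hv => (h1 v).trans (hn v hv), h2, ?_⟩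
    rw [Nat.sub_eq_zero_of_le h, Nat.cast_zero, zero_mul, add_zero]
    refine sum_le_sum fun v hv => mul_le_mul_of_nonneg_right ?_ (hd v hv)
    exact_mod_cast h1 v
  · push Not at h
    have h0 : ∑ v ∈ B, n v ≤ ∑ v ∈ Lam, n v := sum_le_sum_of_subset hBL
    have h1 : ∑ v ∈ B, mu v ≤ ∑ v ∈ B, (mu v - n v) + ∑ v ∈ B, n v := by
      rw [← sum_add_distrib]
      exact sum_le_sum fun v _ => by omega
    obtain ⟨e, he1, he2⟩ := shrink B (fun v => mu v - n v) (M - ∑ v ∈ Lam, n v) (by omega)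
    have e0 : ∑ v ∈ Lam, (if v ∈ B then e v else 0) = ∑ v ∈ B, e v := by
      rw [sum_ite_mem, inter_eq_right.2 hBL]
    refine ⟨fun v => n v + (if v ∈ B then e v else 0), fun v hv => ?_, ?_, ?_⟩
    · have := hn v hv
      have := he1 v
      dsimp only
      split_ifs <;> omega
    · rw [sum_add_distrib, e0, he2]; omega
    · have e1 : ∀ v, ((n v + (if v ∈ B then e v else 0) : ℕ) : ℚ) * d v
          = (n v : ℚ) * d v + (if v ∈ B then (e v : ℚ) * d v else 0) := by
        intro v; split_ifs <;> push_cast <;> ring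
      rw [sum_congr rfl fun v _ => e1 v, sum_add_distrib, sum_ite_mem, inter_eq_right.2 hBL]
      refine add_le_add le_rfl ?_
      rw [← he2]
      push_cast
      rw [sum_mul]
      exact sum_le_sum fun v hv => mul_le_mul_of_nonneg_left (hU v hv) (by positivity)

/-! ### the abstract data -/

/-- data of the coarsening step -/
structure Core (X : Type) [DecidableEq X] where
  /-- locations -/
  Lam : Finset ℕ
  /-- nearly full tight locations -/
  Gf : Finset ℕ
  /-- sampling items -/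
  U : Finset X
  /-- location of an item -/
  loc : X → ℕ
  /-- foreign items of a tight location -/
  Z : ℕ → Finset X
  /-- representatives -/
  J0 : Finset ℕ
  /-- hub items of a representative -/
  P : ℕ → Finset X
  /-- where the missing copies of a representative are added -/
  pt : ℕ → ℕ
  /-- coarse granularity -/
  M : ℕ
  M_pos : 0 < M
  M_even : 2 ∣ M
  Gf_sub : Gf ⊆ Lam
  loc_mem : ∀ x ∈ U, loc x ∈ Lam
  Z_sub : ∀ g ∈ Gf, Z g ⊆ U
  Z_ne : ∀ g ∈ Gf, ∀ x ∈ Z g, loc x ≠ g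
  P_sub : ∀ j ∈ J0, P j ⊆ U
  P_hub : ∀ j ∈ J0, ∀ x ∈ P j, loc x ∉ Gf
  pt_mem : ∀ j ∈ J0, pt j ∈ Lam
  pt_hub : ∀ j ∈ J0, pt j ∉ Gf

namespace Core

variable {X Ω : Type} [DecidableEq X] (c : Core X) (R : Ω → X → Bool)

/-- hub items -/
def H : Finset X := c.U.filter (fun x => c.loc x ∉ c.Gf)

/-- coarse multiplicities -/
def mu (ω : Ω) (v : ℕ) : ℕ :=
  if v ∈ c.Gf then c.M - min (c.M / 2) (cnt R ω (c.Z v))
  else cnt R ω (c.U.filter (fun x => c.loc x = v))
    + ∑ j ∈ c.J0.filter (fun j => c.pt j = v), (c.M - cnt R ω (c.P j))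

variable {R}



/-- items at hubs are available -/
theorem avail_hub {ω : Ω} {v : ℕ} (hv : v ∉ c.Gf) {W : Finset X} (hW : W ⊆ c.U) :
    (W.filter (fun x => R ω x = true ∧ c.loc x = v)).card ≤ c.mu R ω v := by
  unfold mu
  rw [if_neg hv]
  refine le_trans ?_ (Nat.le_add_right _ _)
  unfold cnt
  apply card_le_card
  intro x hx
  rw [mem_filter] at hx
  exact mem_filter.2 ⟨mem_filter.2 ⟨hW hx.1, hx.2.2⟩, hx.2.1⟩

theorem avail_tight {ω : Ω} {v : ℕ} (hv : v ∈ c.Gf) : c.M / 2 ≤ c.mu R ω v := by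
  unfold mu
  rw [if_pos hv]
  have h1 := c.M_even
  have : min (c.M / 2) (cnt R ω (c.Z v)) ≤ c.M / 2 := min_le_left _ _
  omega

/-- sum of a function over the locations of a set of items -/
theorem sum_loc {Lam : Finset ℕ} {W : Finset X} {loc : X → ℕ} (h : ∀ x ∈ W, loc x ∈ Lam)
    (d : ℕ → ℚ) :
    ∑ v ∈ Lam, ((W.filter (fun x => loc x = v)).card : ℚ) * d v = ∑ x ∈ W, d (loc x) := by
  have h1 : ∀ v ∈ Lam, ((W.filter (fun x => loc x = v)).card : ℚ) * d v
      = ∑ x ∈ W.filter (fun x => loc x = v), d (loc x) := by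
    intro v _
    rw [sum_congr rfl (g := fun _ => d v) (fun x hx => by rw [(mem_filter.1 hx).2]), sum_const,
      nsmul_eq_mul]
  rw [sum_congr rfl h1]
  exact sum_fiberwise_of_maps_to h _

theorem card_loc {Lam : Finset ℕ} {W : Finset X} {loc : X → ℕ} (h : ∀ x ∈ W, loc x ∈ Lam) :
    ∑ v ∈ Lam, (W.filter (fun x => loc x = v)).card = W.card :=
  (card_eq_sum_card_fiberwise h).symm

theorem sum_filter_ind {ω : Ω} (W : Finset X) (f : X → ℚ) :
    ∑ x ∈ W.filter (fun x => R ω x = true), f x = ∑ x ∈ W, f x * ind R ω x := by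
  rw [sum_filter]
  refine sum_congr rfl fun x _ => ?_
  unfold ind
  split_ifs <;> simp

theorem min_half_ge {M z : ℕ} (hM : 0 < M) (h2 : 2 ∣ M) :
    (z : ℚ) - (z : ℚ) ^ 2 / (2 * M) ≤ (min (M / 2) z : ℕ) := by
  have hMq : (0 : ℚ) < M := by exact_mod_cast hM
  rcases le_total (M / 2) z with h | h
  · rw [min_eq_left h]
    obtain ⟨a, rfl⟩ := h2
    rw [Nat.mul_div_cancel_left _ (by norm_num)]
    push_cast at hMq ⊢
    have ha : (0 : ℚ) < a := by linarith
    have e : (z : ℚ) ^ 2 / (2 * (2 * a)) - (z - a) = (z - 2 * a) ^ 2 / (4 * a) := by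
      field_simp; ring
    have : 0 ≤ (z - 2 * a : ℚ) ^ 2 / (4 * a) := by positivity
    linarith
  · rw [min_eq_right h]
    have : 0 ≤ (z : ℚ) ^ 2 / (2 * M) := by positivity
    linarith

/-- **Plan of an attached client.** -/
theorem plan_att {ω : Ω} {g : ℕ} (hg : g ∈ c.Gf) (d : ℕ → ℚ) (hd : ∀ v ∈ c.Lam, 0 ≤ d v) :
    ∃ n : ℕ → ℕ, (∀ v ∈ c.Lam, n v ≤ c.mu R ω v) ∧ ∑ v ∈ c.Lam, n v = c.M ∧
      ∑ v ∈ c.Lam, (n v : ℚ) * d v ≤ c.M * d g
        + ∑ x ∈ c.Z g, (d (c.loc x) - d g) * ind R ω x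
        + (cnt R ω (c.Z g) : ℚ) ^ 2 / (2 * c.M) * d g := by
  classical
  set z := cnt R ω (c.Z g) with hz
  set w := min (c.M / 2) z with hw
  obtain ⟨W, hWs, hWc⟩ := exists_subset_card_eq (s := (c.Z g).filter (fun x => R ω x = true))
    (n := w) (by rw [hw]; exact min_le_right _ _)
  have hWZ : W ⊆ c.Z g := hWs.trans (filter_subset _ _)
  have hWU : W ⊆ c.U := hWZ.trans (c.Z_sub g hg)
  have hWl : ∀ x ∈ W, c.loc x ∈ c.Lam := fun x hx => c.loc_mem x (hWU hx)
  have hwM : w ≤ c.M / 2 := min_le_left _ _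
  have hgL : g ∈ c.Lam := c.Gf_sub hg
  have hWg : W.filter (fun x => c.loc x = g) = ∅ := by
    rw [filter_eq_empty_iff]
    exact fun x hx => c.Z_ne g hg x (hWZ hx)
  let n : ℕ → ℕ := fun v => (if v = g then c.M - w else 0) + (W.filter (fun x => c.loc x = v)).card
  refine ⟨n, fun v hv => ?_, ?_, ?_⟩
  · by_cases hvg : v = g
    · subst hvg
      simp only [n, if_true, hWg, card_empty, add_zero]
      unfold mu
      rw [if_pos hg]
    · simp only [n, if_neg hvg, zero_add]
      by_cases hvG : v ∈ c.Gf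
      · refine le_trans (card_filter_le _ _) ?_
        rw [hWc]
        exact hwM.trans (c.avail_tight hvG)
      · refine le_trans ?_ (c.avail_hub hvG hWU)
        apply card_le_card
        intro x hx
        rw [mem_filter] at hx ⊢
        exact ⟨hx.1, (mem_filter.1 (hWs hx.1)).2, hx.2⟩
  · simp only [n]
    rw [sum_add_distrib, sum_ite_eq', if_pos hgL, card_loc hWl, hWc]
    omega
  · have e1 : ∑ v ∈ c.Lam, (n v : ℚ) * d v = ((c.M - w : ℕ) : ℚ) * d g
        + ∑ x ∈ W, d (c.loc x) := by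
      rw [← sum_loc hWl d]
      have : ∀ v ∈ c.Lam, (n v : ℚ) * d v = (if v = g then ((c.M - w : ℕ) : ℚ) * d v else 0)
          + ((W.filter (fun x => c.loc x = v)).card : ℚ) * d v := by
        intro v _
        simp only [n]
        split_ifs <;> push_cast <;> ring
      rw [sum_congr rfl this, sum_add_distrib, sum_ite_eq', if_pos hgL]
    have e2 : ∑ x ∈ W, d (c.loc x) ≤ ∑ x ∈ c.Z g, d (c.loc x) * ind R ω x := by
      rw [← sum_filter_ind]
      exact sum_le_sum_of_subset_of_nonneg hWs (fun x hx _ =>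
        hd _ (c.loc_mem x (c.Z_sub g hg (mem_filter.1 hx).1)))
    have e3 : ∑ x ∈ c.Z g, (d (c.loc x) - d g) * ind R ω x
        = ∑ x ∈ c.Z g, d (c.loc x) * ind R ω x - z * d g := by
      have : (z : ℚ) = ∑ x ∈ c.Z g, 1 * ind R ω x := cnt_eq ω (c.Z g)
      rw [this, sum_mul, ← sum_sub_distrib]
      exact sum_congr rfl fun x _ => by ring
    have e4 : ((c.M - w : ℕ) : ℚ) = c.M - w := by
      rw [Nat.cast_sub (by omega)]
    have e5 := min_half_ge (z := z) c.M_pos c.M_even
    rw [← hw] at e5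
    have hdg := hd g hgL
    rw [e1, e3, e4]
    nlinarith [mul_le_mul_of_nonneg_right e5 hdg]

/-- **Plan of an ordinary client.** -/
theorem plan_ord {ω : Ω} {N Zs : Finset X} {g b : ℕ} {Bl : Finset ℕ} (hN : N ⊆ c.U)
    (hNH : ∀ x ∈ N, c.loc x ∉ c.Gf) (hg : (g ∈ c.Gf ∧ Zs = c.Z g) ∨ (b = 0 ∧ Zs = ∅))
    (hBL : Bl ⊆ c.Lam) (hB : c.M ≤ ∑ v ∈ Bl, c.mu R ω v) {d : ℕ → ℚ}
    (hd : ∀ v ∈ c.Lam, 0 ≤ d v) (hdg : 0 ≤ d g) {U0 : ℚ} (hU0 : 0 ≤ U0)
    (hU : ∀ v ∈ Bl, d v ≤ U0) {p : ℚ}
    (hb1 : (c.M : ℚ) - 2 ≤ p * N.card + b) (hb2 : (b : ℚ) + p * Zs.card ≤ c.M) :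
    ∃ n : ℕ → ℕ, (∀ v ∈ c.Lam, n v ≤ c.mu R ω v) ∧ ∑ v ∈ c.Lam, n v = c.M ∧
      ∑ v ∈ c.Lam, (n v : ℚ) * d v ≤ b * d g + ∑ x ∈ N, d (c.loc x) * ind R ω x
        + (2 + |(cnt R ω N : ℚ) - p * N.card| + |(cnt R ω Zs : ℚ) - p * Zs.card|) * U0 := by
  classical
  set W := N.filter (fun x => R ω x = true) with hWdef
  have hWN : W ⊆ N := filter_subset _ _
  have hWU : W ⊆ c.U := hWN.trans hN
  have hWl : ∀ x ∈ W, c.loc x ∈ c.Lam := fun x hx => c.loc_mem x (hWU hx)
  set b' : ℕ := min b (c.mu R ω g) with hb'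
  -- the partial plan
  have hWc : W.card = cnt R ω N := rfl
  have key : ∃ n : ℕ → ℕ, (∀ v ∈ c.Lam, n v ≤ c.mu R ω v) ∧
      (∑ v ∈ c.Lam, (n v : ℚ) * d v ≤ b * d g + ∑ x ∈ W, d (c.loc x)) ∧
      (c.M : ℚ) ≤ ((∑ v ∈ c.Lam, n v : ℕ) : ℚ)
        + (2 + |(cnt R ω N : ℚ) - p * N.card| + |(cnt R ω Zs : ℚ) - p * Zs.card|) := by
    have hWf : ∀ v, v ∉ c.Gf → (W.filter (fun x => c.loc x = v)).card ≤ c.mu R ω v := by
      intro v hv
      refine le_trans ?_ (c.avail_hub hv hWU)
      apply card_le_card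
      intro x hx
      rw [mem_filter] at hx ⊢
      exact ⟨hx.1, (mem_filter.1 hx.1).2, hx.2⟩
    have hWe : ∀ v, v ∈ c.Gf → W.filter (fun x => c.loc x = v) = ∅ := by
      intro v hv
      rw [filter_eq_empty_iff]
      intro x hx h
      exact hNH x (hWN hx) (h ▸ hv)
    have a1 := neg_abs_le ((cnt R ω N : ℚ) - p * N.card)
    rcases hg with ⟨hg, hZs⟩ | ⟨h0, hZs⟩
    · have hgL : g ∈ c.Lam := c.Gf_sub hg
      let n : ℕ → ℕ := fun v => (if v = g then b' else 0) + (W.filter (fun x => c.loc x = v)).card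
      refine ⟨n, fun v hv => ?_, ?_, ?_⟩
      · by_cases hvG : v ∈ c.Gf
        · simp only [n, hWe v hvG, card_empty, add_zero]
          split_ifs with h
          · rw [h]; exact min_le_right _ _
          · exact Nat.zero_le _
        · have : v ≠ g := fun h => hvG (h ▸ hg)
          simp only [n, if_neg this, zero_add]
          exact hWf v hvG
      · have : ∀ v ∈ c.Lam, (n v : ℚ) * d v = (if v = g then (b' : ℚ) * d v else 0)
          + ((W.filter (fun x => c.loc x = v)).card : ℚ) * d v := by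
          intro v _
          simp only [n]
          split_ifs <;> push_cast <;> ring
        rw [sum_congr rfl this, sum_add_distrib, sum_ite_eq', if_pos hgL, sum_loc hWl d]
        refine add_le_add (mul_le_mul_of_nonneg_right ?_ hdg) le_rfl
        exact_mod_cast min_le_left _ _
      · have e1 : ∑ v ∈ c.Lam, n v = b' + cnt R ω N := by
          simp only [n]
          rw [sum_add_distrib, sum_ite_eq', if_pos hgL, card_loc hWl, hWc]
        rw [e1]
        have a2 := le_abs_self ((cnt R ω Zs : ℚ) - p * Zs.card)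
        have a3 := abs_nonneg ((cnt R ω Zs : ℚ) - p * Zs.card)
        have e2 : (b : ℚ) - |(cnt R ω Zs : ℚ) - p * Zs.card| ≤ b' := by
          rcases le_total b (c.mu R ω g) with h | h
          · rw [hb', min_eq_left h]; linarith
          · rw [hb', min_eq_right h]
            have h1 : (c.M : ℚ) - cnt R ω Zs ≤ c.mu R ω g := by
              have h3 : c.M ≤ c.mu R ω g + cnt R ω Zs := by
                unfold mu
                rw [if_pos hg, hZs]
                have : min (c.M / 2) (cnt R ω (c.Z g)) ≤ cnt R ω (c.Z g) := min_le_right _ _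
                omega
              have : (c.M : ℚ) ≤ c.mu R ω g + cnt R ω Zs := by exact_mod_cast h3
              linarith
            linarith
        push_cast
        linarith
    · let n : ℕ → ℕ := fun v => (W.filter (fun x => c.loc x = v)).card
      refine ⟨n, fun v hv => ?_, ?_, ?_⟩
      · by_cases hvG : v ∈ c.Gf
        · simp only [n, hWe v hvG, card_empty]
          exact Nat.zero_le _
        · exact hWf v hvG
      · simp only [n]
        rw [sum_loc hWl d, h0]
        simp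
      · have e1 : ∑ v ∈ c.Lam, n v = cnt R ω N := by
          simp only [n]
          rw [card_loc hWl, hWc]
        rw [e1]
        have a3 := abs_nonneg ((cnt R ω Zs : ℚ) - p * Zs.card)
        rw [h0] at hb1
        push_cast at hb1
        linarith
  obtain ⟨n, k1, k2, k3⟩ := key
  obtain ⟨n', h1, h2, h3⟩ := complete hBL k1 hB hd hU
  refine ⟨n', h1, h2, h3.trans ?_⟩
  have e1 : ∑ x ∈ W, d (c.loc x) = ∑ x ∈ N, d (c.loc x) * ind R ω x := sum_filter_ind _ _
  rw [← e1]
  refine add_le_add k2 (mul_le_mul_of_nonneg_right ?_ hU0)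
  rcases le_total c.M (∑ v ∈ c.Lam, n v) with h | h
  · rw [Nat.sub_eq_zero_of_le h]
    have := abs_nonneg ((cnt R ω N : ℚ) - p * N.card)
    have := abs_nonneg ((cnt R ω Zs : ℚ) - p * Zs.card)
    push_cast; linarith
  · rw [Nat.cast_sub h]
    linarith

/-- coefficient of an item in the total mass -/
def cf (x : X) : ℚ := (if c.loc x ∉ c.Gf then 1 else 0)
  - ((c.Gf.filter (fun g => x ∈ c.Z g)).card : ℚ)

/-- **Total mass.** -/
theorem mass (ω : Ω) :
    ((∑ v ∈ c.Lam, c.mu R ω v : ℕ) : ℚ) ≤ c.M * c.Gf.card + ∑ x ∈ c.U, c.cf x * ind R ω x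
      + (∑ g ∈ c.Gf, (cnt R ω (c.Z g) : ℚ) ^ 2 / (2 * c.M)
        + ∑ j ∈ c.J0, ((c.M - cnt R ω (c.P j) : ℕ) : ℚ)) := by
  classical
  have hsplit : ∑ v ∈ c.Lam, c.mu R ω v = ∑ v ∈ c.Gf, c.mu R ω v
      + ∑ v ∈ c.Lam \ c.Gf, c.mu R ω v := by
    rw [add_comm, sum_sdiff c.Gf_sub]
  have h1 : ∑ v ∈ c.Gf, (c.mu R ω v : ℚ) ≤ c.M * c.Gf.card
      - ∑ g ∈ c.Gf, (cnt R ω (c.Z g) : ℚ)
      + ∑ g ∈ c.Gf, (cnt R ω (c.Z g) : ℚ) ^ 2 / (2 * c.M) := by
    have : ∀ v ∈ c.Gf, (c.mu R ω v : ℚ) ≤ c.M - (cnt R ω (c.Z v) : ℚ)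
        + (cnt R ω (c.Z v) : ℚ) ^ 2 / (2 * c.M) := by
      intro v hv
      unfold mu
      rw [if_pos hv]
      have h2 := min_half_ge (z := cnt R ω (c.Z v)) c.M_pos c.M_even
      have h3 : min (c.M / 2) (cnt R ω (c.Z v)) ≤ c.M := (min_le_left _ _).trans (Nat.div_le_self _ _)
      rw [Nat.cast_sub h3]
      linarith
    refine (sum_le_sum this).trans (le_of_eq ?_)
    rw [sum_add_distrib, sum_sub_distrib, sum_const, nsmul_eq_mul]
    ring
  have h2 : ∑ v ∈ c.Lam \ c.Gf, c.mu R ω v = cnt R ω c.H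
      + ∑ j ∈ c.J0, (c.M - cnt R ω (c.P j)) := by
    have : ∀ v ∈ c.Lam \ c.Gf, c.mu R ω v = (((c.H.filter (fun x => R ω x = true)).filter
        (fun x => c.loc x = v)).card) + ∑ j ∈ c.J0.filter (fun j => c.pt j = v),
          (c.M - cnt R ω (c.P j)) := by
      intro v hv
      rw [mem_sdiff] at hv
      unfold mu
      rw [if_neg hv.2]
      congr 1
      unfold cnt
      congr 1
      ext x
      simp only [mem_filter, H]
      constructor
      · rintro ⟨⟨a, b⟩, e⟩
        exact ⟨⟨⟨a, by rw [b]; exact hv.2⟩, e⟩, b⟩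
      · rintro ⟨⟨⟨a, _⟩, e⟩, b⟩
        exact ⟨⟨a, b⟩, e⟩
    rw [sum_congr rfl this, sum_add_distrib]
    congr 1
    · rw [card_loc (loc := c.loc) (fun x hx => ?_)]
      · rfl
      · simp only [H, mem_filter] at hx
        exact mem_sdiff.2 ⟨c.loc_mem x hx.1.1, hx.1.2⟩
    · exact sum_fiberwise_of_maps_to (fun j hj =>
        mem_sdiff.2 ⟨c.pt_mem j hj, c.pt_hub j hj⟩) _
  have h3 : (cnt R ω c.H : ℚ) - ∑ g ∈ c.Gf, (cnt R ω (c.Z g) : ℚ)
      = ∑ x ∈ c.U, c.cf x * ind R ω x := by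
    have e1 : (cnt R ω c.H : ℚ) = ∑ x ∈ c.U, (if c.loc x ∉ c.Gf then 1 else 0) * ind R ω x := by
      rw [cnt_eq]
      unfold H
      rw [sum_filter]
      refine sum_congr rfl fun x _ => ?_
      split_ifs <;> simp
    have e2 : ∑ g ∈ c.Gf, (cnt R ω (c.Z g) : ℚ)
        = ∑ x ∈ c.U, ((c.Gf.filter (fun g => x ∈ c.Z g)).card : ℚ) * ind R ω x := by
      have : ∀ g ∈ c.Gf, (cnt R ω (c.Z g) : ℚ)
          = ∑ x ∈ c.U, (if x ∈ c.Z g then ind R ω x else 0) := by
        intro g hg
        rw [cnt_eq, sum_ite_mem, inter_eq_right.2 (c.Z_sub g hg)]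
        simp
      rw [sum_congr rfl this, sum_comm]
      refine sum_congr rfl fun x _ => ?_
      rw [← sum_filter, sum_const, nsmul_eq_mul]
    rw [e1, e2, ← sum_sub_distrib]
    refine sum_congr rfl fun x _ => ?_
    unfold cf
    ring
  rw [hsplit, Nat.cast_add, h2]
  push_cast
  rw [← h3]
  linarith

end Core

end Crest.Agent.R310.Gran
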