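import Crest.Agent.R310.GranCore
import Crest.Agent.R310.FracSpec
import Crest.Agent.R310.GranDef

-- ▼ part R310/GranCap
section

/-!
# R310, block GRAN, part 5: capacity of balls; from plans to the nearest copies of a list
-/

set_option linter.dupNamespace false
set_option linter.unusedSectionVars false
set_option autoImplicit false

namespace Crest.Agent.R310.Gran

open Finset

namespace Core

variable {X Ω : Type} [DecidableEq X] (c : Core X) {R : Ω → X → Bool}

/-- the sampled items at the hubs of a ball -/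
theorem hub_part {ω : Ω} {Bl : Finset ℕ} {V : Finset X} (hV : V ⊆ c.U)
    (hVB : ∀ x ∈ V, c.loc x ∈ Bl) (hVH : ∀ x ∈ V, c.loc x ∉ c.Gf) :
    cnt R ω V ≤ ∑ v ∈ Bl \ c.Gf, cnt R ω (c.U.filter (fun x => c.loc x = v)) := by
  have h1 : cnt R ω V = ∑ v ∈ Bl \ c.Gf, ((V.filter (fun x => R ω x = true)).filter
      (fun x => c.loc x = v)).card := by
    rw [card_loc (loc := c.loc) (fun x hx => ?_)]
    · rfl
    · have hx' := (mem_filter.1 hx).1
      exact mem_sdiff.2 ⟨hVB x hx', hVH x hx'⟩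
  rw [h1]
  refine sum_le_sum fun v _ => ?_
  unfold cnt
  apply card_le_card
  intro x hx
  simp only [mem_filter] at hx ⊢
  exact ⟨⟨hV hx.1.1, hx.2⟩, hx.1.2⟩

theorem sum_split {ω : Ω} {Bl : Finset ℕ} :
    ∑ v ∈ Bl, c.mu R ω v = ∑ v ∈ Bl.filter (fun v => v ∈ c.Gf), c.mu R ω v
      + ∑ v ∈ Bl \ c.Gf, (cnt R ω (c.U.filter (fun x => c.loc x = v))
        + ∑ j ∈ c.J0.filter (fun j => c.pt j = v), (c.M - cnt R ω (c.P j))) := by
  have h1 : ∑ v ∈ Bl \ c.Gf, (cnt R ω (c.U.filter (fun x => c.loc x = v))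
        + ∑ j ∈ c.J0.filter (fun j => c.pt j = v), (c.M - cnt R ω (c.P j)))
      = ∑ v ∈ Bl \ c.Gf, c.mu R ω v := by
    refine sum_congr rfl fun v hv => ?_
    unfold mu
    rw [if_neg (mem_sdiff.1 hv).2]
  have h2 : Bl.filter (fun v => v ∈ c.Gf) = Bl \ (Bl \ c.Gf) := by
    ext v; simp only [mem_filter, mem_sdiff]; tauto
  rw [h1, h2, sum_sdiff sdiff_subset]

/-- a ball that contains a nearly full tight location and its foreign items is rich -/
theorem cap_tight {ω : Ω} {Bl : Finset ℕ} {g : ℕ} (hg : g ∈ c.Gf) (hgB : g ∈ Bl)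
    (hZ : ∀ x ∈ c.Z g, c.loc x ∈ Bl) : c.M ≤ ∑ v ∈ Bl, c.mu R ω v := by
  classical
  by_cases h : ∃ x ∈ c.Z g, c.loc x ∈ c.Gf
  · obtain ⟨x, hx, hxG⟩ := h
    have hne : c.loc x ≠ g := c.Z_ne g hg x hx
    have h1 := c.avail_tight (R := R) (ω := ω) hg
    have h2 := c.avail_tight (R := R) (ω := ω) hxG
    have h3 : c.mu R ω g + c.mu R ω (c.loc x) ≤ ∑ v ∈ Bl, c.mu R ω v := by
      rw [← sum_pair (Ne.symm hne)]
      apply sum_le_sum_of_subset
      intro v hv
      rcases mem_insert.1 hv with rfl | hv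
      · exact hgB
      · rw [mem_singleton.1 hv]; exact hZ x hx
    have h4 := c.M_even
    omega
  · push Not at h
    rw [c.sum_split]
    have h1 : c.mu R ω g ≤ ∑ v ∈ Bl.filter (fun v => v ∈ c.Gf), c.mu R ω v :=
      single_le_sum (f := fun v => c.mu R ω v) (fun _ _ => Nat.zero_le _)
        (mem_filter.2 ⟨hgB, hg⟩)
    have h2 := c.hub_part (R := R) (ω := ω) (c.Z_sub g hg) hZ h
    have h3 : ∑ v ∈ Bl \ c.Gf, cnt R ω (c.U.filter (fun x => c.loc x = v))
        ≤ ∑ v ∈ Bl \ c.Gf, (cnt R ω (c.U.filter (fun x => c.loc x = v))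
        + ∑ j ∈ c.J0.filter (fun j => c.pt j = v), (c.M - cnt R ω (c.P j))) :=
      sum_le_sum fun v _ => Nat.le_add_right _ _
    have h4 : c.M ≤ c.mu R ω g + cnt R ω (c.Z g) := by
      unfold mu
      rw [if_pos hg]
      have : min (c.M / 2) (cnt R ω (c.Z g)) ≤ cnt R ω (c.Z g) := min_le_right _ _
      omega
    omega

/-- a ball that contains a representative is rich -/
theorem cap_rep {ω : Ω} {Bl : Finset ℕ} {j : ℕ} (hj : j ∈ c.J0)
    (hP : ∀ x ∈ c.P j, c.loc x ∈ Bl) (hpt : c.pt j ∈ Bl) : c.M ≤ ∑ v ∈ Bl, c.mu R ω v := by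
  classical
  rw [c.sum_split]
  have h2 := c.hub_part (R := R) (ω := ω) (c.P_sub j hj) hP (c.P_hub j hj)
  have h3 : c.M - cnt R ω (c.P j) ≤ ∑ v ∈ Bl \ c.Gf, ∑ j ∈ c.J0.filter (fun j => c.pt j = v),
      (c.M - cnt R ω (c.P j)) := by
    refine le_trans ?_ (single_le_sum (f := fun v => ∑ j ∈ c.J0.filter (fun j => c.pt j = v),
      (c.M - cnt R ω (c.P j))) (fun _ _ => Nat.zero_le _)
      (mem_sdiff.2 ⟨hpt, c.pt_hub j hj⟩))
    exact single_le_sum (f := fun j => c.M - cnt R ω (c.P j)) (fun _ _ => Nat.zero_le _)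
      (mem_filter.2 ⟨hj, rfl⟩)
  rw [sum_add_distrib]
  omega

end Core

/-! ### from a plan to the nearest copies -/

/-- a plan `n ≤ multiplicities` of total `M` bounds the cost of the `M` nearest copies -/
theorem near_le_plan {r : RI} {Yc : List ℕ} {N M j : ℕ}
    {n : ℕ → ℕ} (hn : ∀ v < N, n v ≤ Yc.count v) (hM : ∑ v ∈ range N, n v = M)
    (hd : ∀ v, 0 ≤ riD r v j) :
    M ≤ Yc.length ∧
    ∑ e ∈ (range Yc.length).filter (fun e => near r Yc M j e = true), riD r (Yc.getD e 0) j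
      ≤ ∑ v ∈ range N, (n v : ℚ) * riD r v j := by
  classical
  -- the fibers
  have hfib : ∀ v, ((range Yc.length).filter (fun e => Yc.getD e 0 = v)).card = Yc.count v := by
    intro v
    have h1 : ∀ l : List ℕ, ((range l.length).filter (fun e => l.getD e 0 = v)).card
        = l.count v := by
      intro l
      induction l with
      | nil => simp
      | cons a l ih =>
        rw [List.length_cons, range_add_one', filter_insert, List.count_cons]
        have e1 : ((range l.length).map ⟨fun i => i + 1, fun i j => by simp⟩).filter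
            (fun e => (a :: l).getD e 0 = v)
            = ((range l.length).filter (fun e => l.getD e 0 = v)).map
              ⟨fun i => i + 1, fun i j => by simp⟩ := by
          rw [filter_map]
          rfl
        by_cases hav : a = v
        · rw [if_pos (by simpa using hav), card_insert_of_notMem (by simp), e1, card_map, ih]
          simp [hav]
        · rw [if_neg (by simpa using hav), e1, card_map, ih]
          simp [hav]
    exact h1 Yc
  have hex : ∀ v, ∃ W ⊆ (range Yc.length).filter (fun e => Yc.getD e 0 = v),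
      W.card = (if v < N then n v else 0) := by
    intro v
    apply exists_subset_card_eq
    rw [hfib]
    split_ifs with h
    · exact hn v h
    · exact Nat.zero_le _
  choose W hW1 hW2 using hex
  set X : Finset ℕ := (range N).biUnion W with hX
  have hXs : X ⊆ range Yc.length := by
    intro e he
    obtain ⟨v, _, h⟩ := mem_biUnion.1 he
    exact (mem_filter.1 (hW1 v h)).1
  have hdis : ∀ v ∈ range N, ∀ v' ∈ range N, v ≠ v' → Disjoint (W v) (W v') := by
    intro v _ v' _ hne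
    rw [disjoint_left]
    intro e he he'
    exact hne ((mem_filter.1 (hW1 v he)).2.symm.trans (mem_filter.1 (hW1 v' he')).2)
  have hXc : X.card = M := by
    rw [hX, card_biUnion hdis, ← hM]
    exact sum_congr rfl fun v hv => by rw [hW2, if_pos (mem_range.1 hv)]
  have hML : M ≤ Yc.length := by
    rw [← hXc]
    simpa using card_le_card hXs
  refine ⟨hML, (near_min r Yc hML j hXs hXc.ge (fun e _ => hd _)).trans (le_of_eq ?_)⟩
  rw [hX, sum_biUnion hdis]
  refine sum_congr rfl fun v hv => ?_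
  have : ∀ e ∈ W v, riD r (Yc.getD e 0) j = riD r v j := by
    intro e he
    rw [(mem_filter.1 (hW1 v he)).2]
  rw [sum_congr rfl this, sum_const, nsmul_eq_mul, hW2, if_pos (mem_range.1 hv)]

end Crest.Agent.R310.Gran
end

-- ▼ part R310/GranInst

/-!
# R310, block GRAN, part 6: the concrete instance of `Core`
-/

set_option linter.dupNamespace false
set_option linter.unusedSectionVars false
set_option autoImplicit false

namespace Crest.Agent.R310.Gran

open Finset

theorem len_filter_range (n : ℕ) (p : ℕ → Bool) :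
    ((List.range n).filter p).length = ((range n).filter (fun e => p e = true)).card := by
  rw [← List.toFinset_card_of_nodup (List.Nodup.filter _ List.nodup_range)]
  congr 1
  ext x
  simp

theorem len_filter {l : List ℕ} (hl : l.Nodup) (p : ℕ → Bool) :
    (l.filter p).length = (l.toFinset.filter (fun e => p e = true)).card := by
  rw [← List.toFinset_card_of_nodup (List.Nodup.filter _ hl)]
  congr 1
  ext x
  simp

namespace Par

/-- hypotheses on the parameters -/
structure Ok (c : Par) : Prop where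
  d_nonneg : ∀ i j, 0 ≤ riD c.r i j
  d_self : ∀ i < c.n, riD c.r i i = 0
  d_pos : ∀ i < c.n, ∀ j < c.n, i ≠ j → 0 < riD c.r i j
  d_symm : ∀ i < c.n, ∀ j < c.n, riD c.r i j = riD c.r j i
  d_tri : ∀ i < c.n, ∀ j < c.n, ∀ k < c.n, riD c.r i k ≤ riD c.r i j + riD c.r j k
  loc_lt : ∀ e < c.L, c.loc e < c.n
  m_pos : 0 < c.m
  m_le : c.m ≤ c.L
  Gt_lt : ∀ g ∈ c.Gt, g < c.n
  Gt_nodup : c.Gt.Nodup
  T2 : 2 ≤ c.T
  E4 : 4 ≤ c.E
  M_pos : 0 < c.M
  M_even : 2 ∣ c.M
  M_le : c.M ≤ c.m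
  K_pos : 0 < c.K

variable (c : Par)

/-- near copies -/
def NF (j : ℕ) : Finset ℕ := (range c.L).filter (fun e => near c.r c.Y c.m j e = true)
/-- live copies -/
def liveF : Finset ℕ := (range c.L).filter (fun e => c.live e = true)
/-- nearly full tight locations -/
def Gf : Finset ℕ := c.GfL.toFinset
/-- foreign copies of `g` -/
def ZF (g : ℕ) : Finset ℕ := (range c.L).filter (fun e => c.Zb g e = true)
/-- own live copies -/
def own (g : ℕ) : Finset ℕ := c.liveF.filter (fun e => c.loc e = g)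
/-- hub copies of a client in its Markov ball -/
def PF (j : ℕ) : Finset ℕ := (range c.L).filter (fun e => c.Pb j e = true)
/-- items -/
def UF : Finset (ℕ × ℕ) :=
  (range c.L ×ˢ range (c.n + 1)).filter (fun q => c.live q.1 = true ∧ q.2 ≤ c.load q.1 / c.K)
/-- foreign items of `g` -/
def ZI (g : ℕ) : Finset (ℕ × ℕ) := (c.ZF g).image (fun x => (x, c.rank g x / c.K))
/-- hub items of a representative -/
def PI (j : ℕ) : Finset (ℕ × ℕ) := (c.PF j).image (fun x => (x, 0))

/-- the sampling predicate on items -/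
def hitI (P : ℕ) (s : ℕ × ℕ) (q : ℕ × ℕ) : Bool := c.hit P s q.1 q.2

variable {c}

theorem mem_NF {j e : ℕ} : e ∈ c.NF j ↔ e < c.L ∧ near c.r c.Y c.m j e = true := by
  unfold NF; rw [mem_filter, mem_range]

theorem mem_liveF {e : ℕ} : e ∈ c.liveF ↔ e < c.L ∧ c.live e = true := by
  unfold liveF; rw [mem_filter, mem_range]

theorem mem_ZF {g e : ℕ} : e ∈ c.ZF g ↔ e ∈ c.NF g ∧ c.loc e ≠ g := by
  unfold ZF NF Zb; simp only [mem_filter, mem_range, Bool.and_eq_true, Bool.not_eq_true',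
    decide_eq_false_iff_not]; tauto

theorem mem_own {g e : ℕ} : e ∈ c.own g ↔ e ∈ c.liveF ∧ c.loc e = g := by
  unfold own; rw [mem_filter]

theorem mem_Gf {v : ℕ} : v ∈ c.Gf ↔ c.isF v = true := by
  unfold Gf GfL isF
  simp only [List.mem_toFinset, List.mem_filter, Bool.and_eq_true, decide_eq_true_eq]
  tauto

theorem isF_iff {v : ℕ} : c.isF v = true ↔ v ∈ c.Gt ∧ 2 * c.T * (c.m - c.cntL v) ≤ c.m := by
  unfold isF; simp only [Bool.and_eq_true, decide_eq_true_eq]

theorem mem_PF {j e : ℕ} : e ∈ c.PF j ↔ e ∈ c.NF j ∧ c.loc e ∉ c.Gf ∧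
    c.m * riD c.r (c.loc e) j ≤ c.E * c.nc j := by
  unfold PF NF Pb
  rw [mem_Gf]
  simp only [mem_filter, mem_range, Bool.and_eq_true, Bool.not_eq_true', decide_eq_true_eq,
    Bool.not_eq_true]
  tauto

theorem mem_UF {q : ℕ × ℕ} : q ∈ c.UF ↔ q.1 ∈ c.liveF ∧ q.2 ≤ c.n ∧ q.2 ≤ c.load q.1 / c.K := by
  unfold UF
  rw [mem_filter, mem_product, mem_range, mem_range, mem_liveF, Nat.lt_succ_iff]
  tauto

theorem mem_ZI {g : ℕ} {q : ℕ × ℕ} : q ∈ c.ZI g ↔ q.1 ∈ c.ZF g ∧ q.2 = c.rank g q.1 / c.K := by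
  unfold ZI
  rw [mem_image]
  constructor
  · rintro ⟨x, hx, rfl⟩; exact ⟨hx, rfl⟩
  · rintro ⟨h1, h2⟩; exact ⟨q.1, h1, by rw [← h2]⟩

theorem mem_PI {j : ℕ} {q : ℕ × ℕ} : q ∈ c.PI j ↔ q.1 ∈ c.PF j ∧ q.2 = 0 := by
  unfold PI
  rw [mem_image]
  constructor
  · rintro ⟨x, hx, rfl⟩; exact ⟨hx, rfl⟩
  · rintro ⟨h1, h2⟩; exact ⟨q.1, h1, by rw [← h2]⟩

theorem card_ZI (g : ℕ) : (c.ZI g).card = (c.ZF g).card :=
  card_image_of_injective _ fun x y h => (Prod.mk.inj h).1

theorem card_PI (j : ℕ) : (c.PI j).card = (c.PF j).card :=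
  card_image_of_injective _ fun x y h => (Prod.mk.inj h).1

theorem sum_ZI (g : ℕ) (f : ℕ → ℚ) : ∑ q ∈ c.ZI g, f q.1 = ∑ x ∈ c.ZF g, f x := by
  unfold ZI
  rw [sum_image (fun x _ y _ h => (Prod.mk.inj h).1)]

theorem length_PL (j : ℕ) : (c.PL j).length = (c.PF j).card := by
  unfold PL PF; exact len_filter_range _ _

theorem mem_PL {j e : ℕ} : e ∈ c.PL j ↔ e ∈ c.PF j := by
  unfold PL PF; simp

theorem mem_PF_iff {j e : ℕ} : e ∈ c.PF j ↔ e < c.L ∧ c.Pb j e = true := by
  unfold PF; rw [mem_filter, mem_range]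

theorem mem_ZF_iff {g e : ℕ} : e ∈ c.ZF g ↔ e < c.L ∧ c.Zb g e = true := by
  unfold ZF; rw [mem_filter, mem_range]

theorem cntL_eq (v : ℕ) : c.cntL v = ((range c.L).filter (fun e => c.loc e = v)).card := by
  unfold cntL; rw [len_filter_range]; simp

theorem GfL_nodup (h : c.Ok) : c.GfL.Nodup := List.Nodup.filter _ h.Gt_nodup

theorem load_eq (h : c.Ok) (x : ℕ) :
    c.load x = (c.Gf.filter (fun g => c.Zb g x = true)).card := by
  unfold load Gf; exact len_filter (GfL_nodup h) _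

theorem rank_eq (h : c.Ok) (g x : ℕ) :
    c.rank g x = (c.Gf.filter (fun g' => g' < g ∧ c.Zb g' x = true)).card := by
  unfold rank Gf
  rw [len_filter (GfL_nodup h)]
  simp

theorem Gf_lt (h : c.Ok) {g : ℕ} (hg : g ∈ c.Gf) : g < c.n := by
  rw [mem_Gf, isF_iff] at hg
  exact h.Gt_lt g hg.1

theorem rank_lt_load (h : c.Ok) {g x : ℕ} (hg : g ∈ c.Gf) (hx : c.Zb g x = true) :
    c.rank g x < c.load x := by
  rw [rank_eq h, load_eq h]
  apply card_lt_card
  rw [ssubset_iff_of_subset]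
  · exact ⟨g, mem_filter.2 ⟨hg, hx⟩, by simp⟩
  · intro g' hg'
    rw [mem_filter] at hg' ⊢
    exact ⟨hg'.1, hg'.2.2⟩

theorem load_le (h : c.Ok) (x : ℕ) : c.load x ≤ c.n := by
  rw [load_eq h]
  refine (card_le_card (filter_subset _ _)).trans ?_
  have : c.Gf ⊆ range c.n := fun g hg => mem_range.2 (Gf_lt h hg)
  simpa using card_le_card this

/-- near copies are live -/
theorem NF_live {j e : ℕ} (he : e ∈ c.NF j) : e ∈ c.liveF := by
  rw [mem_NF] at he
  rw [mem_liveF]
  refine ⟨he.1, ?_⟩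
  have h1 := (near_iff _ _ _ _ _).1 he.2
  unfold live
  rw [decide_eq_true_eq, len_filter_range]
  refine lt_of_le_of_lt (card_le_card ?_) h1
  intro e' he'
  rw [mem_filter, mem_range, decide_eq_true_eq] at he'
  rw [mem_filter, mem_range, copyKey_lt]
  have hloc : c.Y.getD e' 0 = c.Y.getD e 0 := he'.2
  have he1 : e < c.Y.length := he.1
  refine ⟨by omega, Or.inr ⟨by rw [hloc], Or.inr ⟨hloc, he'.1⟩⟩⟩

theorem ZI_sub (h : c.Ok) {g : ℕ} (hg : g ∈ c.Gf) : c.ZI g ⊆ c.UF := by
  intro q hq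
  rw [mem_ZI] at hq
  rw [mem_UF]
  have h1 := rank_lt_load h hg (mem_ZF_iff.1 hq.1).2
  have h2 := load_le h q.1
  have h3 : c.rank g q.1 / c.K ≤ c.load q.1 / c.K := Nat.div_le_div_right h1.le
  have h4 : c.load q.1 / c.K ≤ c.load q.1 := Nat.div_le_self _ _
  refine ⟨NF_live (mem_ZF.1 hq.1).1, ?_, ?_⟩ <;> rw [hq.2]
  · omega
  · exact h3

theorem PI_sub {j : ℕ} : c.PI j ⊆ c.UF := by
  intro q hq
  rw [mem_PI] at hq
  rw [mem_UF, hq.2]
  exact ⟨NF_live (mem_PF.1 hq.1).1, Nat.zero_le _, Nat.zero_le _⟩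

/-- the representatives are candidates -/
theorem reps_prop {j : ℕ} (hj : j ∈ c.reps) : j < c.n ∧ c.isB j = true := by
  have key : ∀ (l : List ℕ) (J : List ℕ), (∀ j ∈ J, j < c.n ∧ c.isB j = true) →
      ∀ j ∈ l.foldl c.repStep J, j < c.n ∧ c.isB j = true := by
    intro l
    induction l with
    | nil => intro J hJ j hj; exact hJ j hj
    | cons t l ih =>
      intro J hJ j hj
      rw [List.foldl_cons] at hj
      refine ih _ ?_ j hj
      intro i hi
      unfold repStep at hi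
      rw [List.mem_append] at hi
      rcases hi with hi | hi
      · exact hJ i hi
      · rw [List.mem_filter, List.mem_range, Bool.and_eq_true] at hi
        exact ⟨hi.1, hi.2.1⟩
  exact key _ [] (by simp) j hj

theorem PL_ne (h : c.Ok) {j : ℕ} (hj : c.isB j = true) : c.PL j ≠ [] := by
  intro h0
  unfold isB at hj
  rw [decide_eq_true_eq, h0] at hj
  have h1 := h.E4
  have h2 := h.m_pos
  simp only [List.length_nil, mul_zero, zero_add] at hj
  nlinarith

theorem pt_spec (h : c.Ok) {j : ℕ} (hj : c.isB j = true) : ∃ e ∈ c.PF j, c.pt j = c.loc e := by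
  have h1 := PL_ne h hj
  unfold pt
  rcases h2 : c.PL j with _ | ⟨a, l⟩
  · exact absurd h2 h1
  · refine ⟨a, ?_, rfl⟩
    rw [← mem_PL, h2]; simp

/-- **the concrete core** -/
def core (h : c.Ok) : Core (ℕ × ℕ) where
  Lam := range c.n
  Gf := c.Gf
  U := c.UF
  loc := fun q => c.loc q.1
  Z := c.ZI
  J0 := c.reps.toFinset
  P := c.PI
  pt := c.pt
  M := c.M
  M_pos := h.M_pos
  M_even := h.M_even
  Gf_sub := fun g hg => mem_range.2 (Gf_lt h hg)
  loc_mem := fun q hq => mem_range.2 (h.loc_lt _ (mem_liveF.1 (mem_UF.1 hq).1).1)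
  Z_sub := fun g hg => ZI_sub h hg
  Z_ne := fun g _ q hq => (mem_ZF.1 (mem_ZI.1 hq).1).2
  P_sub := fun j _ => PI_sub
  P_hub := fun j _ q hq => (mem_PF.1 (mem_PI.1 hq).1).2.1
  pt_mem := by
    intro j hj
    obtain ⟨e, he, hpt⟩ := pt_spec h (reps_prop (List.mem_toFinset.1 hj)).2
    rw [hpt]
    exact mem_range.2 (h.loc_lt _ (mem_PF_iff.1 he).1)
  pt_hub := by
    intro j hj
    obtain ⟨e, he, hpt⟩ := pt_spec h (reps_prop (List.mem_toFinset.1 hj)).2
    rw [hpt]
    exact (mem_PF.1 he).2.1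

end Par

end Crest.Agent.R310.Gran
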